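import Vale.Agent.P275RL.Log
import Vale.Agent.P281Z.Hm.MCalc
import Mathlib.LinearAlgebra.Matrix.Charpoly.Basic
import Mathlib.LinearAlgebra.Matrix.Block

/-!
# P275, local Riemann-Hilbert: matrices
-/

set_option linter.all false

open scoped Topology Real Matrix.Norms.Operator
open Filter Set Metric Complex Polynomial Matrix
open Vale.Agent.P281Z.Hm (Mx an_det fderiv_det)

noncomputable section

namespace Vale.Agent.P275RL

variable {n : ℕ}

theorem der_det {f : ℂ → Mx (Fin n)} {f' : Mx (Fin n)} {z : ℂ} (hf : HasDerivAt f f' z)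
    (h0 : (f z).det ≠ 0) :
    HasDerivAt (fun w => (f w).det) ((f z).det * trace ((f z)⁻¹ * f')) z := by
  have h1 : DifferentiableAt ℂ (fun w => (f w).det) z :=
    (an_det (𝕜 := ℂ) (f := id) (z := f z) analyticAt_id).differentiableAt.comp z hf.differentiableAt
  have h2 := fderiv_det (hf.differentiableAt.restrictScalars ℝ) h0 1
  have h3 : fderiv ℝ f z 1 = f' :=
    (congrArg (· 1) (hf.hasFDerivAt.restrictScalars ℝ).fderiv).trans (one_smul ℂ f')
  rw [(h1.hasDerivAt.hasFDerivAt.restrictScalars ℝ).fderiv, h3] at h2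
  refine HasDerivAt.congr_deriv h1.hasDerivAt ?_
  simpa using h2

theorem ex_det_ne (R : Mx (Fin n)) (w : ℂ) : (ex R w).det ≠ 0 :=
  ((Matrix.isUnit_iff_isUnit_det _).1 (ex_unit R w)).ne_zero

theorem ex_inv (R : Mx (Fin n)) (w : ℂ) : (ex R w)⁻¹ = ex R (-w) :=
  Matrix.inv_eq_left_inv (ex_neg_mul R w)

theorem det_ex (R : Mx (Fin n)) (w : ℂ) : (ex R w).det = exp (w * R.trace) := by
  have := ode_eq' (X := ContinuousLinearMap.mul ℂ ℂ R.trace) (φ := fun w => (ex R w).det) (fun w => by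
    refine HasDerivAt.congr_deriv (der_det (ex_der' R w) (ex_det_ne R w)) ?_
    rw [← Matrix.mul_assoc, ex_inv, ex_neg_mul, Matrix.one_mul, mul_comm]; rfl) w
  have h2 := ode_eq' (X := ContinuousLinearMap.mul ℂ ℂ R.trace) (φ := fun w => exp (w * R.trace))
    (fun w => by simpa [mul_comm] using ((hasDerivAt_id w).mul_const R.trace).cexp) w
  rw [this, h2]; simp

theorem Gau.inv {c : ℂ} {r : ℝ} {A g h : ℂ → Mx (Fin n)} (G : Gau c r A g h) {z : ℂ}
    (hz : z ∈ ball c r) : (g z)⁻¹ = h z := Matrix.inv_eq_left_inv (G.hg' z hz)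

theorem Gau.det_ne {c : ℂ} {r : ℝ} {A g h : ℂ → Mx (Fin n)} (G : Gau c r A g h) {z : ℂ}
    (hz : z ∈ ball c r) : (g z).det ≠ 0 :=
  ((Matrix.isUnit_iff_isUnit_det _).1 (G.unit hz)).ne_zero

/-- the gauge of a connection with constant trace has determinant one -/
theorem Gau.det_one {c : ℂ} {r : ℝ} {A g h : ℂ → Mx (Fin n)} (G : Gau c r A g h)
    (hA : ∀ z ∈ ball c r, (A z).trace = (A c).trace) : ∀ z ∈ ball c r, (g z).det = 1 := by
  have hd : ∀ z ∈ ball c r, HasDerivAt (fun w => (g w).det)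
      ((g z).det * trace ((g z)⁻¹ * deriv g z)) z := fun z hz =>
    der_det (G.hg.hol.differentiableAt (isOpen_ball.mem_nhds hz)).hasDerivAt (G.det_ne hz)
  have hD : DifferentiableOn ℂ (fun w => (g w).det) (ball c r) := fun z hz =>
    (hd z hz).differentiableAt.differentiableWithinAt
  have h1 : ∀ z ∈ ball c r, z ≠ c → deriv (fun w => (g w).det) z = 0 := fun z hz h0 => by
    have e := congrArg (fun Y => trace ((g z)⁻¹ * Y)) (eq_sub_of_add_eq (G.hg.eq z hz))
    simp only [Matrix.mul_smul, trace_smul, Matrix.mul_sub, trace_sub] at e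
    rw [G.inv hz, ← Matrix.mul_assoc, G.hg' z hz, Matrix.one_mul, trace_mul_comm (h z) (A z * g z),
      Matrix.mul_assoc, G.gh z hz, Matrix.mul_one, hA z hz, sub_self] at e
    rw [(hd z hz).deriv, G.inv hz]
    exact mul_eq_zero_of_right _ ((mul_eq_zero.1 e).resolve_left (sub_ne_zero.2 h0))
  have h2 := eq_on_of_ne (diff_sh (hD.deriv isOpen_ball)).continuousOn (v := fun _ => 0)
    continuousOn_const fun z hz h0 => h1 _ (add_mem_ball.2 hz) (by simpa using h0)
  intro z hz
  have := isOpen_ball.is_const_of_deriv_eq_zero (convex_ball c r).isPreconnected hD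
    (fun w hw => by simpa using h2 (w - c) (add_mem_ball.1 (by rwa [add_sub_cancel]))) hz
    (mem_ball_self (pos_of_mem_ball hz))
  rw [this, G.g1, Matrix.det_one]

/-! ### triangular matrices -/

theorem ann_charpoly {t : Fin n → ℂ} {R : Mx (Fin n)} (h : R.charpoly = ∏ i, (X - C (t i))) :
    Ann t R := by rw [Ann, ← h]; exact aeval_self_charpoly R

theorem ann_tri {R : Mx (Fin n)} (h : R.BlockTriangular id) : Ann (fun i => R i i) R :=
  ann_charpoly (charpoly_of_upperTriangular R h)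

theorem Ann.conj {t : Fin n → ℂ} {R σ : Mx (Fin n)} (h : Ann t R) (hσ : σ.det ≠ 0) :
    Ann t (σ * R * σ⁻¹) := by
  have := aeval_semi (R := σ * R * σ⁻¹) (S := R) (Y := σ)
    (nonsing_inv_mul_cancel_right _ _ hσ.isUnit) (∏ i, (X - C (t i)))
  rw [h, Matrix.mul_zero] at this
  have h2 := congrArg (· * σ⁻¹) this
  simp only [mul_nonsing_inv_cancel_right _ _ hσ.isUnit, Matrix.zero_mul] at h2
  exact h2

theorem ex_conj (R : Mx (Fin n)) {σ : Mx (Fin n)} (hσ : σ.det ≠ 0) (w : ℂ) :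
    ex (σ * R * σ⁻¹) w = σ * ex R w * σ⁻¹ := by
  rw [← ex_semi (R := σ * R * σ⁻¹) (nonsing_inv_mul_cancel_right _ _ hσ.isUnit),
    mul_nonsing_inv_cancel_right _ _ hσ.isUnit]

theorem tri_diag_mul {g h : Mx (Fin n)} (hg : g.BlockTriangular id) (hh : h.BlockTriangular id)
    (a : Fin n) : (g * h) a a = g a a * h a a := by
  rw [Matrix.mul_apply, Finset.sum_eq_single a]
  · intro b _ hb
    rcases lt_or_gt_of_ne hb with e | e
    · rw [hg e, zero_mul]
    · rw [hh e, mul_zero]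
  · simp

theorem aeval_tri {R : Mx (Fin n)} (h : R.BlockTriangular id) (P : ℂ[X]) :
    (aeval R P).BlockTriangular id ∧ ∀ i, aeval R P i i = P.eval (R i i) := by
  induction P using Polynomial.induction_on with
  | C a =>
    rw [aeval_C, Algebra.algebraMap_eq_smul_one]
    exact ⟨fun i j e => by simp [Matrix.one_apply_ne (show i ≠ j from ne_of_gt e)], by simp⟩
  | add p q hp hq => rw [map_add]; exact ⟨hp.1.add hq.1, fun i => by simp [hp.2, hq.2]⟩
  | monomial k a ih =>
    rw [pow_succ, ← mul_assoc, map_mul, aeval_X]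
    exact ⟨ih.1.mul h, fun i => by rw [tri_diag_mul ih.1 h, ih.2]; simp⟩

theorem ex_tri {R : Mx (Fin n)} (h : R.BlockTriangular id) (w : ℂ) :
    (ex R w).BlockTriangular id ∧ ∀ i, ex R w i i = exp (w * R i i) := by
  rw [ex_eq (ann_tri h)]
  exact ⟨(aeval_tri h _).1, fun i => by rw [(aeval_tri h _).2, exP_eval (fun i => R i i)]⟩

/-- the logarithm of a triangular matrix with diagonal `exp (-2 π i t)` -/
theorem Lg_tri {t : Fin n → ℂ} (ht : NRt t t) {μ : Mx (Fin n)} (h : μ.BlockTriangular id)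
    (hd : ∀ i, μ i i = ta (t i)) : (Lg t μ).BlockTriangular id ∧ (∀ i, Lg t μ i i = t i) ∧
      ex (Lg t μ) (-(2 * π * I)) = μ := by
  refine ⟨?_, fun i => ?_, ex_Lg ht (by simpa only [hd] using ann_tri h)⟩
  · rw [Lg_eq]; exact (aeval_tri h _).1
  · rw [Lg_eq, (aeval_tri h _).2, hd, lgP_eval ht]

theorem Lg_ex_tri {R : Mx (Fin n)} (h : R.BlockTriangular id)
    (ht : NRt (fun i => R i i) fun i => R i i) :
    Lg (fun i => R i i) (ex R (-(2 * π * I))) = R := Lg_ex ht (ann_tri h)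

theorem nr_tri {R S σ σ' : Mx (Fin n)} (hR : R.BlockTriangular id) (hS : S.BlockTriangular id)
    (h : NRt (fun i => R i i) fun i => S i i) (hσ : σ.det ≠ 0) (hσ' : σ'.det ≠ 0) :
    NR (σ * R * σ⁻¹) (σ' * S * σ'⁻¹) := h.nr ((ann_tri hR).conj hσ) ((ann_tri hS).conj hσ')

end Vale.Agent.P275RL
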