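import Vale.Agent.P275RL.Rd
import Vale.Agent.P275MB.Gau

/-!
# P275, Riemann-Hilbert in families: basic lemmas on words, projectively flat germs and gauges
-/

set_option linter.all false

open scoped Topology Real Matrix.Norms.Operator
open Filter Set Metric Complex Polynomial
open Vale.Agent.P275GC (At)
open Vale.Agent.P275GC.At
open Vale.Agent.P275NA (Cy Fm Mn)
open Vale.Agent.P275MO Vale.Agent.P275MB
open Vale.Agent.P275Z
open Vale.Agent.P281Z.Hm (an_det)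

noncomputable section

namespace Vale.Agent.P275RL

variable {C : Type} [TopologicalSpace C] {n g : ℕ}

section wv

variable {ρ ρ' ρ'' : Tup g n} {h h' : Mn n}

theorem wv_of (ρ : Tup g n) (s : Fin g × Bool) : wv ρ (FreeGroup.of s) = (ρ s).1 := by simp [wv]

theorem wv_one (ρ : Tup g n) : wv ρ 1 = 1 := by simp [wv]

theorem wv_mul (ρ : Tup g n) (a b : Fg g) : wv ρ (a * b) = wv ρ a * wv ρ b := by simp [wv]

theorem wv_det (ρ : Tup g n) (a : Fg g) : (wv ρ a).det = 1 := (FreeGroup.lift ρ a).2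

theorem wv_det_ne (ρ : Tup g n) (a : Fg g) : (wv ρ a).det ≠ 0 := by simp [wv_det]

theorem wv_mul_inv (ρ : Tup g n) (a : Fg g) : wv ρ a * wv ρ a⁻¹ = 1 := by
  rw [← wv_mul, mul_inv_cancel, wv_one]

theorem wv_inv_mul (ρ : Tup g n) (a : Fg g) : wv ρ a⁻¹ * wv ρ a = 1 := by
  rw [← wv_mul, inv_mul_cancel, wv_one]

theorem wv_inv (ρ : Tup g n) (a : Fg g) : wv ρ a⁻¹ = (wv ρ a)⁻¹ :=
  (Matrix.inv_eq_right_inv (wv_mul_inv ρ a)).symm

theorem mul_inv' (d : h.det ≠ 0) : h * h⁻¹ = 1 := Matrix.mul_nonsing_inv _ d.isUnit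

theorem inv_mul' (d : h.det ≠ 0) : h⁻¹ * h = 1 := Matrix.nonsing_inv_mul _ d.isUnit

theorem mul_inv_can (d : h.det ≠ 0) (X : Mn n) : h * (h⁻¹ * X) = X := by
  rw [← mul_assoc, mul_inv' d, one_mul]

theorem inv_mul_can (d : h.det ≠ 0) (X : Mn n) : h⁻¹ * (h * X) = X := by
  rw [← mul_assoc, inv_mul' d, one_mul]

theorem det_inv_ne (d : h.det ≠ 0) : (h⁻¹).det ≠ 0 := by
  rw [Matrix.det_nonsing_inv, Ring.inverse_eq_inv']; exact inv_ne_zero d

theorem inv_inv' (d : h.det ≠ 0) : h⁻¹⁻¹ = h := Matrix.nonsing_inv_nonsing_inv _ d.isUnit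

/-- intertwiners of the generators intertwine the words -/
theorem wv_semi {M : Mn n} (e : ∀ s, (ρ s).1 * M = M * (ρ' s).1) (a : Fg g) :
    wv ρ a * M = M * wv ρ' a := by
  induction a using FreeGroup.induction_on with
  | C1 => simp [wv_one]
  | of s => simpa [wv_of] using e s
  | inv_of s ih =>
    calc wv ρ (FreeGroup.of s)⁻¹ * M
        = wv ρ (FreeGroup.of s)⁻¹ * (M * wv ρ' (FreeGroup.of s)) * wv ρ' (FreeGroup.of s)⁻¹ := by
          rw [mul_assoc, mul_assoc, wv_mul_inv, mul_one]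
      _ = _ := by rw [← ih, ← mul_assoc, wv_inv_mul, one_mul]
  | mul a b ha hb => rw [wv_mul, wv_mul, mul_assoc, hb, ← mul_assoc, ha, mul_assoc]

theorem cj_iff (d : h.det ≠ 0) : Cj h ρ ρ' ↔ ∀ s, (ρ s).1 * h = h * (ρ' s).1 :=
  forall_congr' fun s => ⟨fun e => by rw [e, mul_assoc, mul_inv_can d], fun e => by
    rw [mul_assoc, e, inv_mul_can d]⟩

theorem cj_semi (e : Cj h ρ ρ') (d : h.det ≠ 0) (a : Fg g) : wv ρ a * h = h * wv ρ' a :=
  wv_semi ((cj_iff d).1 e) a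

theorem cj_wv (e : Cj h ρ ρ') (d : h.det ≠ 0) (a : Fg g) : wv ρ' a = h⁻¹ * wv ρ a * h := by
  rw [mul_assoc, cj_semi e d, inv_mul_can d]

theorem cj_one : Cj 1 ρ ρ' ↔ ρ' = ρ :=
  ⟨fun e => funext fun s => Subtype.ext (by simpa using e s), fun e s => by simp [e]⟩

theorem cj_symm (e : Cj h ρ ρ') (d : h.det ≠ 0) : Cj h⁻¹ ρ' ρ := fun s => by
  rw [e s, inv_inv' d, ← mul_assoc, ← mul_assoc, mul_inv' d, one_mul, mul_assoc, mul_inv' d,
    mul_one]

theorem cj_trans (e : Cj h ρ ρ') (e' : Cj h' ρ' ρ'') : Cj (h * h') ρ ρ'' := fun s => by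
  rw [e' s, e s, Matrix.mul_inv_rev]; simp only [mul_assoc]

theorem cj_smul {c : ℂ} (hc : c ≠ 0) (d : h.det ≠ 0) : Cj (c • h) ρ ρ' ↔ Cj h ρ ρ' := by
  rw [cj_iff d, cj_iff (by rw [Matrix.det_smul]; exact mul_ne_zero (pow_ne_zero _ hc) d)]
  simp only [mul_smul_comm, smul_mul_assoc, (smul_right_injective _ hc).eq_iff]

theorem cj_ex (ρ : Tup g n) (d : h.det ≠ 0) : ∃ ρ', Cj h ρ ρ' :=
  ⟨fun s => ⟨h⁻¹ * (ρ s).1 * h, by
    rw [Matrix.det_mul, Matrix.det_mul, (ρ s).2, mul_one, ← Matrix.det_mul, inv_mul' d,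
      Matrix.det_one]⟩, fun _ => rfl⟩

theorem cj_uniq (e : Cj h ρ ρ') (e' : Cj h ρ ρ'') : ρ' = ρ'' :=
  funext fun s => Subtype.ext (by rw [e s, e' s])

theorem wv_cont (a : Fg g) : Continuous fun ρ : Tup g n => wv ρ a := by
  induction a using FreeGroup.induction_on with
  | C1 => simpa [wv_one] using continuous_const
  | of s => simp only [wv_of]; exact continuous_subtype_val.comp (continuous_apply s)
  | inv_of s _ =>
    have : ∀ ρ : Tup g n, wv ρ (FreeGroup.of s)⁻¹ = ((ρ s)⁻¹).1 := fun ρ => by simp [wv]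
    simp only [this]
    exact continuous_subtype_val.comp (continuous_apply (A := fun _ =>
      Matrix.SpecialLinearGroup (Fin n) ℂ) s).inv
  | mul a b ha hb => simp only [wv_mul]; exact ha.mul hb

end wv

section gen

variable {d : ℤ} {R σ σ' : Mn n}

theorem exists_roots (R : Mn n) : ∃ t : Fin n → ℂ, R.charpoly = ∏ i, (X - Polynomial.C (t i)) ∧
    R.charpoly.roots = Finset.univ.val.map t := by
  have hc : Multiset.card R.charpoly.roots = n := by
    rw [← (IsAlgClosed.splits R.charpoly).natDegree_eq_card_roots, Matrix.charpoly_natDegree_eq_dim,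
      Fintype.card_fin]
  obtain ⟨L, hL⟩ := Quot.exists_rep R.charpoly.roots
  have hl : L.length = n := by rw [← hc, ← hL]; rfl
  subst hl
  have e : R.charpoly.roots = Finset.univ.val.map L.get := by
    rw [← hL, Fin.univ_val_map, List.ofFn_get]; rfl
  refine ⟨L.get, ?_, e⟩
  have := (IsAlgClosed.splits R.charpoly).eq_prod_roots_of_monic R.charpoly_monic
  rwa [e, Multiset.map_map] at this

theorem gen_roots (h : Gen d R) : ∃ t : Fin n → ℂ, NRt t t ∧ Ann t R ∧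
    R.charpoly.roots = Finset.univ.val.map t := by
  obtain ⟨t, a, b⟩ := exists_roots R
  exact ⟨t, fun i j k hk e => hk (h.1 _ (by simp [b]) _ (by simp [b]) k e), ann_charpoly a, b⟩

theorem gen_nr (h : Gen d R) (hσ : σ.det ≠ 0) (hσ' : σ'.det ≠ 0) :
    NR (σ * R * σ⁻¹) (σ' * R * σ'⁻¹) := by
  obtain ⟨t, a, b, -⟩ := gen_roots h
  exact a.nr (b.conj hσ) (b.conj hσ')

theorem gen_nr0 (h : Gen d R) : NR R R := by simpa using gen_nr (σ := 1) (σ' := 1) h (by simp) (by simp)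

theorem gen_nr1 (h : Gen d R) (hσ : σ.det ≠ 0) : NR (σ * R * σ⁻¹) R := by
  simpa using gen_nr (σ' := 1) h hσ (by simp)

theorem charpoly_conj (R : Mn n) (hσ : σ.det ≠ 0) : (σ * R * σ⁻¹).charpoly = R.charpoly := by
  rw [Matrix.charpoly_mul_comm, inv_mul_can hσ]

theorem gen_conj (h : Gen d R) (hσ : σ.det ≠ 0) : Gen d (σ * R * σ⁻¹) := by
  rw [Gen, charpoly_conj R hσ]; exact h

theorem gen_conj' (h : Gen d R) (hσ : σ.det ≠ 0) : Gen d (σ⁻¹ * R * σ) := by
  simpa only [inv_inv' hσ] using gen_conj h (det_inv_ne hσ)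

theorem mon_eq (d : ℤ) (R : Mn n) : mon d R = P275ST.zeta n d • ex R (-(2 * π * I)) := rfl

end gen

section top

variable {X : Type} [TopologicalSpace X] {x : X}

/-- a continuous root of a constant is locally constant -/
theorem lc_of_pow (hn : n ≠ 0) {θ : X → ℂ} {κ : ℂ} {S : Set X} (h : ContinuousWithinAt θ S x)
    (e : ∀ᶠ y in 𝓝[S] x, θ y ^ n = κ) : ∀ᶠ y in 𝓝[S] x, θ y = θ x := by
  have hf : ({c : ℂ | c ^ n = κ} \ {θ x}).Finite :=
    ((nthRoots n κ).finite_toSet.subset fun c hc =>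
      (mem_nthRoots (Nat.pos_of_ne_zero hn)).2 hc).subset diff_subset
  filter_upwards [e, h (hf.isClosed.isOpen_compl.mem_nhds fun a => a.2 rfl)] with y a b
  by_contra c
  exact b ⟨a, c⟩

/-- local roots -/
def rt (n : ℕ) (s₀ q₀ q : ℂ) : ℂ := s₀ * exp (log (q / q₀) / n)

theorem rt_self {s₀ q₀ : ℂ} (h : q₀ ≠ 0) : rt n s₀ q₀ q₀ = s₀ := by simp [rt, div_self h]

theorem rt_pow (hn : n ≠ 0) {s₀ q₀ q : ℂ} (e : s₀ ^ n = q₀) (h : q₀ ≠ 0) (h' : q ≠ 0) :
    rt n s₀ q₀ q ^ n = q := by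
  rw [rt, mul_pow, e, ← exp_nat_mul, mul_div_cancel₀ _ (Nat.cast_ne_zero.2 hn),
    exp_log (div_ne_zero h' h), mul_div_cancel₀ _ h]

theorem rt_an (s₀ : ℂ) {q₀ q : ℂ} (h : q / q₀ ∈ slitPlane) : AnalyticAt ℂ (rt n s₀ q₀) q :=
  analyticAt_const.mul (((analyticAt_id.div_const (c := q₀)).clog h).div_const).cexp

theorem slit_near {q : X → ℂ} (h : ContinuousAt q x) (h0 : q x ≠ 0) :
    ∀ᶠ y in 𝓝 x, q y / q x ∈ slitPlane :=
  (h.div_const (q x)).eventually (isOpen_slitPlane.mem_nhds (by simp [div_self h0]))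

theorem root_ex (hn : n ≠ 0) {q : X → ℂ} (h : ∀ᶠ y in 𝓝 x, ContinuousAt q y) (h0 : q x ≠ 0) {s₀ : ℂ}
    (e : s₀ ^ n = q x) : ∃ s : X → ℂ, s x = s₀ ∧ ∀ᶠ y in 𝓝 x, ContinuousAt s y ∧ s y ^ n = q y := by
  refine ⟨fun y => rt n s₀ (q x) (q y), rt_self h0, ?_⟩
  filter_upwards [h, slit_near h.self_of_nhds h0, h.self_of_nhds.eventually_ne h0] with y a b c
  exact ⟨(rt_an s₀ b).continuousAt.comp a, rt_pow hn e h0 c⟩

/-- a continuous root of an analytic function is analytic -/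
theorem an_of_pow (hn : n ≠ 0) {E : Type} [NormedAddCommGroup E] [NormedSpace ℂ E] {θ q : E → ℂ}
    {w : E} (h : ContinuousAt θ w) (hq : AnalyticAt ℂ q w) (h0 : q w ≠ 0)
    (e : ∀ᶠ v in 𝓝 w, θ v ^ n = q v) : AnalyticAt ℂ θ w := by
  have e0 := e.self_of_nhds
  have hs : AnalyticAt ℂ (fun v => rt n (θ w) (q w) (q v)) w :=
    (rt_an _ (by simp [div_self h0])).comp hq
  have t0 : θ w ≠ 0 := fun a => h0 (by rw [← e0, a, zero_pow hn])
  have s0 : rt n (θ w) (q w) (q w) ≠ 0 := by rwa [rt_self h0]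
  have := lc_of_pow (S := univ) (κ := 1) hn (h.div hs.continuousAt s0).continuousWithinAt (by
    rw [nhdsWithin_univ]
    filter_upwards [e, hq.continuousAt.eventually_ne h0] with v a b
    rw [Pi.div_apply, div_pow, a, rt_pow hn e0 h0 b, div_self b])
  rw [nhdsWithin_univ] at this
  refine hs.congr ?_
  filter_upwards [this, hs.continuousAt.eventually_ne s0] with v a b
  rw [Pi.div_apply, Pi.div_apply, rt_self h0, div_self t0, div_eq_one_iff_eq b] at a
  exact a.symm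

end top

section ph

variable {a a' Φ Ψ F F' φ : ℂ → Mn n} {w : ℂ}

theorem dv {f' : Mn n} (h : HasDerivAt Φ f' w) : deriv Φ w = f' := h.deriv

theorem hd (h : AnalyticAt ℂ Φ w) : HasDerivAt Φ (deriv Φ w) w := h.differentiableAt.hasDerivAt

theorem det_near (h : ContinuousAt Φ w) (d : (Φ w).det ≠ 0) : ∀ᶠ v in 𝓝 w, (Φ v).det ≠ 0 :=
  ((continuous_id.matrix_det (R := ℂ)).continuousAt.comp h).eventually_ne d

theorem an_inv (h : AnalyticAt ℂ Φ w) (d : (Φ w).det ≠ 0) : AnalyticAt ℂ (fun v => (Φ v)⁻¹) w :=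
  DifferentiableOn.analyticAt (s := {v | AnalyticAt ℂ Φ v ∧ (Φ v).det ≠ 0})
    (do_inv (fun v hv => hv.1.differentiableAt.differentiableWithinAt) fun v hv => hv.2)
    (h.eventually_analyticAt.and (det_near h.continuousAt d))

theorem PH.ev (h : PH a Φ w) : ∀ᶠ v in 𝓝 w, PH a Φ v := by
  filter_upwards [h.an.eventually_analyticAt, det_near h.an.continuousAt h.det,
    h.eq.eventually_nhds] with v x y z
  exact ⟨x, y, z⟩

theorem PH.congr (h : PH a Φ w) (ea : a =ᶠ[𝓝 w] a') (e : Φ =ᶠ[𝓝 w] Ψ) : PH a' Ψ w := by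
  refine ⟨h.an.congr e, e.self_of_nhds ▸ h.det, ?_⟩
  filter_upwards [h.eq, ea, e, e.deriv] with v x y z t
  exact y ▸ z ▸ t ▸ x

/-- projectively horizontal maps -/
theorem PH.map (h : PH a Φ w) (hφ : AnalyticAt ℂ φ w) (d : (φ w).det ≠ 0)
    (e : ∀ᶠ v in 𝓝 w, ∃ c : ℂ, deriv φ v + a' v * φ v = φ v * a v + c • φ v) :
    PH a' (fun v => φ v * Φ v) w := by
  refine ⟨hφ.mul h.an, by rw [Matrix.det_mul]; exact mul_ne_zero d h.det, ?_⟩
  filter_upwards [h.eq, e, h.an.eventually_analyticAt, hφ.eventually_analyticAt] with v ⟨c, x⟩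
    ⟨c', y⟩ p q
  refine ⟨c + c', ?_⟩
  rw [dmul q p, add_right_comm, ← mul_assoc, ← add_mul, y, add_mul, add_right_comm, mul_assoc,
    ← mul_add, add_comm (a v * Φ v), x, add_smul, mul_smul_comm, smul_mul_assoc]

theorem PH.mul (h : PH a Φ w) {M : Mn n} (d : M.det ≠ 0) : PH a (fun v => Φ v * M) w := by
  refine ⟨h.an.mul analyticAt_const, by rw [Matrix.det_mul]; exact mul_ne_zero h.det d, ?_⟩
  filter_upwards [h.eq, h.an.eventually_analyticAt] with v ⟨c, x⟩ p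
  exact ⟨c, by rw [dmul p analyticAt_const, dconst, mul_zero, add_zero, ← mul_assoc, ← add_mul, x,
    smul_mul_assoc]⟩

theorem PH.smul (h : PH a Φ w) {t : ℂ → ℂ} (ht : AnalyticAt ℂ t w) (t0 : t w ≠ 0) :
    PH a (fun v => t v • Φ v) w := by
  refine ⟨ht.smul h.an, by rw [Matrix.det_smul]; exact mul_ne_zero (pow_ne_zero _ t0) h.det, ?_⟩
  filter_upwards [h.eq, h.an.eventually_analyticAt, ht.eventually_analyticAt,
    ht.continuousAt.eventually_ne t0] with v ⟨c, x⟩ p q r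
  refine ⟨c + deriv t v / t v, ?_⟩
  rw [dv (q.differentiableAt.hasDerivAt.fun_smul (hd p)), add_right_comm,
    mul_smul_comm, ← smul_add, x, add_smul, smul_comm, smul_smul (deriv t v / t v),
    div_mul_cancel₀ _ r]

theorem PH.comp {τ : ℂ → ℂ} (h : PH a Φ (τ w)) (hτ : AnalyticAt ℂ τ w) :
    PH (fun v => deriv τ v • a (τ v)) (fun v => Φ (τ v)) w := by
  refine ⟨h.an.comp hτ, h.det, ?_⟩
  filter_upwards [hτ.continuousAt.eventually h.eq, hτ.eventually_analyticAt,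
    hτ.continuousAt.eventually h.an.eventually_analyticAt] with v ⟨c, x⟩ p q
  refine ⟨deriv τ v * c, ?_⟩
  rw [dv (Φ := fun v => Φ (τ v)) ((hd q).scomp v p.differentiableAt.hasDerivAt), smul_mul_assoc,
    ← smul_add, x, smul_smul]

theorem PH.inv_mul (h : PH a Φ w) (h' : PH a Ψ w) : PH 0 (fun v => (Φ v)⁻¹ * Ψ v) w := by
  refine h'.map (an_inv h.an h.det) (det_inv_ne h.det) ?_
  filter_upwards [h.ev] with v p
  obtain ⟨c, x⟩ := p.eq.self_of_nhds
  refine ⟨-c, ?_⟩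
  rw [deriv_minv p.an p.det, eq_sub_of_add_eq x, Pi.zero_apply, zero_mul, add_zero, mul_sub, sub_mul,
    mul_smul_comm, inv_mul' p.det, smul_mul_assoc, one_mul, mul_assoc, mul_assoc, mul_inv' p.det,
    mul_one, neg_sub, neg_smul, sub_eq_add_neg]

theorem PH.zero (h : PH 0 Φ w) : ∃ t : ℂ → ℂ, AnalyticAt ℂ t w ∧ t w = 1 ∧
    Φ =ᶠ[𝓝 w] fun v => t v • Φ w := by
  rcases Nat.eq_zero_or_pos n with rfl | hn
  · exact ⟨fun _ => 1, analyticAt_const, rfl, Eventually.of_forall fun _ => Subsingleton.elim _ _⟩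
  have hY := h.mul (det_inv_ne h.det)
  let L : Mn n →L[ℂ] ℂ := LinearMap.toContinuousLinearMap (Matrix.entryLinearMap ℂ ℂ ⟨0, hn⟩ ⟨0, hn⟩)
  have ht : AnalyticAt ℂ (fun v => L (Φ v * (Φ w)⁻¹)) w := (L.analyticAt _).comp hY.an
  have t1 : L (Φ w * (Φ w)⁻¹) = 1 := by rw [mul_inv' h.det]; simp [L]
  have t0 : L (Φ w * (Φ w)⁻¹) ≠ 0 := by simp [t1]
  refine ⟨_, ht, t1, ?_⟩
  have hZ : AnalyticAt ℂ (fun v => (L (Φ v * (Φ w)⁻¹))⁻¹ • (Φ v * (Φ w)⁻¹)) w :=
    (ht.inv t0).smul hY.an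
  have h0 : ∀ᶠ v in 𝓝 w, deriv (fun v => (L (Φ v * (Φ w)⁻¹))⁻¹ • (Φ v * (Φ w)⁻¹)) v = 0 := by
    filter_upwards [hY.ev, ht.continuousAt.eventually_ne t0] with v p q
    obtain ⟨c, x⟩ := p.eq.self_of_nhds
    rw [Pi.zero_apply, zero_mul, add_zero] at x
    have d1 := x ▸ hd p.an
    have d2 := (L.hasFDerivAt.comp_hasDerivAt v d1).inv q
    refine (dv (d2.fun_smul d1)).trans ?_
    have e : -L (c • (Φ v * (Φ w)⁻¹)) / L (Φ v * (Φ w)⁻¹) ^ 2 = -((L (Φ v * (Φ w)⁻¹))⁻¹ * c) := by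
      rw [L.map_smul, smul_eq_mul]
      field_simp
    show (L _)⁻¹ • c • _ + (-L _ / L _ ^ 2) • _ = _
    rw [e, smul_smul, neg_smul, add_neg_cancel]
  obtain ⟨ε, ε0, hε⟩ := Metric.eventually_nhds_iff_ball.1 (hZ.eventually_analyticAt.and h0)
  filter_upwards [ball_mem_nhds w ε0, ht.continuousAt.eventually_ne t0] with v p q
  have := isOpen_ball.is_const_of_deriv_eq_zero (convex_ball w ε).isPreconnected
    (fun u hu => (hε u hu).1.differentiableAt.differentiableWithinAt) (fun u hu => (hε u hu).2) p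
    (mem_ball_self ε0)
  rw [t1, inv_one, one_smul, mul_inv' h.det, inv_smul_eq_iff₀ q] at this
  calc Φ v = Φ v * (Φ w)⁻¹ * Φ w := by rw [mul_assoc, inv_mul' h.det, mul_one]
    _ = _ := (congrArg (· * Φ w) this).trans (by rw [smul_mul_assoc, one_mul])

/-- two projectively flat frames differ by a scalar function and a constant matrix -/
theorem PH.proj (h : PH a Φ w) (h' : PH a Ψ w) : ∃ t : ℂ → ℂ, AnalyticAt ℂ t w ∧ t w = 1 ∧
    Ψ =ᶠ[𝓝 w] fun v => t v • (Φ v * ((Φ w)⁻¹ * Ψ w)) := by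
  obtain ⟨t, a, b, c⟩ := (h.inv_mul h').zero
  refine ⟨t, a, b, ?_⟩
  filter_upwards [c, h.ev] with v p q
  rw [← mul_smul_comm, ← p, mul_inv_can q.det]

/-- for a trace free connection a frame with constant determinant is flat -/
theorem PH.flat (hn : n ≠ 0) (h : PH a Φ w) (ha : (a w).trace = 0) {κ : ℂ}
    (e : ∀ᶠ v in 𝓝 w, (Φ v).det = κ) : deriv Φ w + a w * Φ w = 0 := by
  obtain ⟨c, x⟩ := h.eq.self_of_nhds
  have h1 := deriv_det h.an h.det
  rw [EventuallyEq.deriv_eq (f := fun _ => κ) e, deriv_const, eq_sub_of_add_eq x, mul_sub,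
    mul_smul_comm, inv_mul' h.det, Matrix.trace_sub, Matrix.trace_mul_comm, mul_assoc,
    mul_inv' h.det, mul_one, ha] at h1
  have : c = 0 := by simpa [h.det, hn] using h1
  rw [x, this, zero_smul]

theorem PH.pf (h : PH a Φ w) : PF a Φ w :=
  ⟨fun _ => 1, Φ, Eventually.of_forall fun _ => continuousAt_const, h, by simp⟩

theorem PF.ev (h : PF a F w) : ∀ᶠ v in 𝓝 w, PF a F v := by
  obtain ⟨s, Φ, x, y, z⟩ := h
  filter_upwards [x.eventually_nhds, y.ev, z.eventually_nhds] with v p q r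
  exact ⟨s, Φ, p, q, r⟩

theorem PF.cont (h : PF a F w) : ContinuousAt F w := by
  obtain ⟨s, Φ, x, y, z⟩ := h
  exact (x.self_of_nhds.smul y.an.continuousAt).congr z.symm

theorem PF.congr (h : PF a F w) (ea : a =ᶠ[𝓝 w] a') (e : F =ᶠ[𝓝 w] F') : PF a' F' w := by
  obtain ⟨s, Φ, x, y, z⟩ := h
  exact ⟨s, Φ, x, y.congr ea EventuallyEq.rfl, e.symm.trans z⟩

theorem PF.map (h : PF a F w) (hφ : AnalyticAt ℂ φ w) (d : (φ w).det ≠ 0)
    (e : ∀ᶠ v in 𝓝 w, ∃ c : ℂ, deriv φ v + a' v * φ v = φ v * a v + c • φ v) :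
    PF a' (fun v => φ v * F v) w := by
  obtain ⟨s, Φ, x, y, z⟩ := h
  exact ⟨s, _, x, y.map hφ d e, z.mono fun v p => by simp only [p, mul_smul_comm]⟩

theorem PF.mul (h : PF a F w) {M : Mn n} (d : M.det ≠ 0) : PF a (fun v => F v * M) w := by
  obtain ⟨s, Φ, x, y, z⟩ := h
  exact ⟨s, _, x, y.mul d, z.mono fun v p => by simp only [p, smul_mul_assoc]⟩

theorem PF.smul (h : PF a F w) {t : ℂ → ℂ} (ht : ∀ᶠ v in 𝓝 w, ContinuousAt t v) :
    PF a (fun v => t v • F v) w := by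
  obtain ⟨s, Φ, x, y, z⟩ := h
  exact ⟨fun v => t v * s v, Φ, (ht.and x).mono fun v p => p.1.mul p.2, y,
    z.mono fun v p => by simp only [p, smul_smul]⟩

theorem PF.comp {τ : ℂ → ℂ} (h : PF a F (τ w)) (hτ : AnalyticAt ℂ τ w) :
    PF (fun v => deriv τ v • a (τ v)) (fun v => F (τ v)) w := by
  obtain ⟨s, Φ, x, y, z⟩ := h
  exact ⟨fun v => s (τ v), _, ((hτ.continuousAt.eventually x).and hτ.eventually_analyticAt).mono
    fun v p => p.1.comp p.2.continuousAt, y.comp hτ, hτ.continuousAt.eventually z⟩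

/-- a frame with an analytic determinant is holomorphic -/
theorem PF.ph (hn : n ≠ 0) (h : PF a F w) (d : (F w).det ≠ 0)
    (hd : AnalyticAt ℂ (fun v => (F v).det) w) : PH a F w := by
  obtain ⟨s, Φ, x, y, z⟩ := h
  have e : ∀ᶠ v in 𝓝 w, s v ^ n = (F v).det / (Φ v).det := by
    filter_upwards [z, y.ev] with v p q
    rw [p, Matrix.det_smul, Fintype.card_fin, mul_div_cancel_right₀ _ q.det]
  have hs := an_of_pow hn x.self_of_nhds (hd.div (an_det y.an) y.det) (div_ne_zero d y.det) e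
  refine (y.smul hs fun c => d ?_).congr EventuallyEq.rfl z.symm
  rw [z.self_of_nhds, Matrix.det_smul, c, Fintype.card_fin, zero_pow hn, zero_mul]

theorem PF.proj (h : PF a F w) (h' : PF a F' w) (d : (F w).det ≠ 0) (d' : (F' w).det ≠ 0) :
    ∃ t : ℂ → ℂ, (∀ᶠ v in 𝓝 w, ContinuousAt t v) ∧ t w = 1 ∧
      F' =ᶠ[𝓝 w] fun v => t v • (F v * ((F w)⁻¹ * F' w)) := by
  rcases Nat.eq_zero_or_pos n with rfl | hn
  · exact ⟨fun _ => 1, by simp [continuousAt_const], rfl,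
      Eventually.of_forall fun _ => Subsingleton.elim _ _⟩
  obtain ⟨s, Φ, x, y, z⟩ := h
  obtain ⟨s', Φ', x', y', z'⟩ := h'
  obtain ⟨t, p, q, r⟩ := y.proj y'
  have s0 : s w ≠ 0 := fun c => d (by
    rw [z.self_of_nhds, Matrix.det_smul, c, Fintype.card_fin, zero_pow hn.ne', zero_mul])
  have s0' : s' w ≠ 0 := fun c => d' (by
    rw [z'.self_of_nhds, Matrix.det_smul, c, Fintype.card_fin, zero_pow hn.ne', zero_mul])
  have e0 : (F w)⁻¹ * F' w = (s' w / s w) • ((Φ w)⁻¹ * Φ' w) := by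
    rw [← inv_mul_can d ((s' w / s w) • _)]
    congr 1
    rw [z.self_of_nhds, z'.self_of_nhds, mul_smul_comm, smul_mul_assoc,
      mul_inv_can y.det, smul_smul, div_mul_cancel₀ _ s0]
  refine ⟨fun v => s' v * t v / s v * (s w / s' w), ?_, by simp only [q]; field_simp, ?_⟩
  · filter_upwards [x, x', p.eventually_analyticAt, x.self_of_nhds.eventually_ne s0] with v b c e f
    exact ((c.mul e.continuousAt).div b f).mul continuousAt_const
  · filter_upwards [z, z', r, x.self_of_nhds.eventually_ne s0] with v b c e f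
    rw [c, e, b, e0, smul_mul_assoc, mul_smul_comm, smul_smul, smul_smul, smul_smul]
    congr 1
    field_simp

/-- with proportional determinants the frames differ by a constant matrix -/
theorem PF.lc (hn : n ≠ 0) (h : PF a F w) (h' : PF a F' w) (d : (F w).det ≠ 0) {κ : ℂ} (κ0 : κ ≠ 0)
    (e : ∀ᶠ v in 𝓝 w, (F' v).det = κ * (F v).det) :
    F' =ᶠ[𝓝 w] fun v => F v * ((F w)⁻¹ * F' w) := by
  have d' : (F' w).det ≠ 0 := by rw [e.self_of_nhds]; exact mul_ne_zero κ0 d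
  obtain ⟨t, p, q, r⟩ := h.proj h' d d'
  have e0 : ((F w)⁻¹ * F' w).det = κ := by
    rw [Matrix.det_mul, e.self_of_nhds, mul_left_comm, ← Matrix.det_mul, inv_mul' d,
      Matrix.det_one, mul_one]
  have := lc_of_pow (S := univ) (κ := 1) hn p.self_of_nhds.continuousWithinAt (by
    rw [nhdsWithin_univ]
    filter_upwards [e, r, det_near h.cont d] with v b c f
    rw [c, Matrix.det_smul, Matrix.det_mul, e0, Fintype.card_fin, mul_comm κ] at b
    exact mul_right_cancel₀ (mul_ne_zero f κ0) (b.trans (one_mul _).symm))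
  rw [nhdsWithin_univ] at this
  filter_upwards [this, r] with v b c
  rw [c, b, q, one_smul]

theorem PF.lc' (hn : n ≠ 0) (h : PF a F w) (h' : PF a F' w) (d : (F w).det ≠ 0) {κ : ℂ}
    (κ0 : κ ≠ 0) (e : ∀ᶠ v in 𝓝 w, (F' v).det = κ * (F v).det) :
    ∀ᶠ v in 𝓝 w, (F v)⁻¹ * F' v = (F w)⁻¹ * F' w := by
  filter_upwards [h.lc hn h' d κ0 e, det_near h.cont d] with v b c
  rw [b, inv_mul_can c]

theorem nr_zero {𝔸 : Type} [NormedRing 𝔸] [NormedAlgebra ℂ 𝔸] : NR (0 : 𝔸) 0 := fun k hk X h => by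
  simpa [hk] using h

/-- the gauge of `(v - c) a` is a flat frame -/
theorem Gau.ph {c : ℂ} {r : ℝ} {Φ' : ℂ → Mn n} (G : Gau c r (fun v => (v - c) • a v) Φ Φ')
    (ha : ContinuousOn a (ball c r)) (hw : w ∈ ball c r) :
    deriv Φ w + a w * Φ w = 0 ∧ PH a Φ w := by
  have an : ∀ v ∈ ball c r, AnalyticAt ℂ Φ v := fun v hv => G.hg.hol.analyticAt (isOpen_ball.mem_nhds hv)
  have e : ∀ v ∈ ball c r, deriv Φ v + a v * Φ v = 0 := by
    have e0 : ∀ v ∈ ball c r, v ≠ c → deriv Φ v + a v * Φ v = 0 := fun v hv h0 => by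
      have := G.hg.eq v hv
      rw [sub_self, zero_smul, mul_zero, smul_mul_assoc, ← smul_add] at this
      exact (smul_eq_zero.1 this).resolve_left (sub_ne_zero.2 h0)
    intro v hv
    by_cases h0 : v = c
    · have c1 : ContinuousAt (fun v => deriv Φ v + a v * Φ v) v := (an v hv).deriv.continuousAt.add
        ((ha.continuousAt (isOpen_ball.mem_nhds hv)).mul (an v hv).continuousAt)
      refine tendsto_nhds_unique (c1.tendsto.mono_left (nhdsWithin_le_nhds (s := {v}ᶜ)))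
        (tendsto_const_nhds.congr' ?_)
      filter_upwards [self_mem_nhdsWithin, nhdsWithin_le_nhds (isOpen_ball.mem_nhds hv)] with u p q
      exact (e0 u q (h0 ▸ p)).symm
    · exact e0 v hv h0
  exact ⟨e w hw, an w hw, G.det_ne hw,
    eventually_of_mem (isOpen_ball.mem_nhds hw) fun v hv => ⟨0, by rw [e v hv, zero_smul]⟩⟩

theorem flat_ex {c : ℂ} {r : ℝ} (ha : DifferentiableOn ℂ a (ball c r)) :
    ∃ Φ Φ', Gau c r (fun v => (v - c) • a v) Φ Φ' :=
  gau_ex ((differentiableOn_id.sub_const c).smul ha) (by simpa using nr_zero)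

theorem PH.ex (ha : AnalyticAt ℂ a w) : ∃ Φ, PH a Φ w ∧ Φ w = 1 := by
  obtain ⟨ε, ε0, hε⟩ := Metric.eventually_nhds_iff_ball.1 ha.eventually_analyticAt
  have hd : DifferentiableOn ℂ a (ball w ε) := fun u hu =>
    (hε u hu).differentiableAt.differentiableWithinAt
  obtain ⟨Φ, Φ', G⟩ := flat_ex hd
  exact ⟨Φ, (G.ph hd.continuousOn (mem_ball_self ε0)).2, G.g1⟩

/-- frames with given determinant and given value -/
theorem PF.ex (hn : n ≠ 0) (ha : AnalyticAt ℂ a w) {u : ℂ → ℂ} (hu : ∀ᶠ v in 𝓝 w, ContinuousAt u v)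
    {M : Mn n} (d : M.det ≠ 0) (e : M.det = u w) :
    ∃ F, PF a F w ∧ F w = M ∧ ∀ᶠ v in 𝓝 w, (F v).det = u v := by
  obtain ⟨Φ, h, h1⟩ := PH.ex ha
  have h2 := h.mul d
  obtain ⟨s, s1, hs⟩ := root_ex (q := fun v => u v / (Φ v * M).det) (s₀ := 1) hn
    ((hu.and h2.ev).mono fun v p => p.1.div (an_det p.2.an).continuousAt p.2.det)
    (div_ne_zero (e ▸ d) h2.det) (by simp [h1, ← e, d])
  refine ⟨_, h2.pf.smul (hs.mono fun v p => p.1), by simp [s1, h1], ?_⟩
  filter_upwards [hs, h2.ev] with v p q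
  rw [Matrix.det_smul, Fintype.card_fin, p.2, div_mul_cancel₀ _ q.det]

end ph

section log

variable {c L w : ℂ}

/-- the branch of `log (v - c)` with value `L` at `c + exp L` -/
def br (c L v : ℂ) : ℂ := L + log ((v - c) / exp L)

theorem br_self (c L : ℂ) : br c L (c + exp L) = L := by simp [br]

theorem exp_br (h : w ≠ c) : exp (br c L w) = w - c := by
  rw [br, exp_add, exp_log (div_ne_zero (sub_ne_zero.2 h) (exp_ne_zero L)),
    mul_div_cancel₀ _ (exp_ne_zero L)]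

theorem br_der (c L : ℂ) : ∀ᶠ v in 𝓝 (c + exp L), HasDerivAt (br c L) (v - c)⁻¹ v := by
  have h : ContinuousAt (fun v => v - c) (c + exp L) := by fun_prop
  filter_upwards [slit_near h (by simp), h.eventually_ne (y := 0) (by simp)] with v p q
  simp only [add_sub_cancel_left] at p
  refine ((((hasDerivAt_id v).sub_const c).div_const (exp L)).clog p).const_add L |>.congr_deriv ?_
  simp only [id]
  field_simp

theorem br_an (c L : ℂ) : AnalyticAt ℂ (br c L) (c + exp L) :=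
  DifferentiableOn.analyticAt (s := {v | HasDerivAt (br c L) (v - c)⁻¹ v})
    (fun _ hv => hv.differentiableAt.differentiableWithinAt) (br_der c L)

theorem br_exp (c L : ℂ) : ∀ᶠ L' in 𝓝 L, br c L (c + exp L') = L' := by
  have h : ContinuousAt (fun L' : ℂ => (L' - L).im) L := by fun_prop
  filter_upwards [h.eventually (Ioo_mem_nhds (a := -π) (b := π) (by simp [Real.pi_pos])
    (by simp [Real.pi_pos]))] with L' p
  rw [br, add_sub_cancel_left, ← exp_sub, log_exp p.1 p.2.le, add_sub_cancel]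

end log

section dat

variable {A : At C} {l : Cy A ℂ} {z z' : Dat C A.N n} {i j : Fin A.N} {w : ℂ} {δ δ' : ℝ}
  {Φ G G' : ℂ → Mn n} {r : ℝ} {h1 : 1 < r} {h2 : r ≤ A.R} {d : ℤ}

theorem law_ev [T2Space C] (hz : Good A l z) (lam : z.lam = 1) (hw : w ∈ A.O i j)
    (hx : (A.e i).symm w ≠ z.x) : ∀ᶠ v in 𝓝 w, ∃ c : ℂ, deriv (z.g i j) v + z.a i v * z.g i j v =
      z.g i j v * (deriv (A.tr i j) v • z.a j (A.tr i j v)) + c • z.g i j v := by
  filter_upwards [O_nhds hw, (off_open z.x i).mem_nhds ⟨hw.1, hx⟩] with v p q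
  obtain ⟨c, e⟩ := hz.law i j v p q.2
  exact ⟨c, by rw [lam, one_smul, add_comm] at e; rw [e, mul_smul_comm]; rfl⟩

theorem g_det_ne (hz : Good A l z) (hw : w ∈ A.O i j) : (z.g i j w).det ≠ 0 := hz.cc.det.ne hw

/-- change of the chart -/
theorem PH.chg [T2Space C] (hz : Good A l z) (lam : z.lam = 1) (hw : w ∈ A.O i j)
    (hx : (A.e i).symm w ≠ z.x) (h : PH (z.a j) Φ (A.tr i j w)) :
    PH (z.a i) (fun v => z.g i j v * Φ (A.tr i j v)) w :=
  (h.comp (an_tr hw)).map (hz.cc.an hw) (g_det_ne hz hw) (law_ev hz lam hw hx)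

theorem PF.chg [T2Space C] (hz : Good A l z) (lam : z.lam = 1) (hw : w ∈ A.O i j)
    (hx : (A.e i).symm w ≠ z.x) (h : PF (z.a j) Φ (A.tr i j w)) :
    PF (z.a i) (fun v => z.g i j v * Φ (A.tr i j v)) w :=
  (h.comp (an_tr hw)).map (hz.cc.an hw) (g_det_ne hz hw) (law_ev hz lam hw hx)

theorem InU.res {y : C} (h : InU A i y) : y ∈ ((A.res r h1 h2).e i).source :=
  src_res.2 ⟨h.1, unit_r h1 h.2⟩

theorem InU.O {y : C} (h : InU A i y) (h' : InU A j y) : A.e i y ∈ (A.res r h1 h2).O i j :=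
  mem_O (A := A.res r h1 h2) (InU.res h) (InU.res h')

theorem InU.off {x y : C} (h : InU A i y) (hx : y ≠ x) : A.e i y ∈ off (A.res r h1 h2) x i :=
  ⟨unit_r h1 h.2, fun e => hx (((A.e i).left_inv h.1).symm.trans e)⟩

theorem inU_open (A : At C) (i : Fin A.N) : IsOpen {y | InU A i y} :=
  (A.e i).continuousOn.isOpen_inter_preimage (A.e i).open_source
    (isOpen_lt continuous_norm continuous_const)

theorem fill_res : fill (A.res r h1 h2) z i = fill A z i := rfl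

theorem tr_fill (hz : Good A l z) (hx : z.x ∈ (A.e i).source) (hw : w ∈ ball (0 : ℂ) A.R) :
    (fill A z i w).trace = 0 := by
  have h0 : ∀ v ∈ off A z.x i, (fill A z i v).trace = 0 := fun v hv => by
    rw [fill_off hv.2, Matrix.trace_smul, hz.tr i v hv, smul_zero]
  by_cases e : w = A.e i z.x
  · have c := ((Good.fill hz hx).continuousOn.continuousAt (isOpen_ball.mem_nhds hw)).tendsto
    rw [e] at c ⊢
    exact tendsto_nhds_unique ((continuous_id.matrix_trace.tendsto _).comp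
      (c.mono_left (nhdsWithin_le_nhds (s := {A.e i z.x}ᶜ))))
      (tendsto_const_nhds.congr' ((off_ev hx).mono fun v hv => (h0 v hv).symm))
  · exact h0 w ((off_iff hx).2 ⟨hw, e⟩)

theorem tr_R (hz : Good A l z) : z.R.trace = 0 := by
  obtain ⟨i, hx, -⟩ := A.cov z.x
  have := tr_fill hz hx (map_src hx)
  rwa [fill_at hx, Matrix.trace_mul_comm, inv_mul_can (hz.fr i hx)] at this

theorem IsG.res : IsG (A.res r h1 h2) z i δ G ↔ IsG A z i δ G := Iff.rfl

theorem IsG.mono (h : IsG A z i δ G) (e : δ' ≤ δ) : IsG A z i δ' G := ⟨h.1.mono e, h.2⟩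

theorem IsG.an (h : IsG A z i δ G) (hw : w ∈ ball (A.e i z.x) δ) : AnalyticAt ℂ G w :=
  h.1.hol.analyticAt (isOpen_ball.mem_nhds hw)

theorem fill_nr (hz : Good A l z) (hg : Gen d z.R) (hx : z.x ∈ (A.e i).source) :
    NR (fill A z i (A.e i z.x)) z.R := by rw [fill_at hx]; exact gen_nr1 hg (hz.fr i hx)

theorem isG_ex (hz : Good A l z) (hg : Gen d z.R) (hx : z.x ∈ (A.e i).source)
    (hδ : ball (A.e i z.x) δ ⊆ ball 0 A.R) : ∃ G, IsG A z i δ G :=
  hz_ex ((Good.fill hz hx).mono hδ) (differentiableOn_const _) (fill_nr hz hg hx) (by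
    rw [fill_at hx, mul_assoc, inv_mul' (hz.fr i hx), mul_one])

theorem IsG.uniq (hz : Good A l z) (hg : Gen d z.R) (hx : z.x ∈ (A.e i).source)
    (hδ : ball (A.e i z.x) δ ⊆ ball 0 A.R) (h : IsG A z i δ G) (h' : IsG A z i δ G') :
    ∀ w ∈ ball (A.e i z.x) δ, G w = G' w :=
  Hz.uniq ((Good.fill hz hx).mono hδ) (differentiableOn_const _) (fill_nr hz hg hx) h.1 h'.1
    (h.2.trans h'.2.symm)

theorem IsG.det (hz : Good A l z) (hg : Gen d z.R) (hx : z.x ∈ (A.e i).source)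
    (hδ : ball (A.e i z.x) δ ⊆ ball 0 A.R) (h : IsG A z i δ G) (hw : w ∈ ball (A.e i z.x) δ) :
    (G w).det = (z.σ i).det := by
  obtain ⟨γ, γ', Γ⟩ := gau_ex ((Good.fill hz hx).mono hδ) (by
    rw [fill_at hx]; exact gen_nr hg (hz.fr i hx) (hz.fr i hx))
  have h' : IsG A z i δ fun v => γ v * z.σ i :=
    ⟨Γ.hg.mul (Hz.const fun _ _ => by
      rw [fill_at hx, mul_assoc, inv_mul' (hz.fr i hx), mul_one]), by simp [Γ.g1]⟩
  rw [h.uniq hz hg hx hδ h' w hw, Matrix.det_mul, Γ.det_one (fun v hv => by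
    rw [tr_fill hz hx (hδ hv), tr_fill hz hx (map_src hx)]) w hw, one_mul]

/-- the canonical flat frame -/
theorem IsG.ph (hz : Good A l z) (hg : Gen d z.R) (hx : z.x ∈ (A.e i).source)
    (hδ : ball (A.e i z.x) δ ⊆ ball 0 A.R) (h : IsG A z i δ G) (hw : w ∈ ball (A.e i z.x) δ)
    (h0 : w ≠ A.e i z.x) {ℓ : ℂ → ℂ} (hℓ : ∀ᶠ v in 𝓝 w, HasDerivAt ℓ (v - A.e i z.x)⁻¹ v) :
    PH (z.a i) (fun v => G v * ex z.R (-ℓ v)) w := by
  have e : ∀ᶠ v in 𝓝 w, HasDerivAt (fun v => G v * ex z.R (-ℓ v))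
      (-(z.a i v * (G v * ex z.R (-ℓ v)))) v := by
    filter_upwards [isOpen_ball.mem_nhds hw, eventually_ne_nhds h0, hℓ] with v p q s
    refine (h.1.flat p q s).congr_deriv ?_
    rw [a_eq_fill hx ((off_iff hx).2 ⟨hδ p, q⟩), smul_mul_assoc]
  refine ⟨DifferentiableOn.analyticAt (fun _ hv => hv.differentiableAt.differentiableWithinAt) e, ?_,
    e.mono fun v p => ⟨0, by rw [dv p, neg_add_cancel, zero_smul]⟩⟩
  rw [Matrix.det_mul, h.det hz hg hx hδ hw]
  exact mul_ne_zero (hz.fr i hx) (ex_det_ne _ _)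

theorem IsG.ph_br (hz : Good A l z) (hg : Gen d z.R) (hx : z.x ∈ (A.e i).source)
    (hδ : ball (A.e i z.x) δ ⊆ ball 0 A.R) (h : IsG A z i δ G) {L : ℂ}
    (hw : A.e i z.x + exp L ∈ ball (A.e i z.x) δ) :
    PH (z.a i) (fun v => G v * ex z.R (-br (A.e i z.x) L v)) (A.e i z.x + exp L) :=
  h.ph hz hg hx hδ hw (by simp) (br_der _ _)

theorem det_fr (hz : Good A l z) (hg : Gen d z.R) (hx : z.x ∈ (A.e i).source)
    (hδ : ball (A.e i z.x) δ ⊆ ball 0 A.R) (h : IsG A z i δ G) (hw : w ∈ ball (A.e i z.x) δ)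
    (L : ℂ) : (G w * ex z.R L).det = (z.σ i).det := by
  rw [Matrix.det_mul, h.det hz hg hx hδ hw, det_ex, tr_R hz, mul_zero, exp_zero, mul_one]

/-- recognition of the gauge from a germ -/
theorem IsG.germ (hz : Good A l z) (hg : Gen d z.R) (hx : z.x ∈ (A.e i).source) (δ0 : 0 < δ)
    (h : IsG A z i δ G) {H : ℂ → Mn n} (hH : AnalyticAt ℂ H (A.e i z.x))
    (H0 : H (A.e i z.x) = z.σ i) (e : ∀ᶠ v in 𝓝[≠] (A.e i z.x),
      deriv H v + z.a i v * H v = (v - A.e i z.x)⁻¹ • (H v * z.R)) :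
    H =ᶠ[𝓝 (A.e i z.x)] G := by
  obtain ⟨ε, ε0, hε⟩ := Metric.eventually_nhds_iff_ball.1 (hH.eventually_analyticAt.and
    ((eventually_nhdsWithin_iff.1 e).and (isOpen_ball.eventually_mem (map_src hx))))
  have h' : IsG A z i (min ε δ) H := by
    refine ⟨⟨fun v hv => (hε v (ball_subset_ball (min_le_left _ _) hv)).1.differentiableAt
      |>.differentiableWithinAt, fun v hv => ?_⟩, H0⟩
    obtain ⟨-, p, q⟩ := hε v (ball_subset_ball (min_le_left _ _) hv)
    by_cases c : v = A.e i z.x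
    · rw [c, sub_self, zero_smul, zero_add, fill_at hx, H0, mul_assoc, inv_mul' (hz.fr i hx),
        mul_one]
    · rw [fill_off ((off_iff hx).2 ⟨q, c⟩).2, smul_mul_assoc, ← smul_add]
      exact (congrArg _ (p c)).trans (smul_inv_smul₀ (sub_ne_zero.2 c) _)
  filter_upwards [ball_mem_nhds _ (lt_min ε0 δ0)] with v hv
  exact h'.uniq hz hg hx (fun u hu => (hε u (ball_subset_ball (min_le_left _ _) hu)).2.2)
    (h.mono (min_le_right _ _)) v hv

end dat

section loc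

variable {A : At C} {l : Cy A ℂ} {d : ℤ} (P : Loc A l g n d) {x : C}

theorem Loc.ball_sub (hx : x ∈ P.V) : ball (A.e P.a x) P.δ ⊆ ball 0 1 := fun w hw => by
  have := (P.sub x hx).2
  rw [mem_ball_iff_norm] at hw
  rw [mem_ball_zero_iff]
  linarith [norm_le_norm_add_norm_sub' w (A.e P.a x)]

theorem Loc.inU (hx : x ∈ P.V) : InU A P.a x :=
  ⟨(P.sub x hx).1, mem_ball_zero_iff.1 (P.ball_sub hx (mem_ball_self P.hδ))⟩

theorem Loc.ball_res (hx : x ∈ P.V) {r : ℝ} (h1 : 1 < r) : ball (A.e P.a x) P.δ ⊆ ball 0 r :=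
  (P.ball_sub hx).trans (ball_subset_ball h1.le)

theorem Loc.mem_ball (q : Nd P.V P.δ) : A.e P.a q.1.1 + exp q.1.2 ∈ ball (A.e P.a q.1.1) P.δ :=
  add_mem_ball.2 ((exp_mem_ball P.hδ).2 q.2.2)

theorem Loc.ν_e (q : Nd P.V P.δ) :
    InU A P.a (P.ν q).1.2 ∧ A.e P.a (P.ν q).1.2 = A.e P.a q.1.1 + exp q.1.2 := by
  have h := P.ball_res q.2.1 A.hR (P.mem_ball q)
  rw [P.ν_eq, InU, rinv h]
  exact ⟨⟨map_tgt h, mem_ball_zero_iff.1 (P.ball_sub q.2.1 (P.mem_ball q))⟩, rfl⟩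

theorem Loc.ν_T (q : Nd P.V P.δ) : P.ν q.T = P.ν q := Subtype.ext (by
  rw [P.ν_eq, P.ν_eq]; simp [Nd.T, exp_add, exp_two_pi_mul_I])

/-- the point of the fibre given by a logarithm -/
def Loc.pc (q : Nd P.V P.δ) (e : q.1.1 = x) : P275ST.Pc x :=
  ⟨(P.ν q).1.2, fun h => (P.ν q).2.2 (h.trans (by rw [P.ν_eq, e]))⟩

theorem Loc.fib_pc (q : Nd P.V P.δ) (e : q.1.1 = x) (hx : x ∈ P.V) : fib hx (P.pc q e) = P.ν q :=
  Subtype.ext (Prod.ext (by rw [P.ν_eq, e]; rfl) rfl)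

end loc

end Vale.Agent.P275RL
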