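import Vale.Agent.P275RL.Mat
import Vale.Agent.P275Z.Brg
import Vale.Agent.P275RH.Uni
import Vale.Agent.P275MO.Props

/-!
# P275, Riemann-Hilbert in families: local topological data, the monodromy relation, the blocks
-/

set_option linter.all false

open scoped Topology Real Matrix.Norms.Operator
open Filter Set Metric Complex
open Vale.Agent.P275GC (At)
open Vale.Agent.P275NA (Cy Fm Mn)
open Vale.Agent.P275MO
open Vale.Agent.P275ST (zeta Pc deg)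
open Vale.Agent.P275RH (cwd Oc Lc Fs)
open Vale.Agent.P275Z

noncomputable section

namespace Vale.Agent.P275RL

variable {C : Type} [TopologicalSpace C] {n g : ℕ}

/-- the free group -/
abbrev Fg (g : ℕ) : Type := FreeGroup (Fin g × Bool)

/-- pairs (pole, point) -/
abbrev Wd (V : Set C) : Type := {p : C × C // p.1 ∈ V ∧ p.2 ≠ p.1}

/-- the fibre over `x` -/
def fib {V : Set C} {x : C} (hx : x ∈ V) : C(Pc x, Wd V) :=
  ⟨fun y => ⟨(x, y.1), hx, y.2⟩, by fun_prop⟩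

/-- pairs (pole, logarithm of the coordinate centred at the pole) -/
abbrev Nd (V : Set C) (δ : ℝ) : Type := {q : C × ℂ // q.1 ∈ V ∧ q.2.re < Real.log δ}

/-- the deck transformation -/
def Nd.T {V : Set C} {δ : ℝ} (q : Nd V δ) : Nd V δ :=
  ⟨(q.1.1, q.1.2 + 2 * π * I), q.2.1, by simpa using q.2.2⟩

/-- **Local topological data** over `V`: a universal cocycle `c` on the pairs (pole, point), a
trivialisation `b` of it near the pole (tangential base point) with monodromy `cwd`, a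
trivialisation `u` of `l` off the pole, and a root `s` of it near the pole -/
structure Loc (A : At C) (l : Cy A ℂ) (g n : ℕ) (d : ℤ) where
  V : Set C
  opn : IsOpen V
  a : Fin A.N
  δ : ℝ
  hδ : 0 < δ
  sub : ∀ x ∈ V, x ∈ (A.e a).source ∧ ‖A.e a x‖ + δ ≤ 1
  ι : Type
  U : ι → Set (Wd V)
  c : ι → ι → Wd V → Fg g
  cy : P275RH.Cy U c
  univ : ∀ x (hx : x ∈ V) (y : Pc x) k (hk : fib hx y ∈ U k),
    Function.Bijective ((cy.pull (cy.toOc.pre (fib hx)) fun _ _ h => h).rep hk)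
  ν : C(Nd V δ, Wd V)
  ν_eq : ∀ q, (ν q).1 = (q.1.1, (A.e a).symm (A.e a q.1.1 + exp q.1.2))
  b : ι → Nd V δ → Fg g
  fs : Fs (fun k => ν ⁻¹' U k) (fun k m q => c k m (ν q)) b
  per : ∀ k q, ν q ∈ U k → b k q.T = b k q * cwd g
  u : C → Fm A ℂ
  uc : ∀ j, ContinuousOn (fun p : C × ℂ => u p.1 j p.2) {p | p.1 ∈ V ∧ p.2 ∈ off A p.1 j}
  un : ∀ x ∈ V, ∀ j, ∀ w ∈ off A x j, u x j w ≠ 0
  ul : ∀ x ∈ V, ∀ i j, ∀ w ∈ A.O i j, (A.e i).symm w ≠ x → u x i w = l i j w * u x j (A.tr i j w)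
  s : Nd V δ → ℂ
  sc : Continuous s
  sp : ∀ q, s q ^ n = u q.1.1 a (A.e a q.1.1 + exp q.1.2)
  sT : ∀ q, s q.T = zeta n d * s q

/-- the germ of a holomorphic frame which is flat up to a scalar form -/
structure PH (a Φ : ℂ → Mn n) (w : ℂ) : Prop where
  an : AnalyticAt ℂ Φ w
  det : (Φ w).det ≠ 0
  eq : ∀ᶠ v in 𝓝 w, ∃ c : ℂ, deriv Φ v + a v * Φ v = c • Φ v

/-- a continuous multiple of such a germ -/
def PF (a F : ℂ → Mn n) (w : ℂ) : Prop := ∃ (s : ℂ → ℂ) (Φ : ℂ → Mn n),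
  (∀ᶠ v in 𝓝 w, ContinuousAt s v) ∧ PH a Φ w ∧ F =ᶠ[𝓝 w] fun v => s v • Φ v

variable {A : At C} {l : Cy A ℂ} {d : ℤ}

/-- frames over the sets `U k` of the fibre, read in the unit discs, with determinant `u` and
transitions `ρ ∘ c` -/
structure Frm (P : Loc A l g n d) (z : Dat C A.N n) (hx : z.x ∈ P.V) (ρ : Tup g n)
    (F : P.ι → Fm A (Mn n)) : Prop where
  pf : ∀ (y : Pc z.x) k j, fib hx y ∈ P.U k → InU A j y → PF (z.a j) (F k j) (A.e j y)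
  det : ∀ (y : Pc z.x) k j, fib hx y ∈ P.U k → InU A j y →
    (F k j (A.e j y)).det = P.u z.x j (A.e j y)
  chg : ∀ (y : Pc z.x) k j j', fib hx y ∈ P.U k → InU A j y → InU A j' y →
    F k j (A.e j y) = z.g j j' (A.e j y) * F k j' (A.e j' y)
  coc : ∀ (y : Pc z.x) k m j, fib hx y ∈ P.U k → fib hx y ∈ P.U m → InU A j y →
    F m j (A.e j y) = F k j (A.e j y) * wv ρ (P.c k m (fib hx y))

/-- the gauge at the pole with value `σ` -/
def IsG (A : At C) (z : Dat C A.N n) (j : Fin A.N) (δ : ℝ) (G : ℂ → Mn n) : Prop :=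
  Hz (A.e j z.x) δ (fill A z j) (fun _ => z.R) G ∧ G (A.e j z.x) = z.σ j

/-- the normalisation at the pole -/
def Nrm (P : Loc A l g n d) (z : Dat C A.N n) (ρ : Tup g n) (F : P.ι → Fm A (Mn n)) : Prop :=
  ∃ G, IsG A z P.a P.δ G ∧ ∀ (q : Nd P.V P.δ) k, q.1.1 = z.x → P.ν q ∈ P.U k → ∃ f : ℂ,
    F k P.a (A.e P.a z.x + exp q.1.2) * wv ρ (P.b k q) =
      f • (G (A.e P.a z.x + exp q.1.2) * ex z.R (-q.1.2))

/-- defined on discs of some radius, `λ = 1`, generic residue -/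
structure Pre (A : At C) (l : Cy A ℂ) (d : ℤ) (z : Dat C A.N n) : Prop where
  good : ∃ (r : ℝ) (h1 : 1 < r) (h2 : r ≤ A.R), Good (A.res r h1 h2) l z
  lam : z.lam = 1
  gen : Gen d z.R

/-- **the monodromy relation** -/
def Rel (P : Loc A l g n d) (z : Dat C A.N n) (ρ : Tup g n) : Prop :=
  Pre A l d z ∧ ∃ (hx : z.x ∈ P.V) (F : P.ι → Fm A (Mn n)), Frm P z hx ρ F ∧ Nrm P z ρ F

/-- the comparison of two local data over the point `x` -/
structure Tr (P Q : Loc A l g n d) (t : Aut g n) {x : C} (hP : x ∈ P.V) (hQ : x ∈ Q.V) where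
  β : P.ι → Q.ι → Pc x → Fg g
  f : Q.ι → Pc x → ℂ
  χ : Fg g →* ℂ
  χ_of : ∀ s, χ (FreeGroup.of s) = t.χ s
  lc : ∀ k m, Lc {y | fib hP y ∈ P.U k ∧ fib hQ y ∈ Q.U m} (β k m)
  left : ∀ k k' m y, fib hP y ∈ P.U k → fib hP y ∈ P.U k' → fib hQ y ∈ Q.U m →
    β k m y = P.c k k' (fib hP y) * β k' m y
  right : ∀ k m m' y, fib hP y ∈ P.U k → fib hQ y ∈ Q.U m → fib hQ y ∈ Q.U m' →
    β k m' y = β k m y * t.φ (Q.c m m' (fib hQ y))
  fc : ∀ m, ContinuousOn (f m) {y | fib hQ y ∈ Q.U m}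
  fp : ∀ m (y : Pc x) j, fib hQ y ∈ Q.U m → InU A j y →
    f m y ^ n * P.u x j (A.e j y) = Q.u x j (A.e j y)
  fr : ∀ m m' y, fib hQ y ∈ Q.U m → fib hQ y ∈ Q.U m' →
    f m' y = f m y * χ (Q.c m m' (fib hQ y))
  nrm : ∃ ε > 0, ∀ (y : Pc x) (q : Nd P.V P.δ) (q' : Nd Q.V Q.δ) k m, q.1.2.re < Real.log ε →
    P.ν q = fib hP y → Q.ν q' = fib hQ y → fib hP y ∈ P.U k → fib hQ y ∈ Q.U m →
    ∃ e : ℤ, β k m y * t.φ (Q.b m q') = P.b k q * cwd g ^ e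

/-- **TOP**: the topological input -/
def TOPF : Prop := ∀ (S : Sit) (T : S.Atl), ∃ (N : ℕ) (P : Fin N → Loc T.A T.l S.g S.n (deg S.D))
  (t : Fin N → Fin N → Aut S.g S.n), (∀ x, ∃ i, x ∈ (P i).V) ∧ (∀ i, IsPreconnected (P i).V) ∧
    (∀ i j x (hi : x ∈ (P i).V) (hj : x ∈ (P j).V), Nonempty (Tr (P i) (P j) (t i j) hi hj)) ∧
    ∃ (i : Fin N) (hp : S.p ∈ (P i).V),
      (∀ j, ∀ w ∈ off T.A S.p j, (P i).u S.p j w = trv T.A T.s S.ℓ j w) ∧
      ∃ (k : (P i).ι) (hk : fib hp S.x₀ ∈ (P i).U k), ∀ γ,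
        ((P i).cy.pull ((P i).cy.toOc.pre (fib hp)) fun _ _ h => h).rep hk (S.M.e γ) = γ

section props

variable (P : Loc A l g n d)

/-- existence of the monodromy, and the relation -/
def EXR : Prop := (∀ z, Pre A l d z → z.x ∈ P.V → ∃ ρ, Rel P z ρ) ∧
  ∀ z ρ, Rel P z ρ → wv ρ (cwd g) = mon d z.R

/-- change of the frame -/
def ACT : Prop := ∀ z ρ ρ' h, Rel P z ρ → h.det ≠ 0 → Cj h ρ ρ' → Rel P (z.act h) ρ'

/-- isomorphic objects have conjugate monodromy (`z = z'`, `φ = 1`: the monodromy is unique) -/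
def ISO : Prop := ∀ z z' ρ ρ' r h1 h2 φ h, Rel P z ρ → Rel P z' ρ' →
  IsoBy (A.res r h1 h2) z z' φ h → Cj h ρ' ρ

/-- isomorphisms away from the pole -/
def OFFR : Prop := ∀ z z' ρ ρ' h, Rel P z ρ → Rel P z' ρ' → Off A z z' h →
  ∃ c c' : ℂ, Cj (ex z'.R c * h * ex z.R c') ρ' ρ

/-- change of the local data -/
def TRN : Prop := ∀ (Q : Loc A l g n d) (t : Aut g n) z ρ ρ' hP hQ, Rel P z ρ →
  Tr P Q t (x := z.x) hP hQ → t.Im ρ ρ' → ∃ c ρ'', Cj (ex z.R c) ρ' ρ'' ∧ Rel Q z ρ''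

/-- the monodromy is continuous in families -/
def CONT : Prop := ∀ (T : Type) [TopologicalSpace T] (F : T → Dat C A.N n) (ρ : T → Tup g n)
  (V : Set T) r h1 h2, FamOn (A.res r h1 h2) l F V → (∀ t ∈ V, Rel P (F t) (ρ t)) →
  ContinuousOn ρ V

/-- the monodromy determines the object -/
def INJ : Prop := ∀ z z' ρ, Rel P z ρ → Rel P z' ρ → z'.x = z.x → z'.R = z.R →
  ∃ r h1 h2 φ, ∃ c : ℂ, IsoBy (A.res r h1 h2) z z' φ (c • 1)

/-- generic objects are stable -/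
def STB : Prop := ∀ z ρ r h1 h2, Rel P z ρ → Good (A.res r h1 h2) l z → Stab (A.res r h1 h2) l z

/-- Deligne extension in families -/
def INV : Prop := ∀ (q : Submodule ℂ (Mn n)), (∀ R ∈ q, R.trace = 0) → ∀ t₀ : P.V × BFr g d q,
  ∃ (F : P.V × BFr g d q → Dat C A.N n) (r : ℝ) (h1 : 1 < r) (h2 : r ≤ A.R), ∃ V ∈ 𝓝 t₀,
    FamOn (A.res r h1 h2) l F V ∧
      ∀ t ∈ V, (F t).x = t.1 ∧ (F t).R = t.2.1.1 ∧ Rel P (F t) t.2.1.2

/-- without pole the monodromy does not depend on the marked point -/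
def MOV : Prop := IsPreconnected P.V → ∀ z z' ρ ρ' (r : ℝ) (h1 : 1 < r) (h2 : r ≤ A.R),
  Rel P z ρ → Rel P z' ρ' → z.R = 0 → z'.R = 0 → z'.g = z.g →
  (∀ k, ∀ w ∈ off (A.res r h1 h2) z.x k, w ∈ off (A.res r h1 h2) z'.x k → z'.a k w = z.a k w) →
  ∃ h : Mn n, h.det ≠ 0 ∧ Cj h ρ ρ'

/-- canonical flat frames -/
def FLT : Prop := ∀ p ∈ P.V, Nonempty (Flt A l g n p (Rel P))

end props

/-- at `p` the relation gives the monodromy for the marking of the statement -/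
def MONR : Prop := ∀ (S : Sit) (T : S.Atl) (P : Loc T.A T.l S.g S.n (deg S.D)) (hp : S.p ∈ P.V),
  (∀ j, ∀ w ∈ off T.A S.p j, P.u S.p j w = trv T.A T.s S.ℓ j w) →
  ∀ (k : P.ι) (hk : fib hp S.x₀ ∈ P.U k),
    (∀ γ, (P.cy.pull (P.cy.toOc.pre (fib hp)) fun _ _ h => h).rep hk (S.M.e γ) = γ) →
    ∀ z ρ, z.x = S.p → Rel P z ρ → Mon T.A S.M (trv T.A T.s S.ℓ) z ρ

end Vale.Agent.P275RL
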