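import Vale.Agent.P275RL.Pf
import Vale.Agent.P275RH.Mer

/-!
# P275, Riemann-Hilbert in families: gauges in two charts, comparison of frames
-/

set_option linter.all false

open scoped Topology Real Matrix.Norms.Operator
open Filter Set Metric Complex
open Vale.Agent.P275GC (At)
open Vale.Agent.P275GC.At
open Vale.Agent.P275NA (Cy Fm Mn)
open Vale.Agent.P275MO Vale.Agent.P275MB
open Vale.Agent.P275ST (Pc)
open Vale.Agent.P275RH (cwd Oc Lc Fs)
open Vale.Agent.P275Z
open Vale.Agent.P281Z.Hm (an_det)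

noncomputable section

namespace Vale.Agent.P275RL

variable {C : Type} [TopologicalSpace C] {n g : ℕ}

/-- continuous logarithms which agree at a point agree near it -/
theorem log_uniq {X : Type} [TopologicalSpace X] {x : X} {S : Set X} {f f' : X → ℂ}
    (h : ContinuousWithinAt f S x) (h' : ContinuousWithinAt f' S x) (e0 : f x = f' x)
    (e : ∀ᶠ y in 𝓝[S] x, exp (f y) = exp (f' y)) : ∀ᶠ y in 𝓝[S] x, f y = f' y := by
  have c : ContinuousWithinAt (fun y => (f y - f' y).im) S x :=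
    continuous_im.continuousAt.comp_continuousWithinAt (h.sub h')
  filter_upwards [e, c.eventually (Ioo_mem_nhds (a := -π) (b := π) (by simp [e0, Real.pi_pos])
    (by simp [e0, Real.pi_pos]))] with y p q
  rw [← sub_eq_zero, ← log_exp q.1 q.2.le, exp_sub, p, div_self (exp_ne_zero _), log_one]

/-- the logarithm of `(τ v - τ c) / (v - c)` -/
theorem exists_eta {τ : ℂ → ℂ} {c : ℂ} (h : AnalyticAt ℂ τ c) (h0 : deriv τ c ≠ 0) :
    ∃ η : ℂ → ℂ, AnalyticAt ℂ η c ∧ ∀ᶠ v in 𝓝 c, exp (η v) * (v - c) = τ v - τ c := by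
  obtain ⟨p, hp⟩ := h
  have a : AnalyticAt ℂ (dslope τ c) c := ⟨_, hp.has_fpower_series_dslope_fslope⟩
  have a0 : dslope τ c c ≠ 0 := by rwa [dslope_same]
  refine ⟨fun v => log (dslope τ c c) + log (dslope τ c v / dslope τ c c),
    analyticAt_const.add ((a.div_const).clog (by simp only [div_self a0, one_mem_slitPlane])), ?_⟩
  filter_upwards [a.continuousAt.eventually_ne a0] with v hv
  rw [exp_add, exp_log a0, exp_log (div_ne_zero hv a0), mul_div_cancel₀ _ a0, mul_comm,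
    ← smul_eq_mul, sub_smul_dslope]

theorem of_flat {a H : ℂ → Mn n} {R : Mn n} {ℓ : ℂ → ℂ} {v k : ℂ} (hH : AnalyticAt ℂ H v)
    (hℓ : HasDerivAt ℓ k v) (e : deriv (fun u => H u * ex R (-ℓ u)) v + a v * (H v * ex R (-ℓ v)) = 0) :
    deriv H v + a v * H v = k • (H v * R) := by
  have d := (hd hH).mul ((ex_neg_der R (ℓ v)).scomp v hℓ)
  rw [dv (Φ := fun u => H u * ex R (-ℓ u)) d] at e
  have := congrArg (· * ex R (ℓ v)) e
  simp only [Function.comp, add_mul, mul_assoc, ex_neg_mul, mul_one, zero_mul, smul_neg, mul_neg,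
    neg_mul, smul_mul_assoc, mul_smul_comm, ← ex_comm] at this
  rw [← mul_assoc (ex R _), ex_neg_mul, one_mul] at this
  rw [← sub_eq_zero, ← this]
  abel

section dat

variable {A : At C} {l : Cy A ℂ} {z z' : Dat C A.N n} {i j : Fin A.N} {w : ℂ} {δ δ' : ℝ}
  {G G' : ℂ → Mn n} {d : ℤ}

/-- recognition of the gauge up to a scalar function -/
theorem IsG.of_pf (hn : n ≠ 0) (hz : Good A l z) (hg : Gen d z.R) (hx : z.x ∈ (A.e i).source)
    (δ0 : 0 < δ) (h : IsG A z i δ G) {H : ℂ → Mn n} (hH : AnalyticAt ℂ H (A.e i z.x))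
    (H0 : H (A.e i z.x) = z.σ i) (e : ∀ᶠ v in 𝓝[≠] (A.e i z.x), ∃ L, v = A.e i z.x + exp L ∧
      PF (z.a i) (fun u => H u * ex z.R (-br (A.e i z.x) L u)) v) :
    ∃ f : ℂ → ℂ, AnalyticAt ℂ f (A.e i z.x) ∧ f (A.e i z.x) = 1 ∧
      H =ᶠ[𝓝 (A.e i z.x)] fun v => f v • G v := by
  set c := A.e i z.x
  have d0 : (H c).det ≠ 0 := H0 ▸ hz.fr i hx
  have ht : AnalyticAt ℂ (fun v => rt n 1 (H c).det (H v).det) c :=
    (rt_an _ (by simp [div_self d0])).comp (an_det hH)
  have t1 : rt n 1 (H c).det (H c).det = 1 := rt_self d0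
  have t0 : rt n 1 (H c).det (H c).det ≠ 0 := by simp [t1]
  have hd1 : ∀ᶠ v in 𝓝 c, ((rt n 1 (H c).det (H v).det)⁻¹ • H v).det = (H c).det := by
    filter_upwards [det_near hH.continuousAt d0] with v p
    have := rt_pow (q := (H v).det / (H c).det) hn (one_pow n) one_ne_zero (div_ne_zero p d0)
    rw [rt, div_one] at this
    rw [Matrix.det_smul, Fintype.card_fin, inv_pow, rt, this]
    field_simp
  refine ⟨_, ht, t1, ?_⟩
  have := h.germ hz hg hx δ0 ((ht.inv t0).smul hH)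
    (show (rt n 1 (H c).det (H c).det)⁻¹ • H c = _ by rw [t1, inv_one, one_smul, H0]) (by
    filter_upwards [e, off_ev hx, nhdsWithin_le_nhds hd1.eventually_nhds, nhdsWithin_le_nhds
      ((ht.inv t0).eventually_analyticAt.and hH.eventually_analyticAt)] with v ⟨L, p, q⟩ s t u
    have bd := p ▸ br_der c L
    have e1 : ∀ᶠ y in 𝓝 v, ((rt n 1 (H c).det (H y).det)⁻¹ • H y * ex z.R (-br c L y)).det =
        (H c).det := t.mono fun y hy => by
      rw [Matrix.det_mul, hy, det_ex, tr_R hz, mul_zero, exp_zero, mul_one]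
    have q1 : PF (z.a i) (fun y => (rt n 1 (H c).det (H y).det)⁻¹ • H y * ex z.R (-br c L y)) v := by
      simp only [smul_mul_assoc]
      exact q.smul (u.1.eventually_analyticAt.mono fun _ a => a.continuousAt)
    exact of_flat (u.1.smul u.2) bd.self_of_nhds ((q1.ph hn (e1.self_of_nhds.trans_ne d0)
      (analyticAt_const.congr (e1.mono fun _ a => a.symm))).flat hn (hz.tr i v s) e1))
  filter_upwards [this, ht.continuousAt.eventually_ne t0] with v p q
  rw [← p]
  exact (smul_inv_smul₀ q _).symm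

/-- **gauges in two charts** -/
theorem IsG.chg [T2Space C] (hn : n ≠ 0) (hz : Good A l z) (lam : z.lam = 1) (hg : Gen d z.R)
    (hi : z.x ∈ (A.e i).source) (hj : z.x ∈ (A.e j).source) (δ0 : 0 < δ) (δ0' : 0 < δ')
    (h : IsG A z i δ G) (h' : IsG A z j δ' G') {η : ℂ → ℂ} (hη : AnalyticAt ℂ η (A.e i z.x))
    (e : ∀ᶠ v in 𝓝 (A.e i z.x), exp (η v) * (v - A.e i z.x) = A.tr i j v - A.e j z.x) :
    ∃ f : ℂ → ℂ, AnalyticAt ℂ f (A.e i z.x) ∧ f (A.e i z.x) = 1 ∧ ∀ᶠ v in 𝓝 (A.e i z.x),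
      z.g i j v * G' (A.tr i j v) * ex z.R (-η v) = f v • (G v * ex z.R (-η (A.e i z.x))) := by
  set c := A.e i z.x
  have hO : c ∈ A.O i j := mem_O hi hj
  have tc : A.tr i j c = A.e j z.x := tr_e hi
  obtain ⟨ε, ε0, hε⟩ := Metric.mem_nhds_iff.1 (inter_mem (ball_mem_nhds (A.e j z.x) δ0')
    (isOpen_ball.mem_nhds (map_src hj)))
  have h2 : IsG A z j (min ε δ') G' := h'.mono (min_le_right _ _)
  have aη : ∀ v, AnalyticAt ℂ η v → AnalyticAt ℂ (fun v => ex z.R (-η v)) v := fun v a =>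
    ex_an analyticAt_const a.neg
  obtain ⟨f, a, b, k⟩ := h.of_pf hn hz hg hi δ0
    (H := fun v => z.g i j v * G' (A.tr i j v) * ex z.R (-η v) * ex z.R (η c))
    ((((hz.cc.an hO).mul ((h'.an (tc ▸ mem_ball_self δ0')).comp (an_tr hO))).mul (aη c hη)).mul
      analyticAt_const)
    (show z.g i j c * G' (A.tr i j c) * ex z.R (-η c) * ex z.R (η c) = _ by
      rw [mul_assoc _ (ex _ _), ex_neg_mul, mul_one, tc, h'.2, hz.frc i j hi hj]) (by
    filter_upwards [off_ev hi, self_mem_nhdsWithin, nhdsWithin_le_nhds (O_nhds hO),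
      nhdsWithin_le_nhds (e.eventually_nhds.and hη.eventually_analyticAt), nhdsWithin_le_nhds
      ((an_tr hO).continuousAt.eventually (tc ▸ ball_mem_nhds (A.e j z.x) (lt_min ε0 δ0')))] with v p q s t u
    have q' : v - c ≠ 0 := sub_ne_zero.2 q
    have e1 : v = c + exp (log (v - c)) := by rw [exp_log q', add_sub_cancel]
    have e2 : A.tr i j v = A.e j z.x + exp (log (v - c) + η v) := by
      rw [exp_add, exp_log q', mul_comm, t.1.self_of_nhds, add_sub_cancel]
    refine ⟨_, e1, PH.pf ?_⟩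
    have k := h2.ph_br hz hg hj (fun y hy => (hε (ball_subset_ball (min_le_left _ _) hy)).2)
      (L := log (v - c) + η v) (by rw [← e2, ← tc]; exact u)
    rw [← e2] at k
    refine ((k.chg hz lam s p.2).mul (ex_det_ne z.R (η c))).congr EventuallyEq.rfl ?_
    have := log_uniq (S := univ) (x := v)
      (f := fun y => br (A.e j z.x) (log (v - c) + η v) (A.tr i j y))
      (f' := fun y => η y + br c (log (v - c)) y)
      ((AnalyticAt.comp (g := br _ _) (by rw [e2]; exact br_an _ _)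
        (an_tr s)).continuousAt.continuousWithinAt)
      ((t.2.add (by nth_rewrite 2 [e1]; exact br_an _ _)).continuousAt.continuousWithinAt)
      (by
        have b1 := br_self c (log (v - c))
        have b2 := br_self (A.e j z.x) (log (v - c) + η v)
        rw [← e1] at b1
        rw [← e2] at b2
        simp only [b1, b2]
        exact add_comm _ _)
      (by
        rw [nhdsWithin_univ]
        filter_upwards [t.1, eventually_ne_nhds q] with y a b
        rw [exp_add, exp_br b, a, exp_br (sub_ne_zero.1 (a ▸ mul_ne_zero (exp_ne_zero _)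
          (sub_ne_zero.2 b)))])
    rw [nhdsWithin_univ] at this
    filter_upwards [this] with y a
    simp only [a, mul_assoc, ← ex_add]
    congr 3
    ring)
  refine ⟨f, a, b, k.mono fun v p => ?_⟩
  rw [← smul_mul_assoc, ← show _ = f v • G v from p, mul_assoc _ (ex z.R (η c)), ex_mul_neg,
    mul_one]

end dat

/-- the charts of an atlas -/
@[reducible] def chs (A : At C) : ChartedSpace ℂ C where
  atlas := range A.e
  chartAt x := A.e (A.cov x).choose
  mem_chart_source x := (A.cov x).choose_spec.1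
  chart_mem_atlas x := mem_range_self _

theorem pc_fib [T1Space C] [ConnectedSpace C] (A : At C) (x : C) : PathConnectedSpace (Pc x) :=
  letI := chs A; P275RH.pc_pc x

theorem lpc_fib [T1Space C] (A : At C) (x : C) : LocallyPathConnectedSpace (Pc x) :=
  letI := chs A; P275RH.lpc_pc x

section loc

variable {A : At C} {l : Cy A ℂ} {d : ℤ} {P : Loc A l g n d} {x : C} {z z' : Dat C A.N n}
  {ρ ρ' : Tup g n} {F F' : P.ι → Fm A (Mn n)} {r : ℝ} {h1 : 1 < r} {h2 : r ≤ A.R}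

/-- the cocycle on the fibre -/
theorem Loc.cyf (P : Loc A l g n d) (hx : x ∈ P.V) :
    P275RH.Cy (fun k => fib hx ⁻¹' P.U k) fun k m y => P.c k m (fib hx y) :=
  P.cy.pull (P.cy.toOc.pre (fib hx)) fun _ _ h => h

/-- flat sections over a fibre are invariant constants -/
theorem Loc.const (S : Std A l n d) (P : Loc A l g n d) (hx : x ∈ P.V) {M : Type}
    [MulAction (Fg g) M] {s : P.ι → Pc x → M}
    (hs : Fs (fun k => fib hx ⁻¹' P.U k) (fun k m y => P.c k m (fib hx y)) s) :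
    ∃ m, (∀ w : Fg g, w • m = m) ∧ ∀ k y, fib hx y ∈ P.U k → s k y = m := by
  haveI := S.t2
  haveI := S.conn
  haveI := pc_fib A x
  obtain ⟨y⟩ := (inferInstance : Nonempty (Pc x))
  obtain ⟨k, hk⟩ := P.cy.cov (fib hx y)
  have h : ∀ w : Fg g, w • s k y = s k y := fun w => by
    obtain ⟨γ, rfl⟩ := (P.univ x hx y k hk).2 w
    exact hs.hol (P.cyf hx) _ hk hk
  exact ⟨_, h, fun m y' hm => hs.ext (s' := fun _ _ => s k y)
    ⟨fun _ _ _ => Eventually.of_forall fun _ => rfl, fun _ _ _ _ _ => (h _).symm⟩ (P.cyf hx) hk rfl hm⟩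

/-- locally constant intertwiners are constant -/
theorem Loc.intw (S : Std A l n d) (P : Loc A l g n d) (hx : x ∈ P.V) {X : P.ι → Pc x → Mn n}
    (lc : ∀ k, Lc (fib hx ⁻¹' P.U k) (X k))
    (e : ∀ k m y, fib hx y ∈ P.U k → fib hx y ∈ P.U m →
      X k y * wv ρ (P.c k m (fib hx y)) = wv ρ' (P.c k m (fib hx y)) * X m y) :
    ∃ M, (∀ w, wv ρ' w * M = M * wv ρ w) ∧ ∀ k y, fib hx y ∈ P.U k → X k y = M := by
  letI : MulAction (Fg g) (Mn n) :=
    { smul w X := wv ρ' w * X * wv ρ w⁻¹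
      one_smul X := by show _ * _ * _ = _; rw [inv_one, wv_one, wv_one, one_mul, mul_one]
      mul_smul a b X := by
        show _ * _ * _ = _ * (_ * _ * _) * _
        simp only [mul_inv_rev, wv_mul, mul_assoc] }
  obtain ⟨M, a, b⟩ := P.const S hx (s := X) ⟨lc, fun k m y hk hm => by
    show _ = _ * _ * _
    rw [← e k m y hk hm, mul_assoc, wv_mul_inv, mul_one]⟩
  refine ⟨M, fun w => ?_, b⟩
  have : wv ρ' w * M * wv ρ w⁻¹ = M := a w
  conv_rhs => rw [← this, mul_assoc, wv_inv_mul, mul_one]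

/-- from the points of the fibre to the coordinate -/
theorem ev_chart [T1Space C] {y : Pc x} {j : Fin A.N} (hj : y.1 ∈ (A.e j).source) {p : Pc x → Prop}
    (h : ∀ᶠ y' in 𝓝 y, p y') :
    ∀ᶠ v in 𝓝 (A.e j y), ∃ y' : Pc x, p y' ∧ y'.1 ∈ (A.e j).source ∧ A.e j y' = v := by
  have := (contAt_symm (i := j) (map_src hj)).tendsto
  rw [(A.e j).left_inv hj] at this
  filter_upwards [this (isOpen_compl_singleton.isOpenEmbedding_subtypeVal.image_mem_nhds.2 h),
    isOpen_ball.mem_nhds (map_src hj)] with v ⟨y', a, b⟩ c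
  exact ⟨y', a, b ▸ map_tgt c, by rw [b, rinv c]⟩

/-- from the coordinate to the points of the fibre -/
theorem ev_fib {y : Pc x} {j : Fin A.N} (hj : y.1 ∈ (A.e j).source) {p : ℂ → Prop}
    (h : ∀ᶠ v in 𝓝 (A.e j y), p v) : ∀ᶠ y' : Pc x in 𝓝 y, p (A.e j y') :=
  (((A.e j).continuousAt hj).comp continuous_subtype_val.continuousAt).eventually h

theorem Loc.ev_mem (P : Loc A l g n d) (hx : x ∈ P.V) {y : Pc x} {k : P.ι} {j : Fin A.N}
    (hk : fib hx y ∈ P.U k) (hj : InU A j y) : ∀ᶠ y' in 𝓝 y, fib hx y' ∈ P.U k ∧ InU A j y' :=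
  (((P.cyf hx).opn k).eventually_mem hk).and
    (continuous_subtype_val.continuousAt.eventually ((inU_open A j).eventually_mem hj))

theorem InU.offA {y : Pc x} {j : Fin A.N} (h : InU A j y) : A.e j y ∈ P275MO.off A x j :=
  off_res (r := A.R) (h1 := A.hR) (h2 := le_rfl) (InU.off h y.2)

theorem Frm.det_ne {hx : z.x ∈ P.V} (h : Frm P z hx ρ F) {y : Pc z.x} {k : P.ι} {j : Fin A.N}
    (hk : fib hx y ∈ P.U k) (hj : InU A j y) : (F k j (A.e j y)).det ≠ 0 :=
  h.det y k j hk hj ▸ P.un _ hx j _ (InU.offA hj)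

theorem Frm.det_ev [T1Space C] {hx : z.x ∈ P.V} (h : Frm P z hx ρ F) {y : Pc z.x} {k : P.ι}
    {j : Fin A.N} (hk : fib hx y ∈ P.U k) (hj : InU A j y) :
    ∀ᶠ v in 𝓝 (A.e j y), (F k j v).det = P.u z.x j v :=
  (ev_chart hj.1 (P.ev_mem hx hk hj)).mono fun _ ⟨y', a, _, b⟩ => b ▸ h.det y' k j a.1 a.2

/-- **comparison of frames** along a projectively horizontal map of constant determinant -/
theorem Frm.cmp (S : Std A l n d) {hx : z.x ∈ P.V} {hx' : z'.x ∈ P.V} (h : Frm P z hx ρ F)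
    (h' : Frm P z' hx' ρ' F') (ex : z'.x = z.x) {φ : Fm A (Mn n)} {κ : ℂ} (κ0 : κ ≠ 0)
    (hg : ∀ y j j', y ≠ z.x → InU A j y → InU A j' y → (z'.g j j' (A.e j y)).det ≠ 0)
    (hφ : ∀ y j, y ≠ z.x → InU A j y → AnalyticAt ℂ (φ j) (A.e j y) ∧ (φ j (A.e j y)).det = κ ∧
      (∃ c : ℂ, deriv (φ j) (A.e j y) + z'.a j (A.e j y) * φ j (A.e j y) =
        φ j (A.e j y) * z.a j (A.e j y) + c • φ j (A.e j y)) ∧
      ∀ j', InU A j' y →
        φ j (A.e j y) * z.g j j' (A.e j y) = z'.g j j' (A.e j y) * φ j' (A.e j' y)) :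
    ∃ M : Mn n, M.det = κ ∧ (∀ w, wv ρ' w * M = M * wv ρ w) ∧
      ∀ (y : Pc z.x) k j, fib hx y ∈ P.U k → InU A j y →
        φ j (A.e j y) * F k j (A.e j y) = F' k j (A.e j y) * M := by
  haveI := S.t2
  haveI := S.conn
  have hn : n ≠ 0 := by have := S.two; omega
  obtain ⟨lam, x', g', a', σ', R'⟩ := z'
  obtain rfl : x' = z.x := ex
  choose p hp using A.cov
  let X : P.ι → Pc z.x → Mn n := fun k y =>
    (F' k (p y) (A.e (p y) y))⁻¹ * (φ (p y) (A.e (p y) y) * F k (p y) (A.e (p y) y))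
  have eX : ∀ (y : Pc z.x) k j, fib hx y ∈ P.U k → InU A j y →
      φ j (A.e j y) * F k j (A.e j y) = F' k j (A.e j y) * X k y := fun y k j hk hj => by
    rw [h.chg y k j _ hk hj (hp y), h'.chg y k j _ hk hj (hp y), ← mul_assoc,
      (hφ y j y.2 hj).2.2.2 _ (hp y), mul_assoc, mul_assoc, mul_inv_can (h'.det_ne hk (hp y))]
  obtain ⟨M, a, b⟩ := P.intw S hx (X := X) (ρ := ρ) (ρ' := ρ') (fun k y hk => by
    have hj : InU A (p y) y := hp y
    have e0 := ev_chart hj.1 (P.ev_mem hx hk hj)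
    have k1 := (h.pf y k _ hk hj).map (a' := a' (p y)) (hφ y _ y.2 hj).1
      ((hφ y _ y.2 hj).2.1 ▸ κ0) (e0.mono fun _ ⟨y', a, _, b⟩ => b ▸ (hφ y' _ y'.2 a.2).2.2.1)
    have k2 := (h'.pf y k _ hk hj).lc' hn k1 (h'.det_ne hk hj) κ0 (e0.mono fun _ ⟨y', a, _, b⟩ => by
      rw [← b, Matrix.det_mul, (hφ y' _ y'.2 a.2).2.1, h.det y' k _ a.1 a.2, h'.det y' k _ a.1 a.2])
    filter_upwards [ev_fib hj.1 k2, P.ev_mem hx hk hj] with y' a b
    rw [eX y' k _ b.1 b.2, inv_mul_can (h'.det_ne b.1 b.2)] at a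
    exact a) fun k m y hk hm => by
      have hj : InU A (p y) y := hp y
      rw [← inv_mul_can (h'.det_ne hk hj) (_ * X m y), ← mul_assoc (F' k _ _), ← h'.coc y k m _ hk hm hj,
        ← eX y m _ hm hj, h.coc y k m _ hk hm hj]
      simp only [X, mul_assoc]
  haveI := pc_fib A z.x
  obtain ⟨y⟩ := (inferInstance : Nonempty (Pc z.x))
  obtain ⟨k, hk⟩ := P.cy.cov (fib hx y)
  refine ⟨M, ?_, a, fun y k j hk hj => b k y hk ▸ eX y k j hk hj⟩
  have := congrArg Matrix.det (eX y k _ hk (hp y))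
  rw [b k y hk, Matrix.det_mul, Matrix.det_mul, (hφ y _ y.2 (hp y)).2.1, h.det y k _ hk (hp y),
    ← h'.det y k _ hk (hp y), mul_comm] at this
  exact (mul_left_cancel₀ (h'.det_ne hk (hp y)) this).symm

end loc

end Vale.Agent.P275RL
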