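import Vale.Agent.P275RL.Chg

/-!
# P275, Deligne extension in families: chart data
-/

set_option linter.all false

open scoped Topology Real Matrix.Norms.Operator
open Filter Set Metric Complex
open Vale.Agent.P275GC (At)
open Vale.Agent.P275NA (Cy Fm Mn)
open Vale.Agent.P275MO
open Vale.Agent.P275ST (Pc zeta)
open Vale.Agent.P275RH (cwd)
open Vale.Agent.P275Z

noncomputable section

namespace Vale.Agent.P275RL

variable {C : Type} [TopologicalSpace C] {n g : ℕ} {A : At C} {l : Cy A ℂ} {d : ℤ}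

/-- triples (root, logarithm, word) modulo the deck transformation -/
def Eqv (n : ℕ) (d : ℤ) (a b : ℂ × ℂ × Fg g) : Prop :=
  ∃ m : ℤ, a.1 = zeta n d ^ m * b.1 ∧ a.2.1 = b.2.1 + m * (2 * π * I) ∧ a.2.2 = b.2.2 * cwd g ^ m

/-- the model frame -/
def mf (R : Mn n) (ρ : Tup g n) (a : ℂ × ℂ × Fg g) : Mn n := a.1 • (ex R (-a.2.1) * wv ρ a.2.2⁻¹)

/-- `y` lies in the disc of radius `r` of the chart `j` -/
def InR (A : At C) (r : ℝ) (j : Fin A.N) (y : C) : Prop :=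
  y ∈ (A.e j).source ∧ A.e j y ∈ ball (0 : ℂ) r

/-- **chart data**: on the disc of radius `r` of the chart `j`, for poles in `W` -/
structure Cd (P : Loc A l g n d) (r : ℝ) (W : Set C) (j : Fin A.N) where
  II : Prop
  src : ∀ x ∈ W, II ↔ InR A r j x
  S : C × ℂ → ℂ
  Λ : C × ℂ → ℂ
  B : P.ι → C × ℂ → Fg g
  α : C × ℂ → ℂ
  θ : C × ℂ → ℂ
  η : C × ℂ → ℂ
  α1 : II → ∀ p, α p = (p.2 - A.e j p.1)⁻¹
  α0 : ¬II → ∀ p, α p = 0
  pow : ∀ y : Wd P.V, y.1.1 ∈ W → InR A r j y.1.2 →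
    S (y.1.1, A.e j y.1.2) ^ n = P.u y.1.1 j (A.e j y.1.2)
  coc : ∀ (y : Wd P.V) k m, y.1.1 ∈ W → InR A r j y.1.2 → y ∈ P.U k → y ∈ P.U m →
    B k (y.1.1, A.e j y.1.2) = P.c k m y * B m (y.1.1, A.e j y.1.2)
  loc : ∀ (y : Wd P.V) k, y.1.1 ∈ W → InR A r j y.1.2 → y ∈ P.U k →
    ∃ (s ℓ : C × ℂ → ℂ) (β : Fg g), ∀ᶠ p in 𝓝 (y.1.1, A.e j y.1.2), ContinuousAt s p ∧
      ContinuousAt ℓ p ∧ HasDerivAt (fun w => ℓ (p.1, w)) (α p) p.2 ∧
      Eqv n d (S p, Λ p, B k p) (s p, ℓ p, β)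
  pole : II → ∀ x ∈ W, ∀ᶠ p in 𝓝 (x, A.e j x), ContinuousAt θ p ∧ ContinuousAt η p ∧
    AnalyticAt ℂ (fun w => θ (p.1, w)) p.2 ∧ AnalyticAt ℂ (fun w => η (p.1, w)) p.2 ∧
    θ p ^ n = l j P.a p.2 ∧ ∀ (y : Wd P.V) k, y.1 = (p.1, (A.e j).symm p.2) → y ∈ P.U k →
      ∃ q, P.ν q = y ∧ Eqv n d (S p, Λ p, B k p) (θ p * P.s q, q.1.2 - η p, P.b k q)
  nrm : j = P.a → (∀ p, θ p = 1 ∧ η p = 0) ∧ ∀ (q : Nd P.V P.δ) k p, q.1.1 ∈ W → P.ν q ∈ P.U k →
    p = (q.1.1, A.e P.a q.1.1 + exp q.1.2) → Eqv n d (S p, Λ p, B k p) (P.s q, q.1.2, P.b k q)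

variable (P : Loc A l g n d)

/-- existence of chart data -/
def CDX : Prop := ∀ x₀ ∈ P.V, ∃ (r : ℝ) (W : Set C), 1 < r ∧ r ≤ A.R ∧ IsOpen W ∧ x₀ ∈ W ∧
  W ⊆ P.V ∧ ∀ j, Nonempty (Cd P r W j)

/-- gluing: `z.g i j = p i * (p j ∘ tr)⁻¹` for `p j k w = mf R ρ (S, Λ, B k)`, `z.a j = α • R`,
`z.σ j = θ • ex R η` at the pole -/
def GLUE : Prop := ∀ (r : ℝ) (h1 : 1 < r) (h2 : r ≤ A.R) (W : Set C), IsOpen W → W ⊆ P.V →
  (∀ j, Nonempty (Cd P r W j)) → ∀ (T : Type) [TopologicalSpace T] (x : T → C) (R : T → Mn n)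
    (ρ : T → Tup g n), Continuous x → Continuous R → Continuous ρ →
    (∀ t, (R t).trace = 0 ∧ Gen d (R t) ∧ wv (ρ t) (cwd g) = mon d (R t)) →
    ∃ F : T → Dat C A.N n, FamOn (A.res r h1 h2) l F (x ⁻¹' W) ∧
      ∀ t, x t ∈ W → (F t).x = x t ∧ (F t).R = R t ∧ Rel P (F t) (ρ t)

theorem inv_of (h : CDX P) (h' : GLUE P) : INV P := fun q hq t₀ => by
  obtain ⟨r, W, h1, h2, a, b, c, e⟩ := h t₀.1 t₀.1.2
  have cx : Continuous fun t : P.V × BFr g d q => (t.1 : C) := by fun_prop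
  have cs : Continuous fun t : P.V × BFr g d q => t.2.1 := continuous_subtype_val.comp continuous_snd
  obtain ⟨F, f, k⟩ := h' r h1 h2 W a c e _ _ _ _ cx cs.fst cs.snd fun t =>
    ⟨hq _ t.2.2.1, t.2.2.2⟩
  exact ⟨F, r, h1, h2, _, (a.preimage cx).mem_nhds b, f, k⟩

variable {P} {a b c : ℂ × ℂ × Fg g} {R : Mn n} {ρ : Tup g n}

theorem zeta_ne (n : ℕ) (d : ℤ) : zeta n d ≠ 0 := exp_ne_zero _

theorem zeta_pow (hn : n ≠ 0) (d : ℤ) : zeta n d ^ n = 1 := by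
  rw [zeta, ← exp_nat_mul, mul_div_cancel₀ _ (Nat.cast_ne_zero.2 hn), mul_comm,
    exp_int_mul_two_pi_mul_I]

theorem Eqv.refl (a : ℂ × ℂ × Fg g) : Eqv n d a a := ⟨0, by simp⟩

theorem Eqv.trans (h : Eqv n d a b) (h' : Eqv n d b c) : Eqv n d a c := by
  obtain ⟨m, h1, h2, h3⟩ := h
  obtain ⟨k, k1, k2, k3⟩ := h'
  exact ⟨k + m, by rw [h1, k1, zpow_add₀ (zeta_ne n d)]; ring, by rw [h2, k2]; push_cast; ring,
    by rw [h3, k3, zpow_add, mul_assoc]⟩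

theorem Eqv.symm (h : Eqv n d a b) : Eqv n d b a := by
  obtain ⟨m, h1, h2, h3⟩ := h
  exact ⟨-m, by rw [h1, zpow_neg, inv_mul_cancel_left₀ (zpow_ne_zero _ (zeta_ne n d))],
    by rw [h2]; push_cast; ring, by rw [h3, zpow_neg, mul_inv_cancel_right]⟩

theorem wv_zpow (h : wv ρ (cwd g) = mon d R) (m : ℤ) :
    wv ρ (cwd g ^ m) = zeta n d ^ m • ex R (-(m * (2 * π * I))) := by
  have h1 : ∀ m : ℤ, zeta n d ^ (m + 1) • ex R (-((m + 1 : ℤ) * (2 * π * I))) =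
      (zeta n d ^ m • ex R (-(m * (2 * π * I)))) * wv ρ (cwd g) := fun m => by
    rw [h, mon_eq, smul_mul_assoc, mul_smul_comm, smul_smul, ← ex_add, zpow_add_one₀ (zeta_ne n d)]
    congr 2
    push_cast
    ring
  induction m using Int.induction_on with
  | zero => simp [wv_one]
  | succ m ih => rw [zpow_add_one, wv_mul, ih, h1]
  | pred m ih =>
    have := h1 (-m - 1)
    rw [sub_add_cancel, ← ih] at this
    rw [zpow_sub_one, wv_mul, this, mul_assoc, wv_mul_inv, mul_one]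

theorem Eqv.mf (h : wv ρ (cwd g) = mon d R) (e : Eqv n d a b) : mf R ρ a = mf R ρ b := by
  obtain ⟨m, h1, h2, h3⟩ := e
  rw [P275RL.mf, P275RL.mf, h1, h2, h3, mul_inv_rev, wv_mul, neg_add, ex_add, mul_comm (_ ^ m),
    mul_smul, mul_assoc, ← mul_smul_comm (zeta n d ^ m), ← smul_mul_assoc (zeta n d ^ m),
    ← wv_zpow h, ← mul_assoc (wv ρ _), wv_mul_inv, one_mul]

/-- a relation which is kept by the deck transformation -/
theorem eqv_of_exp {f : ℂ → ℂ} {b : ℂ → Fg g} {Q : ℂ → Prop}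
    (hQ : ∀ L L', exp L = exp L' → Q L → Q L')
    (h : ∀ L, Q L → f (L + 2 * π * I) = zeta n d * f L ∧ b (L + 2 * π * I) = b L * cwd g)
    {L L' : ℂ} (e : exp L = exp L') (hL : Q L') : Eqv n d (f L, L, b L) (f L', L', b L') := by
  obtain ⟨m, rfl⟩ := exp_eq_exp_iff_exists_int.1 e
  have hm : ∀ m : ℤ, Q (L' + m * (2 * π * I)) := fun m =>
    hQ _ _ (exp_eq_exp_iff_exists_int.2 ⟨m, rfl⟩).symm hL
  have h1 : ∀ m : ℤ, Eqv n d (f (L' + (m + 1 : ℤ) * (2 * π * I)), L' + (m + 1 : ℤ) * (2 * π * I),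
      b (L' + (m + 1 : ℤ) * (2 * π * I)))
      (f (L' + m * (2 * π * I)), L' + m * (2 * π * I), b (L' + m * (2 * π * I))) := fun m => by
    have : L' + (m + 1 : ℤ) * (2 * π * I) = L' + m * (2 * π * I) + 2 * π * I := by push_cast; ring
    rw [this]
    exact ⟨1, by simpa using (h _ (hm m)).1, by simp, by simpa using (h _ (hm m)).2⟩
  clear e
  induction m using Int.induction_on with
  | zero => simpa using Eqv.refl _
  | succ m ih => exact (h1 m).trans ih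
  | pred m ih =>
    have := h1 (-m - 1)
    rw [sub_add_cancel] at this
    exact this.symm.trans ih

/-- two logarithms of the same point -/
theorem Loc.eqv (P : Loc A l g n d) {q q' : Nd P.V P.δ} (e : P.ν q = P.ν q') {k : P.ι}
    (hk : P.ν q ∈ P.U k) : Eqv n d (P.s q, q.1.2, P.b k q) (P.s q', q'.1.2, P.b k q') := by
  classical
  have e1 : q.1.1 = q'.1.1 := by
    have := congrArg (·.1.1) e
    simpa only [P.ν_eq] using this
  have e2 : exp q.1.2 = exp q'.1.2 := by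
    have := (P.ν_e q).2
    rw [e, (P.ν_e q').2, e1] at this
    exact (add_left_cancel this).symm
  obtain ⟨⟨x, L⟩, hx, hL⟩ := q
  obtain ⟨⟨x', L'⟩, hx', hL'⟩ := q'
  obtain rfl : x = x' := e1
  have := eqv_of_exp (n := n) (d := d) (Q := fun M => exp M = exp L)
    (f := fun M => if h : M.re < Real.log P.δ then P.s ⟨(x, M), hx, h⟩ else 0)
    (b := fun M => if h : M.re < Real.log P.δ then P.b k ⟨(x, M), hx, h⟩ else 1)
    (fun _ _ a b => a.symm.trans b) (fun M hM => by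
      have h1 : M.re < Real.log P.δ := by
        rw [← exp_mem_ball P.hδ, hM, exp_mem_ball P.hδ]; exact hL
      have h2 : (M + 2 * π * I).re < Real.log P.δ := by simpa using h1
      simp only [dif_pos h1, dif_pos h2]
      exact ⟨P.sT ⟨(x, M), hx, h1⟩, P.per k ⟨(x, M), hx, h1⟩ (mem_of_eq_of_mem
        (Subtype.ext (by simp only [P.ν_eq, hM])) hk)⟩) e2 e2.symm
  simpa only [dif_pos (show L.re < _ from hL), dif_pos (show L'.re < _ from hL')] using this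

end Vale.Agent.P275RL
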