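import Vale.Agent.P275RL.Cd
import Mathlib.Analysis.Complex.BranchLogRoot
import Mathlib.Analysis.Convex.Contractible

/-!
# P275, Deligne extension in families: existence of chart data
-/

set_option linter.all false

open scoped Topology Real Matrix.Norms.Operator
open Filter Set Metric Complex
open Vale.Agent.P275GC (At)
open Vale.Agent.P275GC.At
open Vale.Agent.P275NA (Cy Fm Mn)
open Vale.Agent.P275MO Vale.Agent.P275MB
open Vale.Agent.P275ST (Pc zeta)
open Vale.Agent.P275RH (cwd Oc Lc Fs)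
open Vale.Agent.P275Z

noncomputable section

namespace Vale.Agent.P275RL

variable {C : Type} [TopologicalSpace C] {n g : ℕ} {A : At C} {l : Cy A ℂ} {d : ℤ}

section top

variable {N K ι G : Type} [TopologicalSpace N] [TopologicalSpace K] [Group G] {U : ι → Set N}
  {c : ι → ι → N → G} {b : ι → N → G}

theorem fs_comp (h : Fs U c b) (f : C(K, N)) :
    Fs (fun k => f ⁻¹' U k) (fun k m q => c k m (f q)) fun k q => b k (f q) :=
  ⟨fun k q hq => f.continuous.continuousAt.eventually (h.lc k _ hq), fun k m q => h.tr k m _⟩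

theorem fs_mul (h : Fs U c b) (w : G) : Fs U c fun k q => b k q * w :=
  ⟨fun k q hq => (h.lc k q hq).mono fun _ e => congrArg (· * w) e, fun k m q hk hm => by
    rw [h.tr k m q hk hm]; exact mul_assoc _ _ _⟩

theorem root_ext [PreconnectedSpace N] (hn : n ≠ 0) {s s' : N → ℂ} (h : Continuous s)
    (h' : Continuous s') (e : ∀ q, s q ^ n = s' q ^ n) (h0 : ∀ q, s' q ≠ 0) {q₀ : N}
    (e0 : s q₀ = s' q₀) (q : N) : s q = s' q := by
  have := ((IsLocallyConstant.iff_eventually_eq fun q => s q / s' q).2 fun q => by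
    simpa only [nhdsWithin_univ, Pi.div_apply] using lc_of_pow (S := univ) (κ := 1) hn
      (h.div h' h0).continuousWithinAt (Eventually.of_forall fun y => by
        rw [Pi.div_apply, div_pow, e, div_self (pow_ne_zero _ (h0 y))])).apply_eq_of_preconnectedSpace
    q q₀
  rwa [e0, div_self (h0 _), div_eq_one_iff_eq (h0 _)] at this

theorem lift0 [SimplyConnectedSpace N] [LocallyPathConnectedSpace N] (hn : n ≠ 0)
    (h : P275RH.Cy U c) {u : N → ℂ} (hu : Continuous u) (u0 : ∀ q, u q ≠ 0) :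
    ∃ (b : ι → N → G) (s : N → ℂ), Fs U c b ∧ Continuous s ∧ ∀ q, s q ^ n = u q := by
  obtain ⟨q⟩ := (inferInstance : Nonempty N)
  obtain ⟨k, hk⟩ := h.cov q
  obtain ⟨b, hb, -⟩ := h.exists_fs hk (m := (1 : G)) fun γ => by
    rw [Subsingleton.elim γ 1, map_one, one_smul]
  obtain ⟨s, hs, e⟩ := exists_continuousOn_pow_eq (U := univ)
    (Homeomorph.Set.univ N).toHomotopyEquiv.simplyConnectedSpace isOpen_univ hu.continuousOn
    (fun ⟨q, _, e⟩ => u0 q e) hn
  exact ⟨b, s, hb, continuousOn_univ.1 hs, e⟩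

theorem lift1 [SimplyConnectedSpace N] [LocallyPathConnectedSpace N] [PathConnectedSpace K]
    (hn : n ≠ 0) (h : P275RH.Cy U c) {u : N → ℂ} (hu : Continuous u) (u0 : ∀ q, u q ≠ 0)
    (f : C(K, N)) {b₀ : ι → K → G} (hb : Fs (fun k => f ⁻¹' U k) (fun k m q => c k m (f q)) b₀)
    {s₀ : K → ℂ} (hs : Continuous s₀) (e : ∀ q, s₀ q ^ n = u (f q)) :
    ∃ (b : ι → N → G) (s : N → ℂ), Fs U c b ∧ Continuous s ∧ (∀ q, s q ^ n = u q) ∧
      (∀ q, s (f q) = s₀ q) ∧ ∀ k q, f q ∈ U k → b k (f q) = b₀ k q := by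
  obtain ⟨b, s, a1, a2, a3⟩ := lift0 hn h hu u0
  obtain ⟨q⟩ := (inferInstance : Nonempty K)
  obtain ⟨k, hk⟩ := h.cov (f q)
  have s0 : ∀ q, s q ≠ 0 := fun q a => u0 q (by rw [← a3, a, zero_pow hn])
  have a4 : ∀ y, (s₀ q / s (f q) * s y) ^ n = u y := fun y => by
    rw [mul_pow, div_pow, e, a3, a3, div_self (u0 _), one_mul]
  refine ⟨_, fun y => s₀ q / s (f q) * s y, fs_mul a1 ((b k (f q))⁻¹ * b₀ k q),
    continuous_const.mul a2, a4, fun y => ?_, fun m y hm => ?_⟩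
  · exact root_ext hn ((continuous_const.mul a2).comp f.continuous) hs
      (fun y => (a4 _).trans (e y).symm) (fun y a => u0 _ (by rw [← e, a, zero_pow hn]))
      (q₀ := q) (div_mul_cancel₀ _ (s0 _)) y
  · exact (fs_comp (fs_mul a1 _) f).ext hb (h.pull (h.toOc.pre f) fun _ _ a => a) hk
      (mul_inv_cancel_left _ _) hm

theorem contr_of [ContractibleSpace K] (f : C(K, N)) (h : C(N, K))
    (H : (ContinuousMap.id N).Homotopic (f.comp h)) : ContractibleSpace N := by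
  obtain ⟨y, hy⟩ := ((id_nullhomotopic K).comp_right f).comp_left h
  exact (contractible_iff_id_nullhomotopic N).2 ⟨y, H.trans hy⟩

/-- extension of a function on a subset -/
def xs {M : Type} {O : Set N} (f : O → M) (m : M) (p : N) : M :=
  by classical exact if h : p ∈ O then f ⟨p, h⟩ else m

theorem xs_eq {M : Type} {O : Set N} (f : O → M) (m : M) {p : N} (h : p ∈ O) :
    xs f m p = f ⟨p, h⟩ := dif_pos h

theorem ev_sub {O : Set N} (hO : IsOpen O) {p : O} {Q : O → Prop} (h : ∀ᶠ q in 𝓝 p, Q q) :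
    ∀ᶠ q in 𝓝 p.1, ∃ h : q ∈ O, Q ⟨q, h⟩ :=
  eventually_of_mem (hO.isOpenEmbedding_subtypeVal.image_mem_nhds.2 h) fun _ ⟨q, a, e⟩ =>
    e ▸ ⟨q.2, a⟩

theorem xs_cont {M : Type} [TopologicalSpace M] {O : Set N} (hO : IsOpen O) {f : O → M}
    (hf : Continuous f) (m : M) {p : N} (h : p ∈ O) : ContinuousAt (xs f m) p :=
  ContinuousOn.continuousAt (continuousOn_iff_continuous_restrict.2
    (hf.congr fun q => (xs_eq f m q.2).symm)) (hO.mem_nhds h)

end top

theorem dslope_cont {τ : ℂ → ℂ} {O : Set ℂ} (hO : IsOpen O) (h : DifferentiableOn ℂ τ O)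
    {p : ℂ × ℂ} (h1 : p.1 ∈ O) (h2 : p.2 ∈ O) :
    ContinuousAt (fun p : ℂ × ℂ => dslope τ p.1 p.2) p := by
  obtain ⟨c, w⟩ := p
  have a1 := h.analyticAt (hO.mem_nhds h1)
  by_cases e : w = c
  · subst e
    refine Metric.tendsto_nhds.2 fun ε ε0 => ?_
    have a2 := (hasStrictFDerivAt_iff_isLittleO.1 a1.hasStrictDerivAt.hasStrictFDerivAt).bound
      (half_pos ε0)
    filter_upwards [(continuous_swap.tendsto (w, w)).eventually a2, continuous_fst.continuousAt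
      (Metric.tendsto_nhds.1 a1.deriv.continuousAt ε ε0)] with q a b
    by_cases e : q.2 = q.1
    · simp only [e, dslope_same]
      exact b
    · have e' := sub_ne_zero.2 e
      rw [dslope_same, dist_eq_norm, dslope_of_ne _ e, slope_def_field,
        div_sub' e', norm_div, div_lt_iff₀ (norm_pos_iff.2 e')]
      exact lt_of_le_of_lt (by simpa using a) (mul_lt_mul_of_pos_right (half_lt_self ε0)
        (norm_pos_iff.2 e'))
  · have a2 := (h.analyticAt (hO.mem_nhds h2)).continuousAt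
    refine ContinuousAt.congr (f := fun p : ℂ × ℂ => (τ p.2 - τ p.1) / (p.2 - p.1))
      (((a2.comp continuousAt_snd).sub (a1.continuousAt.comp continuousAt_fst)).div (by fun_prop)
        (sub_ne_zero.2 e)) ?_
    filter_upwards [(isOpen_ne_fun continuous_snd continuous_fst).mem_nhds e] with q a
    rw [dslope_of_ne _ a, slope_def_field]

theorem InR.ball {r : ℝ} {j : Fin A.N} {y : C} (h : InR A r j y) : A.e j y ∈ ball (0 : ℂ) A.R :=
  map_src h.1

theorem inR_open (A : At C) (r : ℝ) (j : Fin A.N) : IsOpen {y | InR A r j y} :=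
  (A.e j).continuousOn.isOpen_inter_preimage (A.e j).open_source isOpen_ball

theorem lpc_of (A : At C) : LocallyPathConnectedSpace C :=
  letI := chs A; ChartedSpace.locallyPathConnectedSpace ℂ C

theorem contr_prod {W : Set C} [ContractibleSpace W] {Q : Set ℂ} (h : Convex ℝ Q) (h0 : Q.Nonempty) :
    ContractibleSpace (W ×ˢ Q : Set (C × ℂ)) :=
  haveI := h.contractibleSpace h0
  (Homeomorph.Set.prod W Q).contractibleSpace

variable (P : Loc A l g n d) {r : ℝ} {W : Set C} {j : Fin A.N}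

theorem Loc.u_cont {N : Type} [TopologicalSpace N] {x : N → C} {w : N → ℂ} (hx : Continuous x)
    (hw : Continuous w) (h : ∀ q, x q ∈ P.V ∧ w q ∈ off A (x q) j) :
    Continuous fun q => P.u (x q) j (w q) := (P.uc j).comp_continuous (hx.prodMk hw) h

/-- charts without pole -/
theorem cd_I (hn : n ≠ 0) (h1 : 1 < r) (h2 : r ≤ A.R) (hW : IsOpen W) (hV : W ⊆ P.V)
    [ContractibleSpace W] (hI : ∀ x ∈ W, ¬InR A r j x) : Nonempty (Cd P r W j) := by
  haveI := lpc_of A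
  let O : Set (C × ℂ) := W ×ˢ ball 0 r
  have hO : IsOpen O := hW.prod isOpen_ball
  haveI := hO.locallyPathConnectedSpace
  haveI : ContractibleSpace O := contr_prod (convex_ball 0 r) (nonempty_ball.2 (by linarith))
  have b1 : ∀ p : O, p.1.2 ∈ off A p.1.1 j := fun p =>
    have a := ball_subset_ball h2 p.2.2
    ⟨a, fun e => hI _ p.2.1 (e ▸ ⟨map_tgt a, by rw [rinv a]; exact p.2.2⟩)⟩
  let ν : C(O, Wd P.V) := ⟨fun p => ⟨(p.1.1, (A.e j).symm p.1.2), hV p.2.1, (b1 p).2⟩,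
    (Continuous.prodMk (by fun_prop) ((cont_symm j).comp_continuous (by fun_prop)
      fun p => (b1 p).1)).subtype_mk _⟩
  obtain ⟨b, s, hb, hs, e⟩ := lift0 hn (P.cy.pull (P.cy.toOc.pre ν) fun _ _ a => a)
    (P.u_cont (x := fun p : O => p.1.1) (w := fun p => p.1.2) (by fun_prop) (by fun_prop)
      fun p => ⟨hV p.2.1, b1 p⟩) fun p => P.un _ (hV p.2.1) j _ (b1 p)
  have hν : ∀ (y : Wd P.V) (a : y.1.1 ∈ W) (a' : InR A r j y.1.2),
      ν ⟨(y.1.1, A.e j y.1.2), a, a'.2⟩ = y := fun y a a' =>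
    Subtype.ext (Prod.ext rfl ((A.e j).left_inv a'.1))
  refine ⟨⟨False, fun x hx => (iff_false_intro (hI x hx)).symm, xs s 0, 0, fun k => xs (b k) 1, 0,
    0, 0, False.elim, fun _ _ => rfl, fun y a a' => ?_, fun y k m a a' hk hm => ?_,
    fun y k a a' hk => ?_, False.elim, fun e => ?_⟩⟩
  · rw [xs_eq s 0 (p := (y.1.1, A.e j y.1.2)) ⟨a, a'.2⟩, e]
  · rw [xs_eq (b k) 1 (p := (y.1.1, A.e j y.1.2)) ⟨a, a'.2⟩,
      xs_eq (b m) 1 (p := (y.1.1, A.e j y.1.2)) ⟨a, a'.2⟩,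
      hb.tr k m _ (by rwa [mem_preimage, hν y a a']) (by rwa [mem_preimage, hν y a a']), hν y a a']
    rfl
  · refine ⟨xs s 0, 0, b k ⟨(y.1.1, A.e j y.1.2), a, a'.2⟩, ?_⟩
    filter_upwards [ev_sub hO (hb.lc k ⟨(y.1.1, A.e j y.1.2), a, a'.2⟩
      (by rwa [mem_preimage, hν y a a']))] with p ⟨h, e⟩
    exact ⟨xs_cont hO hs 0 h, continuousAt_const, hasDerivAt_const _ _, by
      rw [xs_eq (b k) 1 h, e]; exact Eqv.refl _⟩
  · obtain ⟨x⟩ := (inferInstance : Nonempty W)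
    have := P.inU (hV x.2)
    exact absurd ⟨e ▸ this.1, e ▸ unit_r h1 this.2⟩ (hI x x.2)

/-- the local comparison with the chart of `P` at the point `p` -/
structure Et (P : Loc A l g n d) (r : ℝ) (j : Fin A.N) (θ η : C × ℂ → ℂ) (p : C × ℂ) : Prop where
  mem : p.2 ∈ ball (0 : ℂ) r
  O : p.2 ∈ A.O j P.a
  cθ : ContinuousAt θ p
  cη : ContinuousAt η p
  aθ : AnalyticAt ℂ (fun w => θ (p.1, w)) p.2
  aη : AnalyticAt ℂ (fun w => η (p.1, w)) p.2
  pow : θ p ^ n = l j P.a p.2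
  eq : exp (η p) * (p.2 - A.e j p.1) = A.tr j P.a p.2 - A.e P.a p.1
  lt : A.tr j P.a p.2 - A.e P.a p.1 ∈ ball (0 : ℂ) P.δ

theorem contr_N (hx : ∀ x ∈ W, InR A r j x) [ContractibleSpace W] {ε : ℝ} (ε0 : 0 < ε)
    (hε : ∀ x ∈ W, ball (A.e j x) ε ⊆ ball 0 r) :
    ContractibleSpace (Nd W ε) ∧
      ContractibleSpace {q : C × ℂ | q.1 ∈ W ∧ A.e j q.1 + exp q.2 ∈ ball 0 r} := by
  haveI : ContractibleSpace (Nd W ε) :=
    contr_prod (convex_halfSpace_re_lt (Real.log ε)) ⟨(Real.log ε - 1 : ℝ), by simp⟩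
  refine ⟨this, ?_⟩
  let m : ℂ → ℝ := fun L => max 0 (L.re - Real.log ε + 1)
  refine contr_of (K := Nd W ε) ⟨fun q => ⟨q.1, q.2.1, hε _ q.2.1
    (add_mem_ball.2 ((exp_mem_ball ε0).2 q.2.2))⟩, by fun_prop⟩
    ⟨fun q => ⟨(q.1.1, q.1.2 - m q.1.2), q.2.1, ?_⟩, by fun_prop⟩
    ⟨⟨⟨fun p => ⟨(p.2.1.1, p.2.1.2 - (p.1 * m p.2.1.2 : ℝ)), p.2.2.1, ?_⟩, by fun_prop⟩,
      fun q => by simp, fun q => by simp⟩⟩
  · have := le_max_right 0 (q.1.2.re - Real.log ε + 1)
    simp only [sub_re, ofReal_re, m]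
    linarith
  · have t0 : 0 ≤ (p.1 : ℝ) * m p.2.1.2 := mul_nonneg p.1.2.1 (le_max_left _ _)
    have := (convex_ball (0 : ℂ) r).add_smul_mem (hx _ p.2.2.1).2 p.2.2.2
      (t := Real.exp (-(p.1 * m p.2.1.2))) ⟨(Real.exp_pos _).le, Real.exp_le_one_iff.2 (by linarith)⟩
    rwa [real_smul, ofReal_exp, ← exp_add, ofReal_neg, neg_add_eq_sub] at this

/-- charts with the pole -/
theorem cd_II (hn : n ≠ 0) (h2 : r ≤ A.R) (hW : IsOpen W) (hV : W ⊆ P.V) [ContractibleSpace W]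
    (hx : ∀ x ∈ W, InR A r j x) {ε : ℝ} (ε0 : 0 < ε) {θ η : C × ℂ → ℂ}
    (hE : ∀ x ∈ W, ∀ w ∈ ball (A.e j x) ε, Et P r j θ η (x, w))
    (ha : j = P.a → ε = P.δ ∧ ∀ p, θ p = 1 ∧ η p = 0) : Nonempty (Cd P r W j) := by
  haveI := lpc_of A
  obtain ⟨c1, c2⟩ := contr_N hx ε0 fun x a w b => (hE x a w b).mem
  have ce : ContinuousOn (A.e j) W := (A.e j).continuousOn.mono fun x a => (hx x a).1
  set O := {q : C × ℂ | q.1 ∈ W ∧ A.e j q.1 + exp q.2 ∈ ball 0 r}
  have hO : IsOpen O := ((ce.comp continuousOn_fst fun _ a => a).add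
    (by fun_prop)).isOpen_inter_preimage (hW.preimage continuous_fst) isOpen_ball
  haveI := hO.locallyPathConnectedSpace
  have cw : Continuous fun p : O => A.e j p.1.1 + exp p.1.2 :=
    (ce.comp_continuous (by fun_prop) fun p => p.2.1).add (by fun_prop)
  have b1 : ∀ p : O, A.e j p.1.1 + exp p.1.2 ∈ off A p.1.1 j := fun p =>
    (off_iff (hx _ p.2.1).1).2 ⟨ball_subset_ball h2 p.2.2, by simp⟩
  let ν : C(O, Wd P.V) := ⟨fun p => ⟨(p.1.1, (A.e j).symm (A.e j p.1.1 + exp p.1.2)), hV p.2.1,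
    (b1 p).2⟩, (Continuous.prodMk (by fun_prop) ((cont_symm j).comp_continuous cw
      fun p => (b1 p).1)).subtype_mk _⟩
  have E : ∀ q : Nd W ε, Et P r j θ η (q.1.1, A.e j q.1.1 + exp q.1.2) := fun q =>
    hE _ q.2.1 _ (add_mem_ball.2 ((exp_mem_ball ε0).2 q.2.2))
  let f : C(Nd W ε, O) := ⟨fun q => ⟨q.1, q.2.1, (E q).mem⟩, by fun_prop⟩
  have cp : Continuous fun q : Nd W ε => (q.1.1, A.e j q.1.1 + exp q.1.2) :=
    Continuous.prodMk (by fun_prop) (cw.comp f.continuous)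
  have e1 : ∀ q : Nd W ε, exp (q.1.2 + η (q.1.1, A.e j q.1.1 + exp q.1.2)) =
      A.tr j P.a (A.e j q.1.1 + exp q.1.2) - A.e P.a q.1.1 := fun q => by
    rw [← (E q).eq, exp_add, add_sub_cancel_left, mul_comm]
  let κ : C(Nd W ε, Nd P.V P.δ) := ⟨fun q => ⟨(q.1.1, q.1.2 + η (q.1.1, A.e j q.1.1 + exp q.1.2)),
    hV q.2.1, (exp_mem_ball P.hδ).1 (e1 q ▸ (E q).lt)⟩, (Continuous.prodMk (by fun_prop)
      (Continuous.add (by fun_prop) (continuous_iff_continuousAt.2 fun q =>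
        ContinuousAt.comp (g := η) (E q).cη cp.continuousAt))).subtype_mk _⟩
  have eκ : ∀ q, P.ν (κ q) = ν (f q) := fun q => Subtype.ext (by
    rw [P.ν_eq]
    exact Prod.ext rfl (by
      show (A.e P.a).symm (A.e P.a q.1.1 + exp (_ + _)) = _
      rw [e1, add_sub_cancel, symm_tr (E q).O]; rfl))
  obtain ⟨b, s, hb, hs, e, s0, b0⟩ := lift1 hn (P.cy.pull (P.cy.toOc.pre ν) fun _ _ a => a)
    (P.u_cont (x := fun p : O => p.1.1) (by fun_prop) cw fun p => ⟨hV p.2.1, b1 p⟩)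
    (fun p => P.un _ (hV p.2.1) j _ (b1 p)) f (b₀ := fun k q => P.b k (κ q))
    (by simpa only [← preimage_comp, Function.comp_def, eκ] using fs_comp P.fs κ)
    (s₀ := fun q => θ (q.1.1, A.e j q.1.1 + exp q.1.2) * P.s (κ q))
    ((continuous_iff_continuousAt.2 fun q => ContinuousAt.comp (g := θ) (E q).cθ cp.continuousAt).mul
      (P.sc.comp κ.continuous)) (fun q => by
      rw [mul_pow, (E q).pow, P.sp]
      refine Eq.trans ?_ (P.ul _ (hV q.2.1) j P.a _ (E q).O (b1 (f q)).2).symm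
      show _ * P.u q.1.1 _ (A.e P.a q.1.1 + exp (_ + _)) = _
      rw [e1, add_sub_cancel])
  have ex : ∀ L : ℂ, exp (L + 2 * π * I) = exp L := fun L => by
    rw [exp_add, exp_two_pi_mul_I, mul_one]
  let T : C(O, O) := ⟨fun p => ⟨(p.1.1, p.1.2 + 2 * π * I), p.2.1, by
    rw [ex]; exact p.2.2⟩, by fun_prop⟩
  have νT : ∀ p, ν (T p) = ν p := fun p => Subtype.ext (Prod.ext rfl (by
    show (A.e j).symm (_ + exp (_ + _)) = _
    rw [ex]; rfl))
  have κT : ∀ q, κ q.T = (κ q).T := fun q => Subtype.ext (Prod.ext rfl (by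
    show _ + _ + η (_, _ + exp (_ + _)) = _
    rw [ex, add_right_comm]; rfl))
  obtain ⟨q₀⟩ := (inferInstance : Nonempty (Nd W ε))
  obtain ⟨k₀, hk₀⟩ := P.cy.cov (ν (f q₀))
  have sT : ∀ p, s (T p) = zeta n d * s p := root_ext hn (hs.comp T.continuous)
    (continuous_const.mul hs) (fun p => by
      rw [mul_pow, zeta_pow hn, one_mul, e, e]
      show P.u _ _ (_ + exp (_ + _)) = _
      rw [ex]; rfl)
    (fun p => mul_ne_zero (zeta_ne n d) fun a => P.un _ (hV p.2.1) j _ (b1 p) (by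
      rw [← e, a, zero_pow hn])) (q₀ := f q₀) (by
      show s (f q₀.T) = _
      rw [s0, s0, κT, P.sT, mul_left_comm]
      show _ * (θ (_, _ + exp (_ + _)) * _) = _
      rw [ex]; rfl)
  have bT : ∀ k p, ν p ∈ P.U k → b k (T p) = b k p * cwd g := fun k p hk =>
    Fs.ext (s := fun k p => b k (T p))
      (by simpa only [← preimage_comp, Function.comp_def, νT] using fs_comp hb T) (fs_mul hb _)
      (P.cy.pull (P.cy.toOc.pre ν) fun _ _ a => a) hk₀ (by
        show b k₀ (f q₀.T) = _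
        rw [b0 _ _ (show ν (T (f q₀)) ∈ _ from (νT _).symm ▸ hk₀), b0 _ _ hk₀, κT,
          P.per _ _ ((eκ q₀).symm ▸ hk₀)]) hk
  let Λ : C × ℂ → ℂ := fun p => log (p.2 - A.e j p.1)
  have key : ∀ (p : O) k, ν p ∈ P.U k → ∀ w, w = A.e j p.1.1 + exp p.1.2 →
      Eqv n d (xs s 0 (p.1.1, Λ (p.1.1, w)), Λ (p.1.1, w), xs (b k) 1 (p.1.1, Λ (p.1.1, w)))
        (s p, p.1.2, b k p) := fun p k hk w hw => by
    have := eqv_of_exp (n := n) (d := d) (Q := fun L => exp L = exp p.1.2)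
      (f := fun L => xs s 0 (p.1.1, L)) (b := fun L => xs (b k) 1 (p.1.1, L))
      (fun _ _ a b => a.symm.trans b) (fun L hL => by
        have m1 : (p.1.1, L) ∈ O := ⟨p.2.1, hL ▸ p.2.2⟩
        have m3 : (p.1.1, L + 2 * π * I) ∈ O := (T ⟨_, m1⟩).2
        rw [xs_eq s 0 m1, xs_eq (b k) 1 m1, xs_eq s 0 m3, xs_eq (b k) 1 m3]
        have m4 : ν ⟨_, m1⟩ = ν p :=
          Subtype.ext (Prod.ext rfl (congrArg (fun v => (A.e j).symm (A.e j p.1.1 + v)) hL))
        exact ⟨sT ⟨_, m1⟩, bT k ⟨_, m1⟩ (mem_of_eq_of_mem m4 hk)⟩)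
      (L := Λ (p.1.1, w)) (L' := p.1.2) (by
        simp only [Λ, hw, add_sub_cancel_left, exp_log (exp_ne_zero _)]) rfl
    rwa [xs_eq s 0 p.2, xs_eq (b k) 1 p.2] at this
  have e2 : ∀ y : Wd P.V, y.1.1 ∈ W → InR A r j y.1.2 →
      A.e j y.1.1 + exp (Λ (y.1.1, A.e j y.1.2)) = A.e j y.1.2 := fun y a a' => by
    rw [exp_log (sub_ne_zero.2 fun c => y.2.2 ((A.e j).injOn a'.1 (hx _ a).1 c)), add_sub_cancel]
  have m2 : ∀ (y : Wd P.V), y.1.1 ∈ W → InR A r j y.1.2 → (y.1.1, Λ (y.1.1, A.e j y.1.2)) ∈ O :=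
    fun y a a' => ⟨a, (e2 y a a').symm ▸ a'.2⟩
  have hν : ∀ (y : Wd P.V) a a', ν ⟨_, m2 y a a'⟩ = y := fun y a a' =>
    Subtype.ext (Prod.ext rfl ((congrArg (A.e j).symm (e2 y a a')).trans ((A.e j).left_inv a'.1)))
  have kK : ∀ (q : Nd W ε) k p, ν (f q) ∈ P.U k → p = (q.1.1, A.e j q.1.1 + exp q.1.2) →
      Eqv n d (xs s 0 (p.1, Λ p), Λ p, xs (b k) 1 (p.1, Λ p))
        (θ p * P.s (κ q), (κ q).1.2 - η p, P.b k (κ q)) := fun q k p hk e => by
    have := key (f q) k hk _ rfl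
    rw [s0, b0 k q hk] at this
    rw [e, show (κ q).1.2 - η _ = q.1.2 from add_sub_cancel_right _ _]
    exact this
  refine ⟨⟨True, fun x a => (iff_true_intro (hx x a)).symm, fun p => xs s 0 (p.1, Λ p), Λ,
    fun k p => xs (b k) 1 (p.1, Λ p), fun p => (p.2 - A.e j p.1)⁻¹, θ, η, fun _ _ => rfl,
    fun h => (h trivial).elim, fun y a a' => ?_, fun y k m a a' hk hm => ?_,
    fun y k a a' hk => ?_, fun _ x a => ?_, fun e => ⟨(ha e).2, fun q k p a hk hp => ?_⟩⟩⟩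
  · simp only [xs_eq s 0 (m2 y a a'), e, e2 y a a']
  · rw [xs_eq (b k) 1 (m2 y a a'), xs_eq (b m) 1 (m2 y a a'), hb.tr k m _ (by rwa [mem_preimage, hν y a a']) (by rwa [mem_preimage, hν y a a']), hν y a a']
    rfl
  · set L := Λ (y.1.1, A.e j y.1.2)
    have ce' : ∀ᶠ p : C × ℂ in 𝓝 (y.1.1, A.e j y.1.2), ContinuousAt (fun p : C × ℂ =>
        p.2 - A.e j p.1) p := ((hW.preimage continuous_fst).eventually_mem
          (x := (y.1.1, A.e j y.1.2)) a).mono fun p h =>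
      continuousAt_snd.sub ((ce.continuousAt (hW.mem_nhds h)).comp continuousAt_fst)
    have e3 : A.e j y.1.2 - A.e j y.1.1 = exp L := sub_eq_of_eq_add' (e2 y a a').symm
    have sl := slit_near ce'.self_of_nhds (e3 ▸ exp_ne_zero L :)
    simp only [e3] at sl
    have cl : ∀ᶠ p : C × ℂ in 𝓝 (y.1.1, A.e j y.1.2), ContinuousAt (fun p : C × ℂ =>
        (p.1, br (A.e j p.1) L p.2)) p := (ce'.and sl).mono fun p h => continuousAt_fst.prodMk
      (continuousAt_const.add ((h.1.div_const _).clog h.2))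
    have l0 : br (A.e j y.1.1) L (A.e j y.1.2) = L := by rw [← e2 y a a']; exact br_self _ _
    have t := cl.self_of_nhds.tendsto
    simp only [l0] at t
    refine ⟨fun p => xs s 0 (p.1, br (A.e j p.1) L p.2), fun p => br (A.e j p.1) L p.2,
      b k ⟨_, m2 y a a'⟩, ?_⟩
    filter_upwards [cl, sl, t.eventually (ev_sub hO ((hb.lc k ⟨_, m2 y a a'⟩ (by
      rwa [mem_preimage, hν y a a'])).and (ν.continuous.continuousAt.eventually
        ((P.cy.opn k).eventually_mem ((hν y a a').symm ▸ hk)))))] with p c1 c2 ⟨h, c3, c4⟩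
    have c5 : p.2 - A.e j p.1 ≠ 0 := fun c => slitPlane_ne_zero c2 (by rw [c, zero_div])
    refine ⟨ContinuousAt.comp (g := xs s 0) (xs_cont hO hs 0 h) c1, c1.snd, ?_, ?_⟩
    · refine ((((hasDerivAt_id p.2).sub_const _).div_const (exp L)).clog c2).const_add L
        |>.congr_deriv ?_
      simp only [id]
      field_simp
    · have := key ⟨_, h⟩ k c4 p.2 (by rw [exp_br (sub_ne_zero.1 c5), add_sub_cancel])
      rwa [c3, ← xs_eq s 0 h] at this
  · have c0 : ContinuousAt (fun p : C × ℂ => p.2 - A.e j p.1) (x, A.e j x) :=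
      continuousAt_snd.sub ((ce.continuousAt (hW.mem_nhds a)).comp continuousAt_fst)
    filter_upwards [continuousAt_fst.eventually (hW.eventually_mem a),
      c0.eventually (isOpen_ball.eventually_mem (by simpa using ε0 : _ ∈ ball (0 : ℂ) ε))]
      with p h h'
    have E' := hE p.1 h p.2 (mem_ball_iff_norm.2 (mem_ball_zero_iff.1 h'))
    refine ⟨E'.cθ, E'.cη, E'.aθ, E'.aη, E'.pow, fun y k hy hk => ?_⟩
    have c5 : p.2 - A.e j p.1 ≠ 0 := sub_ne_zero.2 fun c => y.2.2 (by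
      rw [hy, c]; exact (A.e j).left_inv (hx _ h).1)
    have c6 : A.e j p.1 + exp (Λ p) = p.2 := by rw [exp_log c5, add_sub_cancel]
    let q : Nd W ε := ⟨(p.1, Λ p), h, (exp_mem_ball ε0).1 ((exp_log c5).symm ▸ h')⟩
    have c7 : ν (f q) = y := Subtype.ext (hy ▸ Prod.ext rfl (congrArg (A.e j).symm c6))
    exact ⟨κ q, (eκ q).trans c7, kK q k p (c7 ▸ hk) (Prod.ext rfl c6.symm)⟩
  · obtain ⟨rfl, h⟩ := ha e
    subst e
    let q' : Nd W P.δ := ⟨q.1, a, q.2.2⟩
    have c7 : κ q' = q := Subtype.ext (Prod.ext rfl (by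
      show _ + η _ = _
      rw [(h _).2, add_zero]))
    have := kK q' k p (by rwa [← eκ, c7]) hp
    rwa [c7, (h _).1, (h _).2, one_mul, sub_zero] at this

theorem exists_et (hn : n ≠ 0) (hl : A.Cc l) {x₀ : C} (hV : x₀ ∈ P.V) (hx : InR A r j x₀) :
    ∃ θ η : C × ℂ → ℂ, ∀ᶠ p in 𝓝 (x₀, A.e j x₀), Et P r j θ η p := by
  have ha := (P.sub x₀ hV).1
  have hO : A.e j x₀ ∈ A.O j P.a := mem_O hx.1 ha
  obtain ⟨s₀, hs⟩ := IsAlgClosed.exists_pow_nat_eq (l j P.a (A.e j x₀)) (Nat.pos_of_ne_zero hn)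
  let Q : C × ℂ → ℂ := fun p => dslope (A.tr j P.a) (A.e j p.1) p.2
  have Q0 : Q (x₀, A.e j x₀) ≠ 0 := by simp only [Q, dslope_same]; exact d_ne hO
  have c1 : ∀ᶠ p : C × ℂ in 𝓝 (x₀, A.e j x₀), p.1 ∈ (A.e j).source ∧ p.1 ∈ (A.e P.a).source :=
    continuousAt_fst.eventually (p := fun x => x ∈ (A.e j).source ∧ x ∈ (A.e P.a).source)
      (((A.e j).open_source.eventually_mem hx.1).and ((A.e P.a).open_source.eventually_mem ha))
  have c2 : ∀ᶠ p : C × ℂ in 𝓝 (x₀, A.e j x₀), p.2 ∈ A.O j P.a :=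
    continuousAt_snd.eventually (O_nhds hO)
  have c3 : ∀ᶠ p in 𝓝 (x₀, A.e j x₀), ContinuousAt Q p := (c1.and c2).mono fun p h =>
    (dslope_cont (O_open j P.a) (A.hol j P.a) (p := (A.e j p.1, p.2)) (mem_O h.1.1 h.1.2) h.2).comp
      (f := fun p : C × ℂ => (A.e j p.1, p.2))
      ((((A.e j).continuousAt h.1.1).comp continuousAt_fst).prodMk continuousAt_snd)
  have c4 : ContinuousAt (fun p : C × ℂ => l j P.a p.2) (x₀, A.e j x₀) :=
    (hl.an hO).continuousAt.comp (f := Prod.snd) continuousAt_snd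
  have c5 : ContinuousAt (fun p : C × ℂ => A.tr j P.a p.2 - A.e P.a p.1) (x₀, A.e j x₀) :=
    ContinuousAt.sub (f := fun p : C × ℂ => A.tr j P.a p.2) (g := fun p : C × ℂ => A.e P.a p.1)
      (ContinuousAt.comp (g := A.tr j P.a) (an_tr hO).continuousAt continuousAt_snd)
      (((A.e P.a).continuousAt ha).comp (f := Prod.fst) continuousAt_fst)
  refine ⟨fun p => rt n s₀ (l j P.a (A.e j x₀)) (l j P.a p.2),
    fun p => log (Q (x₀, A.e j x₀)) + log (Q p / Q (x₀, A.e j x₀)), ?_⟩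
  filter_upwards [c1, c2, c3, slit_near c3.self_of_nhds Q0, slit_near c4 (hl.ne hO),
    continuousAt_snd.eventually (isOpen_ball.eventually_mem hx.2), c5.eventually
      (isOpen_ball.eventually_mem (by simpa [tr_e hx.1] using P.hδ : _ ∈ ball (0 : ℂ) P.δ))]
    with p a1 a2 a3 a4 a5 a6 a7
  have b1 := (rt_an (n := n) s₀ a5).comp (hl.an a2)
  have b2 : Q p ≠ 0 := fun c => slitPlane_ne_zero a4 (by rw [c, zero_div])
  refine ⟨a6, a2, b1.continuousAt.comp continuousAt_snd,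
    continuousAt_const.add ((a3.div_const _).clog a4), b1, analyticAt_const.add
      (((((differentiableOn_dslope (O_nhds (mem_O a1.1 a1.2))).2 (A.hol j P.a)).analyticAt
        (O_nhds a2)).div_const).clog a4), rt_pow hn hs (hl.ne hO) (hl.ne a2), ?_, a7⟩
  rw [exp_add, exp_log Q0, exp_log (div_ne_zero b2 Q0), mul_div_cancel₀ _ Q0, mul_comm,
    ← smul_eq_mul, sub_smul_dslope, tr_e a1.1]

theorem exists_et' (hn : n ≠ 0) (hl : A.Cc l) (h1 : 1 < r) {x₀ : C} (hV : x₀ ∈ P.V)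
    (hx : InR A r j x₀) : ∃ (ε : ℝ) (θ η : C × ℂ → ℂ), 0 < ε ∧
      (j = P.a → ε = P.δ ∧ ∀ p, θ p = 1 ∧ η p = 0) ∧
      ∀ᶠ x in 𝓝 x₀, ∀ w ∈ ball (A.e j x) ε, Et P r j θ η (x, w) := by
  by_cases e : j = P.a
  · subst e
    refine ⟨P.δ, fun _ => 1, fun _ => 0, P.hδ, fun _ => ⟨rfl, fun _ => ⟨rfl, rfl⟩⟩, ?_⟩
    filter_upwards [P.opn.eventually_mem hV] with x a w b
    have c := P.ball_res a A.hR b
    exact ⟨P.ball_res a h1 b, O_self c, continuousAt_const, continuousAt_const, analyticAt_const,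
      analyticAt_const, by rw [one_pow, hl.one _ _ c], by rw [exp_zero, one_mul, tr_self c], by
        rw [tr_self c]; exact mem_ball_zero_iff.2 (mem_ball_iff_norm.1 b)⟩
  · obtain ⟨θ, η, h⟩ := exists_et P hn hl hV hx
    have c : ContinuousAt (fun p : C × ℂ => (p.1, A.e j p.1 + p.2)) (x₀, 0) :=
      continuousAt_fst.prodMk ((((A.e j).continuousAt hx.1).comp continuousAt_fst).add
        continuousAt_snd)
    have t := c.tendsto
    simp only [add_zero] at t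
    have t' := t.eventually h
    rw [nhds_prod_eq] at t'
    obtain ⟨p, a, q, b, k⟩ := eventually_prod_iff.1 t'
    obtain ⟨ε, ε0, hε⟩ := Metric.eventually_nhds_iff_ball.1 b
    refine ⟨ε, θ, η, ε0, fun c => absurd c e, a.mono fun x a w b => ?_⟩
    simpa using k a (hε (w - A.e j x) (mem_ball_zero_iff.2 (mem_ball_iff_norm.1 b)))

/-- **chart data exist** -/
theorem cdx (hS : Std A l n d) : CDX P := fun x₀ hV => by
  haveI := hS.t2
  have hn : n ≠ 0 := by have := hS.two; omega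
  obtain ⟨r, ⟨h1, h2⟩, hr⟩ := ((Ioo_infinite A.hR).diff
    (finite_range fun j => ‖A.e j x₀‖)).nonempty
  have h : ∀ j, ∃ Q : C → Prop, (∀ᶠ x in 𝓝 x₀, Q x) ∧ ∀ W : Set C, IsOpen W → W ⊆ P.V →
      ContractibleSpace W → (∀ x ∈ W, Q x) → Nonempty (Cd P r W j) := fun j => by
    by_cases hx : InR A r j x₀
    · obtain ⟨ε, θ, η, a, b, c⟩ := exists_et' P hn hS.cc h1 hV hx
      exact ⟨_, ((inR_open A r j).eventually_mem hx).and c, fun W p q _ s =>
        cd_II P hn h2.le p q (fun x k => (s x k).1) a (fun x k => (s x k).2) b⟩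
    · refine ⟨fun x => ¬InR A r j x, ?_, fun W p q _ s => cd_I P hn h1 h2.le p q s⟩
      have s := closedBall_subset_ball (x := (0 : ℂ)) h2
      refine (((isCompact_closedBall 0 r).image_of_continuousOn
        ((cont_symm j).mono s)).isClosed.isOpen_compl.eventually_mem fun ⟨w, a, b⟩ => hx ?_).mono
        fun x a b => a ⟨_, ball_subset_closedBall b.2, (A.e j).left_inv b.1⟩
      have e : A.e j x₀ = w := b ▸ rinv (s a)
      exact ⟨b ▸ map_tgt (s a), mem_ball_zero_iff.2 ((e ▸ mem_closedBall_zero_iff.1 a :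
        ‖A.e j x₀‖ ≤ r).lt_of_ne fun c => hr ⟨j, c⟩)⟩
  choose Q hQ hW using h
  have ha := (P.sub x₀ hV).1
  have t := (contAt_symm (i := P.a) (map_src ha)).tendsto
  rw [(A.e P.a).left_inv ha] at t
  obtain ⟨ε, ε0, hε⟩ := Metric.eventually_nhds_iff_ball.1 ((t.eventually
    ((eventually_all.2 hQ).and (P.opn.eventually_mem hV))).and
      (isOpen_ball.eventually_mem (map_src ha)))
  have s : ball (A.e P.a x₀) ε ⊆ (A.e P.a).symm.source := fun w a => mem_tgt.2 (hε w a).2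
  have o := (A.e P.a).symm.isOpen_image_of_subset_source isOpen_ball s
  have v : (A.e P.a).symm '' ball (A.e P.a x₀) ε ⊆ P.V := fun _ ⟨w, a, b⟩ => b ▸ (hε w a).1.2
  haveI := (convex_ball (A.e P.a x₀) ε).contractibleSpace (nonempty_ball.2 ε0)
  exact ⟨r, _, h1, h2.le, o, ⟨_, mem_ball_self ε0, (A.e P.a).left_inv ha⟩, v, fun j => hW j _ o v
    ((A.e P.a).symm.homeomorphOfImageSubsetSource s rfl).symm.contractibleSpace
    fun _ ⟨w, a, b⟩ => b ▸ (hε w a).1.1 j⟩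

end Vale.Agent.P275RL
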