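import Vale.Agent.P275RL.Sol
import Mathlib.Analysis.SpecialFunctions.Exponential
import Mathlib.Analysis.SpecialFunctions.Complex.Log
import Mathlib.LinearAlgebra.Eigenspace.Triangularizable
import Mathlib.Analysis.Complex.Polynomial.Basic
import Mathlib.Analysis.Complex.Convex

/-!
# P275, local Riemann-Hilbert: exponentials, periodic solutions of `φ' = X φ`
-/

set_option linter.all false

open scoped Topology Real
open Filter Set Metric Complex

noncomputable section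

namespace Vale.Agent.P275RL

section alg

variable {𝔸 : Type} [NormedRing 𝔸] [NormedAlgebra ℂ 𝔸] [CompleteSpace 𝔸]

/-- `exp (w R)` -/
def ex (R : 𝔸) (w : ℂ) : 𝔸 := NormedSpace.exp (w • R)

theorem ex_der (R : 𝔸) (w : ℂ) : HasDerivAt (ex R) (R * ex R w) w :=
  hasDerivAt_exp_smul_const' R w

theorem ex_der' (R : 𝔸) (w : ℂ) : HasDerivAt (ex R) (ex R w * R) w :=
  hasDerivAt_exp_smul_const R w

theorem ex_comm (R : 𝔸) (w : ℂ) : ex R w * R = R * ex R w := (ex_der' R w).unique (ex_der R w)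

@[simp] theorem ex_zero (R : 𝔸) : ex R 0 = 1 := by simp [ex]

theorem ex_add (R : 𝔸) (a b : ℂ) : ex R (a + b) = ex R a * ex R b := by
  letI : NormedAlgebra ℚ 𝔸 := NormedAlgebra.restrictScalars ℚ ℂ 𝔸
  rw [ex, add_smul]
  exact NormedSpace.exp_add_of_commute (((Commute.refl R).smul_left a).smul_right b)

theorem ex_neg_mul (R : 𝔸) (w : ℂ) : ex R (-w) * ex R w = 1 := by simp [← ex_add]

theorem ex_mul_neg (R : 𝔸) (w : ℂ) : ex R w * ex R (-w) = 1 := by simp [← ex_add]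

theorem ex_unit (R : 𝔸) (w : ℂ) : IsUnit (ex R w) :=
  ⟨⟨ex R w, ex R (-w), ex_mul_neg R w, ex_neg_mul R w⟩, rfl⟩

theorem ex_semi {R S X : 𝔸} (h : R * X = X * S) (w : ℂ) : ex R w * X = X * ex S w := by
  letI : NormedAlgebra ℚ 𝔸 := NormedAlgebra.restrictScalars ℚ ℂ 𝔸
  have : SemiconjBy X (w • S) (w • R) := by
    simp only [SemiconjBy, mul_smul_comm, smul_mul_assoc, h]
  exact this.exp_right.eq.symm

theorem ex_an {P : Type} [NormedAddCommGroup P] [NormedSpace ℂ P] {R : P → 𝔸} {w : P → ℂ} {p : P}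
    (hR : AnalyticAt ℂ R p) (hw : AnalyticAt ℂ w p) : AnalyticAt ℂ (fun q => ex (R q) (w q)) p :=
  (NormedSpace.exp_analytic (𝕂 := ℂ) _).comp (hw.smul hR)

theorem ex_cont : Continuous fun q : 𝔸 × ℂ => ex q.1 q.2 :=
  continuous_iff_continuousAt.2 fun q => (ex_an analyticAt_fst analyticAt_snd).continuousAt

theorem ex_neg_der (R : 𝔸) (w : ℂ) : HasDerivAt (fun w => ex R (-w)) (-(ex R (-w) * R)) w := by
  simpa [Function.comp_def] using (ex_der' R (-w)).scomp w (hasDerivAt_neg w)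

end alg

variable {E : Type} [NormedAddCommGroup E] [NormedSpace ℂ E] [CompleteSpace E]

/-- solutions of `φ' = X φ` -/
theorem ode_eq {X : E →L[ℂ] E} {U : Set ℂ} (hU : IsOpen U) (hc : IsPreconnected U) {φ : ℂ → E}
    (h : ∀ w ∈ U, HasDerivAt φ (X (φ w)) w) {a b : ℂ} (ha : a ∈ U) (hb : b ∈ U) :
    φ b = ex X (b - a) (φ a) := by
  have hd : ∀ w ∈ U, HasDerivAt (fun w => ex X (-w) (φ w)) 0 w := fun w hw => by
    simpa using (ex_neg_der X w).clm_apply (h w hw)
  have := hU.is_const_of_deriv_eq_zero hc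
    (fun w hw => (hd w hw).differentiableAt.differentiableWithinAt) (fun w hw => (hd w hw).deriv)
    hb ha
  have h2 := congrArg (ex X b : E →L[ℂ] E) this
  rw [← ContinuousLinearMap.mul_apply, ← ContinuousLinearMap.mul_apply, ex_mul_neg, ← ex_add] at h2
  simpa [sub_eq_add_neg] using h2

theorem ode_eq' {X : E →L[ℂ] E} {φ : ℂ → E} (h : ∀ w, HasDerivAt φ (X (φ w)) w) (b : ℂ) :
    φ b = ex X b (φ 0) := by
  simpa using ode_eq isOpen_univ isPreconnected_univ (fun w _ => h w) (mem_univ 0) (mem_univ b)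

theorem two_pi_I_ne : (2 * π * I : ℂ) ≠ 0 := two_pi_I_ne_zero

/-- without nonzero integral eigenvalues, a fixed vector of `exp (2 π i X)` is killed by `X` -/
theorem fix_ker [FiniteDimensional ℂ E] {X : E →L[ℂ] E}
    (hX : ∀ k : ℤ, k ≠ 0 → ∀ y, X y = (k : ℂ) • y → y = 0) {y : E}
    (h : ex X (2 * π * I) y = y) : X y = 0 := by
  let V : Submodule ℂ E := LinearMap.eqLocus ((ex X (2 * π * I) : E →L[ℂ] E) : E →ₗ[ℂ] E) LinearMap.id
  have hV : ∀ {y}, y ∈ V ↔ ex X (2 * π * I) y = y := Iff.rfl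
  have h1 : ∀ y ∈ V, X y ∈ V := fun y hy => by
    rw [hV, ← ContinuousLinearMap.mul_apply, ex_comm, ContinuousLinearMap.mul_apply, hV.1 hy]
  have h2 : ∀ y ∈ V, X (X y) = 0 → X y = 0 := fun y hy h0 => by
    have := ode_eq' (X := X) (φ := fun w => y + w • X y) (fun w => by
      simpa [h0] using ((hasDerivAt_id w).smul_const (X y)).const_add y) (2 * π * I)
    simp only [zero_smul, add_zero, hV.1 hy, add_eq_left] at this
    exact (smul_eq_zero.1 this).resolve_left two_pi_I_ne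
  by_contra hne
  let W : Submodule ℂ E := V.map (X : E →ₗ[ℂ] E)
  have h3 : ∀ v ∈ W, (X : E →ₗ[ℂ] E) v ∈ W := by
    rintro _ ⟨v, hv, rfl⟩
    exact ⟨_, h1 v hv, rfl⟩
  haveI : Nontrivial W := ⟨⟨X y, y, h, rfl⟩, 0, fun e => hne (congrArg Subtype.val e)⟩
  obtain ⟨μ, hμ⟩ := Module.End.exists_eigenvalue ((X : E →ₗ[ℂ] E).restrict h3)
  obtain ⟨⟨v, u, hu, rfl⟩, hv⟩ := hμ.exists_hasEigenvector
  have h4 : X (X u) = μ • X u := congrArg Subtype.val hv.apply_eq_smul
  have h5 : X u ≠ 0 := fun e => hv.2 (Subtype.ext e)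
  have h6 := ode_eq' (X := X) (φ := fun w => exp (μ * w) • X u) (fun w => by
    have := (((hasDerivAt_id w).const_mul μ).cexp).smul_const (X u)
    simpa [h4, smul_smul] using this) (2 * π * I)
  simp only [mul_zero, exp_zero, one_smul, hV.1 (h1 u hu)] at h6
  have h7 : exp (μ * (2 * π * I)) = 1 :=
    smul_left_injective ℂ h5 (by simpa using h6)
  obtain ⟨k, hk⟩ := exp_eq_one_iff.1 h7
  have h8 : μ = k := mul_right_cancel₀ two_pi_I_ne hk
  by_cases hk0 : k = 0
  · exact h5 (h2 u hu (by simp [h4, h8, hk0]))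
  · exact h5 (hX k hk0 _ (by rw [h4, h8]))

theorem exp_mem_ball {r : ℝ} (hr : 0 < r) {w : ℂ} :
    exp w ∈ ball (0 : ℂ) r ↔ w.re < Real.log r := by
  rw [mem_ball_zero_iff, norm_exp, Real.lt_log_iff_exp_lt hr]

/-- single valued solutions of `z u' + L u = 0` on the punctured disc are constant -/
theorem const_of [FiniteDimensional ℂ E] {L : E →L[ℂ] E}
    (hL : ∀ k : ℤ, k ≠ 0 → ∀ y, (k : ℂ) • y + L y = 0 → y = 0) {r : ℝ} (hr : 0 < r) {u : ℂ → E}
    (hu : ∀ z ∈ ball (0 : ℂ) r, z ≠ 0 → DifferentiableAt ℂ u z ∧ z • deriv u z + L (u z) = 0) :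
    ∃ y, L y = 0 ∧ ∀ z ∈ ball (0 : ℂ) r, z ≠ 0 → u z = y := by
  have hU : IsOpen {w : ℂ | w.re < Real.log r} := isOpen_lt continuous_re continuous_const
  have hc : IsPreconnected {w : ℂ | w.re < Real.log r} := (convex_halfSpace_re_lt _).isPreconnected
  have hd : ∀ w ∈ {w : ℂ | w.re < Real.log r},
      HasDerivAt (fun w => u (exp w)) ((-L) (u (exp w))) w := fun w hw => by
    obtain ⟨h1, h2⟩ := hu _ ((exp_mem_ball hr).2 hw) (exp_ne_zero w)
    refine HasDerivAt.congr_deriv (h1.hasDerivAt.scomp w (Complex.hasDerivAt_exp w)) ?_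
    simpa [eq_neg_iff_add_eq_zero] using h2
  let a : ℂ := ((Real.log r - 1 : ℝ) : ℂ)
  have ha : a ∈ {w : ℂ | w.re < Real.log r} := by simp [a]
  have h1 := ode_eq hU hc hd ha (b := a + 2 * π * I) (by simp [a])
  simp only [add_sub_cancel_left, exp_periodic a] at h1
  have h2 := fix_ker (fun k hk y hy => hL k hk y (by rw [← hy]; simp)) h1.symm
  refine ⟨u (exp a), by simpa using h2, fun z hz h0 => ?_⟩
  have h3 := ode_eq hU hc hd ha (b := log z) ((exp_mem_ball hr).1 (by rwa [exp_log h0]))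
  rw [exp_log h0] at h3
  rw [h3]
  exact (ode_eq' (X := -L) (φ := fun _ => u (exp a))
    (fun w => by simpa only [h2] using hasDerivAt_const w (u (exp a))) _).symm

end Vale.Agent.P275RL
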