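import Vale.Agent.P275RL.Cx
import Vale.Agent.P275RA.Rhf
import Vale.Agent.P275RF.Cont
import Vale.Agent.P275RI.Mov
import Vale.Agent.P275KG.Fin
import Vale.Agent.P275RH.Fin
import Vale.Agent.P275RJ.Stb
import Vale.Agent.P275RJ.Inj
import Vale.Agent.P275NB.Monr
import Vale.Agent.P275NB.Flt
import Vale.Agent.P275GU.Glue

/-!
# P275, Riemann-Hilbert in families: the closed blocks
-/

set_option linter.all false

open Vale.Agent.P275MO Vale.Agent.P275Z

namespace Vale.Agent.P275RL

theorem rhf_of (kur : ∀ (S : Sit) (T : S.Atl), KUR S.n T.A T.l) (top : TOPF)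
    (mv : ∀ (S : Sit) (T : S.Atl) (P : Loc T.A T.l S.g S.n (P275ST.deg S.D)), EXR P → MOV P) :
    RHF :=
  P275RA.rhf kur top (fun S T P => ⟨P275RF.exr T.std P, P275RI.act P, P275RI.iso T.std P,
    P275RI.offr T.std P, P275RI.trn T.std P, P275RF.cont T.std P, P275RJ.inj T.std P,
    P275RJ.stb T.std P, inv_of P (cdx P T.std) (P275GU.glue T.std P), mv S T P (P275RF.exr T.std P),
    P275NB.flt P T.std⟩) P275NB.monr

theorem rhf_top (top : TOPF) : RHF :=
  rhf_of (fun _ T => P275KG.kur_ok T.std) top fun _ T P => P275RI.mov T.std P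

/-- **Riemann-Hilbert in families** -/
theorem rhf_ok : RHF := rhf_top P275RH.topf

end Vale.Agent.P275RL
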