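import Vale.Agent.P275RL.Gau

/-!
# P275, local Riemann-Hilbert: the gauge, families, extension of horizontal maps, flat frames
-/

set_option linter.all false

open scoped Topology Real
open Filter Set Metric Complex

noncomputable section

namespace Vale.Agent.P275RL

variable {𝔸 : Type} [NormedRing 𝔸] [NormedAlgebra ℂ 𝔸]

/-- `g` is the gauge from the constant `A c` to `A`, and `h` is its inverse:
`(z - c) g' + A g = g A(c)`, `g c = 1` -/
structure Gau (c : ℂ) (r : ℝ) (A g h : ℂ → 𝔸) : Prop where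
  hg : Hz c r A (fun _ => A c) g
  hh : Hz c r (fun _ => A c) A h
  g1 : g c = 1
  h1 : h c = 1
  gh : ∀ z ∈ ball c r, g z * h z = 1
  hg' : ∀ z ∈ ball c r, h z * g z = 1

theorem Gau.mono {c : ℂ} {r r' : ℝ} {A g h : ℂ → 𝔸} (G : Gau c r A g h) (hr : r' ≤ r) :
    Gau c r' A g h :=
  ⟨G.hg.mono hr, G.hh.mono hr, G.g1, G.h1, fun z hz => G.gh z (ball_subset_ball hr hz),
    fun z hz => G.hg' z (ball_subset_ball hr hz)⟩

theorem Gau.unit {c : ℂ} {r : ℝ} {A g h : ℂ → 𝔸} (G : Gau c r A g h) {z : ℂ} (hz : z ∈ ball c r) :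
    IsUnit (g z) := ⟨⟨g z, h z, G.gh z hz, G.hg' z hz⟩, rfl⟩

variable [FiniteDimensional ℂ 𝔸] [CompleteSpace 𝔸]

/-- **GAUGE**, existence -/
theorem gau_ex {c : ℂ} {r : ℝ} {A : ℂ → 𝔸} (hA : DifferentiableOn ℂ A (ball c r))
    (hN : NR (A c) (A c)) : ∃ g h, Gau c r A g h := by
  have hc : DifferentiableOn ℂ (fun _ : ℂ => A c) (ball c r) := differentiableOn_const _
  obtain ⟨g, hg, g1⟩ := hz_ex hA hc hN (X := 1) (by simp)
  obtain ⟨h, hh, h1⟩ := hz_ex hc hA hN (X := 1) (by simp)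
  exact ⟨g, h, hg, hh, g1, h1,
    Hz.uniq hA hA hN (hg.mul hh) (Hz.const (X := 1) (by simp)) (by simp [g1, h1]),
    Hz.uniq hc hc hN (hh.mul hg) (Hz.const (X := 1) (by simp)) (by simp [g1, h1])⟩

omit [FiniteDimensional ℂ 𝔸] in
/-- **GAUGE**, uniqueness -/
theorem Gau.uniq {c : ℂ} {r : ℝ} {A g h g' h' : ℂ → 𝔸} (G : Gau c r A g h) (G' : Gau c r A g' h')
    (hA : DifferentiableOn ℂ A (ball c r)) (hN : NR (A c) (A c)) :
    ∀ z ∈ ball c r, g z = g' z ∧ h z = h' z := fun z hz =>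
  ⟨Hz.uniq hA (differentiableOn_const _) hN G.hg G'.hg (by rw [G.g1, G'.g1]) z hz,
    Hz.uniq (differentiableOn_const _) hA hN G.hh G'.hh (by rw [G.h1, G'.h1]) z hz⟩

theorem unif_near {T F : Type} [TopologicalSpace T] [NormedAddCommGroup F] {V : Set T} {t : T}
    (ht : t ∈ V) {r ρ : ℝ} (hρ : ρ < r) {A : T → ℂ → F}
    (hA : ContinuousOn (fun p : T × ℂ => A p.1 p.2) (V ×ˢ ball 0 r)) {δ : ℝ} (hδ : 0 < δ) :
    ∀ᶠ s in 𝓝[V] t, ∀ z ∈ ball (0 : ℂ) ρ, ‖A s z - A t z‖ ≤ δ := by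
  obtain ⟨v, hv, h⟩ := (isCompact_closedBall (0 : ℂ) ρ).mem_uniformity_of_prod (f := A) (s := V)
    (hA.mono (prod_mono_right (closedBall_subset_ball hρ))) ht (dist_mem_uniformity hδ)
  filter_upwards [hv] with s hs z hz
  rw [← dist_eq_norm]
  exact (h s hs z (ball_subset_closedBall hz)).le

/-- continuous families of solutions, in the coordinate `z - c` -/
theorem hz_fam {T : Type} [TopologicalSpace T] {V : Set T} {c : T → ℂ} {r : ℝ}
    {A B f : T → ℂ → 𝔸} (hA : ∀ t ∈ V, DifferentiableOn ℂ (A t) (ball (c t) r))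
    (hB : ∀ t ∈ V, DifferentiableOn ℂ (B t) (ball (c t) r))
    (hf : ∀ t ∈ V, Hz (c t) r (A t) (B t) (f t)) (hN : ∀ t ∈ V, NR (A t (c t)) (B t (c t)))
    (cA : ContinuousOn (fun p : T × ℂ => A p.1 (c p.1 + p.2)) (V ×ˢ ball 0 r))
    (cB : ContinuousOn (fun p : T × ℂ => B p.1 (c p.1 + p.2)) (V ×ˢ ball 0 r))
    (c0 : ContinuousOn (fun t => f t (c t)) V) :
    ContinuousOn (fun p : T × ℂ => f p.1 (c p.1 + p.2)) (V ×ˢ ball 0 r) := by
  rintro ⟨t, z⟩ ⟨ht, hz⟩
  obtain ⟨ρ, h1, h2⟩ := exists_between (mem_ball_zero_iff.1 hz)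
  have hρ : 0 < ρ := (norm_nonneg _).trans_lt h1
  obtain ⟨b, hb, hNb⟩ := (hN t ht).bd
  obtain ⟨MA, -, hMA⟩ := bd_ball (diff_sh (hA t ht)).continuousOn h2
  obtain ⟨MB, -, hMB⟩ := bd_ball (diff_sh (hB t ht)).continuousOn h2
  obtain ⟨N, hN0, hNf⟩ := bd_ball (diff_sh (hf t ht).hol).continuousOn h2
  obtain ⟨K, hK0, hK⟩ := hz_lip (𝔸 := 𝔸) (max MA MB + 1) (2 * b) (by positivity)
  have key : ∀ ε > 0, ∀ᶠ s in 𝓝[V] t, ∀ w ∈ ball (0 : ℂ) ρ,
      ‖f s (c s + w) - f t (c t + w)‖ ≤ ε := by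
    intro ε hε
    obtain ⟨δ, hδ, d1, d2, d3⟩ : ∃ δ : ℝ, 0 < δ ∧ δ ≤ 1 ∧ 4 * b * δ ≤ 1 ∧ K * (δ + δ * N) ≤ ε := by
      have : ∀ᶠ δ : ℝ in 𝓝 0, δ < 1 ∧ 4 * b * δ < 1 ∧ K * (δ + δ * N) < ε := by
        refine (Continuous.continuousAt (by fun_prop)).eventually_lt continuousAt_const
          (by simp) |>.and (((Continuous.continuousAt (by fun_prop)).eventually_lt
          continuousAt_const (by simp)).and ((Continuous.continuousAt (by fun_prop)).eventually_lt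
          continuousAt_const (by simpa using hε)))
      obtain ⟨δ, h, h0⟩ := ((this.filter_mono (nhdsWithin_le_nhds (s := Ioi 0))).and
        self_mem_nhdsWithin).exists
      exact ⟨δ, h0, h.1.le, h.2.1.le, h.2.2.le⟩
    have e0 : ∀ᶠ s in 𝓝[V] t, ‖f s (c s) - f t (c t)‖ ≤ δ := by
      filter_upwards [Metric.tendsto_nhds.1 (c0 t ht) δ hδ] with s hs
      rw [← dist_eq_norm]; exact hs.le
    filter_upwards [unif_near (A := fun s w => A s (c s + w)) ht h2 cA hδ,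
      unif_near (A := fun s w => B s (c s + w)) ht h2 cB hδ, e0, self_mem_nhdsWithin]
      with s a1 a2 a3 hs w hw
    have m := fun s => ball_subset_ball (x := c s) h2.le
    refine (hK (c t) (c s) ρ δ δ N _ _ _ _ _ _ ((hA t ht).mono (m t)) ((hB t ht).mono (m t))
      ((hA s hs).mono (m s)) ((hB s hs).mono (m s)) ((hf t ht).mono h2.le) ((hf s hs).mono h2.le)
      (hNb.near hb.le (by simpa using a1 0 (mem_ball_self hρ))
        (by simpa using a2 0 (mem_ball_self hρ)) d2) a3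
      (fun y hy => ⟨?_, ?_, hNf y hy, a1 y hy, a2 y hy⟩) w hw).trans d3
    · linarith [norm_le_norm_add_norm_sub' (A s (c s + y)) (A t (c t + y)), a1 y hy, hMA y hy,
        le_max_left MA MB]
    · linarith [norm_le_norm_add_norm_sub' (B s (c s + y)) (B t (c t + y)), a2 y hy, hMB y hy,
        le_max_right MA MB]
  refine Metric.tendsto_nhds.2 fun ε hε => ?_
  have hc : ContinuousAt (fun w => f t (c t + w)) z :=
    (diff_sh (hf t ht).hol).continuousOn.continuousAt (isOpen_ball.mem_nhds hz)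
  rw [nhdsWithin_prod_eq]
  filter_upwards [(key (ε / 2) (by positivity)).prod_mk
    (((Metric.tendsto_nhds.1 hc (ε / 2) (by positivity)).and
      (isOpen_ball.mem_nhds (mem_ball_zero_iff.2 h1))).filter_mono nhdsWithin_le_nhds)] with p hp
  have := hp.1 p.2 hp.2.2
  rw [← dist_eq_norm] at this
  linarith [dist_triangle (f p.1 (c p.1 + p.2)) (f t (c t + p.2)) (f t (c t + z)), hp.2.1]

/-- from the coordinate `z - c` to the coordinate `z` and back -/
theorem cont_sh {T F : Type} [TopologicalSpace T] [TopologicalSpace F] {V : Set T} {c : T → ℂ}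
    (hc : ContinuousOn c V) {r : ℝ} {f : T → ℂ → F} :
    ContinuousOn (fun p : T × ℂ => f p.1 (c p.1 + p.2)) (V ×ˢ ball 0 r) ↔
      ContinuousOn (fun p : T × ℂ => f p.1 p.2) {p | p.1 ∈ V ∧ p.2 ∈ ball (c p.1) r} := by
  constructor
  · intro h
    refine (h.comp (f := fun p : T × ℂ => (p.1, p.2 - c p.1)) (continuousOn_fst.prodMk
      (continuousOn_snd.sub (hc.comp continuousOn_fst fun p hp => hp.1))) fun p hp =>
        ⟨hp.1, add_mem_ball.1 (by rw [add_sub_cancel]; exact hp.2)⟩).congr fun p _ => by simp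
  · intro h
    exact h.comp (f := fun p : T × ℂ => (p.1, c p.1 + p.2)) (continuousOn_fst.prodMk
      ((hc.comp continuousOn_fst fun p hp => hp.1).add continuousOn_snd)) fun p hp =>
        ⟨hp.1, add_mem_ball.2 hp.2⟩

/-- **GAUGE**, continuous families with moving centre -/
theorem gau_fam {T : Type} [TopologicalSpace T] {V : Set T} {c : T → ℂ} {r : ℝ}
    {A g h : T → ℂ → 𝔸} (hc : ContinuousOn c V)
    (hA : ∀ t ∈ V, DifferentiableOn ℂ (A t) (ball (c t) r))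
    (G : ∀ t ∈ V, Gau (c t) r (A t) (g t) (h t)) (hN : ∀ t ∈ V, NR (A t (c t)) (A t (c t)))
    (cA : ContinuousOn (fun p : T × ℂ => A p.1 p.2) {p | p.1 ∈ V ∧ p.2 ∈ ball (c p.1) r}) :
    ContinuousOn (fun p : T × ℂ => g p.1 p.2) {p | p.1 ∈ V ∧ p.2 ∈ ball (c p.1) r} ∧
      ContinuousOn (fun p : T × ℂ => h p.1 p.2) {p | p.1 ∈ V ∧ p.2 ∈ ball (c p.1) r} := by
  have c1 := (cont_sh hc).2 cA
  have c2 : ContinuousOn (fun p : T × ℂ => A p.1 (c p.1)) (V ×ˢ ball (0 : ℂ) r) := by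
    refine (c1.comp (f := fun p : T × ℂ => (p.1, 0)) (by fun_prop) fun p hp =>
      ⟨hp.1, mem_ball_self (pos_of_mem_ball hp.2)⟩).congr fun p _ => by simp
  exact ⟨(cont_sh hc).1 (hz_fam (B := fun t _ => A t (c t)) hA
      (fun t _ => differentiableOn_const _) (fun t ht => (G t ht).hg) hN c1 c2
      (continuousOn_const.congr fun t ht => (G t ht).g1)),
    (cont_sh hc).1 (hz_fam (A := fun t _ => A t (c t)) (fun t _ => differentiableOn_const _) hA
      (fun t ht => (G t ht).hh) hN c2 c1 (continuousOn_const.congr fun t ht => (G t ht).h1))⟩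

/-- **EXT**: horizontal maps over the punctured disc extend -/
theorem hz_ext {c : ℂ} {r : ℝ} (hr : 0 < r) {A B gA hA gB hB f : ℂ → 𝔸} (GA : Gau c r A gA hA)
    (GB : Gau c r B gB hB) (hN : NR (A c) (B c))
    (hf : ∀ z ∈ ball c r, z ≠ c → DifferentiableAt ℂ f z ∧
      (z - c) • deriv f z + A z * f z = f z * B z) :
    ∃ X, A c * X = X * B c ∧ Hz c r A B (fun z => gA z * X * hB z) ∧
      ∀ z ∈ ball c r, z ≠ c → f z = gA z * X * hB z := by
  obtain ⟨X, h1, h2⟩ := const_of (L := LL (A c) (B c)) (fun k hk y hy => hN k hk y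
    (by simpa [add_sub_assoc] using hy)) hr (u := fun w => hA (c + w) * f (c + w) * gB (c + w))
    (fun w hw h0 => by
      have hm := (add_mem_ball (c := c)).2 hw
      have hb := isOpen_ball.mem_nhds hm
      obtain ⟨f1, f2⟩ := hf _ hm (by simpa using h0)
      have d := (((GA.hh.hol.differentiableAt hb).hasDerivAt.mul f1.hasDerivAt).mul
        (GB.hg.hol.differentiableAt hb).hasDerivAt).comp_const_add c w
      refine ⟨d.differentiableAt, ?_⟩
      have e1 := GA.hh.eq _ hm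
      have e2 := GB.hg.eq _ hm
      rw [add_sub_cancel_left] at e1 e2 f2
      have d' := d.deriv
      simp only [Pi.mul_apply] at d'
      rw [d', smul_add, ← smul_mul_assoc, smul_add, ← smul_mul_assoc, ← mul_smul_comm,
        ← mul_smul_comm, eq_sub_of_add_eq e1, eq_sub_of_add_eq e2, eq_sub_of_add_eq f2, LL_apply]
      noncomm_ring)
  have hX : A c * X = X * B c := sub_eq_zero.1 h1
  refine ⟨X, hX, (GA.hg.mul (Hz.const fun _ _ => hX)).mul GB.hh, fun z hz h0 => ?_⟩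
  have := h2 (z - c) (add_mem_ball.1 (by rwa [add_sub_cancel])) (sub_ne_zero.2 h0)
  rw [add_sub_cancel] at this
  rw [← this, ← mul_assoc, ← mul_assoc, GA.gh z hz, one_mul, mul_assoc, GB.gh z hz, mul_one]

omit [FiniteDimensional ℂ 𝔸]

/-- **FRAME**: `g z * (z - c) ^ (-R)` is flat, for a local branch `ℓ` of `log (z - c)` -/
theorem Hz.flat {c : ℂ} {r : ℝ} {A g : ℂ → 𝔸} {R : 𝔸} (G : Hz c r A (fun _ => R) g) {z : ℂ}
    (hz : z ∈ ball c r) (h0 : z ≠ c) {ℓ : ℂ → ℂ} (hℓ : HasDerivAt ℓ (z - c)⁻¹ z) :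
    HasDerivAt (fun w => g w * ex R (-ℓ w)) (-((z - c)⁻¹ • (A z * (g z * ex R (-ℓ z))))) z := by
  have hb := isOpen_ball.mem_nhds hz
  refine HasDerivAt.congr_deriv ((G.hol.differentiableAt hb).hasDerivAt.mul
    ((ex_neg_der R (ℓ z)).scomp z hℓ)) ?_
  have e : deriv g z = (z - c)⁻¹ • (g z * R - A z * g z) := by
    rw [← eq_sub_of_add_eq (G.eq z hz), smul_smul, inv_mul_cancel₀ (sub_ne_zero.2 h0), one_smul]
  simp only [e, Function.comp_apply, ex_comm, smul_mul_assoc, mul_smul_comm, ← smul_add,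
    ← smul_neg]
  congr 1
  noncomm_ring

/-- the flat frame on the universal cover `w = log (z - c)` -/
def fr (c : ℂ) (g : ℂ → 𝔸) (R : 𝔸) (w : ℂ) : 𝔸 := g (c + exp w) * ex R (-w)

theorem fr_mon (c : ℂ) (g : ℂ → 𝔸) (R : 𝔸) (w : ℂ) :
    fr c g R (w + 2 * π * I) = fr c g R w * ex R (-(2 * π * I)) := by
  rw [fr, fr, exp_periodic w, neg_add, ex_add, ← mul_assoc]

theorem Hz.fr_der {c : ℂ} {r : ℝ} {A g : ℂ → 𝔸} {R : 𝔸} (G : Hz c r A (fun _ => R) g) {w : ℂ}
    (hw : c + exp w ∈ ball c r) : HasDerivAt (fr c g R) (-(A (c + exp w) * fr c g R w)) w := by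
  refine HasDerivAt.congr_deriv (((G.hol.differentiableAt
    (isOpen_ball.mem_nhds hw)).hasDerivAt.scomp w ((Complex.hasDerivAt_exp w).const_add c)).mul
    (ex_neg_der R w)) ?_
  have e := G.eq _ hw
  rw [add_sub_cancel_left] at e
  simp only [eq_sub_of_add_eq e, Function.comp_apply, ex_comm, fr]
  noncomm_ring

end Vale.Agent.P275RL
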