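import Vale.Agent.P275RL.Exp
import Mathlib.Analysis.Normed.Operator.Mul
import Mathlib.Analysis.Calculus.Deriv.Shift

/-!
# P275, local Riemann-Hilbert: non resonance, the gauge to the residue
-/

set_option linter.all false

open scoped Topology Real
open Filter Set Metric Complex

noncomputable section

namespace Vale.Agent.P275RL

section E

variable {E : Type} [NormedAddCommGroup E] [NormedSpace ℂ E] [CompleteSpace E]

/-- solutions which vanish at the origin, with a bound -/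
theorem sol_ex0 (M B : ℝ) (hB0 : 0 ≤ B) : ∃ K : ℝ, 0 ≤ K ∧ ∀ (r : ℝ) (T : ℂ → E →L[ℂ] E),
    0 < r → DifferentiableOn ℂ T (ball 0 r) → (∀ z ∈ ball (0 : ℂ) r, ‖T z‖ ≤ M) → Onto 1 B (T 0) →
    ∀ (f : ℂ → E) (F : ℝ), DifferentiableOn ℂ f (ball 0 r) → (∀ z ∈ ball (0 : ℂ) r, ‖f z‖ ≤ F) →
      f 0 = 0 → ∃ u, Sol r 0 T f u ∧ u 0 = 0 ∧ ∀ z ∈ ball (0 : ℂ) r, ‖u z‖ ≤ K * F := by
  obtain ⟨K, hK, h⟩ := sol_ex (E := E) M B hB0
  refine ⟨K, hK, fun r T hr hT hM hB f F hf hF h0 => ?_⟩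
  obtain ⟨v, hv, hvb⟩ := h r 1 T hr hT hM hB (dslope f 0) (F / r)
    ((Complex.differentiableOn_dslope (ball_mem_nhds 0 hr)).2 hf) fun z hz =>
      Complex.norm_dslope_le_div_of_mapsTo_ball hf (fun w hw => by
        rw [h0, mem_closedBall_zero_iff]; exact hF w hw) hz
  refine ⟨fun z => z • v z, ⟨differentiableOn_id.smul hv.hol, fun z hz => ?_⟩, by simp,
    fun z hz => ?_⟩
  · have h1 : HasDerivAt (fun z => z • v z) (z • deriv v z + v z) z := by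
      refine HasDerivAt.congr_deriv ((hasDerivAt_id z).smul
        (hv.hol.differentiableAt (isOpen_ball.mem_nhds hz)).hasDerivAt) ?_
      simp
    have h2 := congrArg (z • ·) (hv.eq z hz)
    have h3 := sub_smul_dslope f 0 z
    simp only [sub_zero, h0] at h3
    simp only [h3] at h2
    rw [h1.deriv, map_smul]
    push_cast at h2 ⊢
    linear_combination (norm := module) h2
  · have h1 : ‖z‖ ≤ r := (mem_ball_zero_iff.1 hz).le
    rw [norm_smul]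
    refine (mul_le_mul h1 (hvb z hz) (norm_nonneg _) hr.le).trans_eq ?_
    field_simp

end E

variable {𝔸 : Type} [NormedRing 𝔸] [NormedAlgebra ℂ 𝔸]

/-- non resonance: `X ↦ R X - X S` has no nonzero integral eigenvalue -/
def NR (R S : 𝔸) : Prop := ∀ k : ℤ, k ≠ 0 → ∀ X : 𝔸, (k : ℂ) • X + R * X - X * S = 0 → X = 0

/-- non resonance with a bound -/
def NRB (B : ℝ) (R S : 𝔸) : Prop :=
  ∀ k : ℤ, k ≠ 0 → ∀ X : 𝔸, ‖X‖ ≤ B * ‖(k : ℂ) • X + R * X - X * S‖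

/-- `X ↦ R X - X S` -/
def LL (R S : 𝔸) : 𝔸 →L[ℂ] 𝔸 :=
  ContinuousLinearMap.mul ℂ 𝔸 R - (ContinuousLinearMap.mul ℂ 𝔸).flip S

@[simp] theorem LL_apply (R S X : 𝔸) : LL R S X = R * X - X * S := rfl

theorem LL_le {R S X : 𝔸} {a b x : ℝ} (hR : ‖R‖ ≤ a) (hS : ‖S‖ ≤ b) (hX : ‖X‖ ≤ x) :
    ‖LL R S X‖ ≤ (a + b) * x := by
  have h1 := norm_sub_le (R * X) (X * S)
  have h2 := (norm_mul_le R X).trans (mul_le_mul hR hX (norm_nonneg _) ((norm_nonneg _).trans hR))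
  have h3 := (norm_mul_le X S).trans (mul_le_mul hX hS (norm_nonneg _) ((norm_nonneg _).trans hX))
  rw [LL_apply]; linarith

theorem LL_norm (R S : 𝔸) : ‖LL R S‖ ≤ ‖R‖ + ‖S‖ :=
  ContinuousLinearMap.opNorm_le_bound _ (by positivity) fun X => LL_le le_rfl le_rfl le_rfl

theorem LL_diff {U : Set ℂ} {A B : ℂ → 𝔸} (hA : DifferentiableOn ℂ A U)
    (hB : DifferentiableOn ℂ B U) : DifferentiableOn ℂ (fun z => LL (A z) (B z)) U :=
  ((ContinuousLinearMap.mul ℂ 𝔸).differentiable.comp_differentiableOn hA).sub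
    ((ContinuousLinearMap.mul ℂ 𝔸).flip.differentiable.comp_differentiableOn hB)

theorem NRB.nr {B : ℝ} {R S : 𝔸} (h : NRB B R S) : NR R S := fun k hk X h0 => by
  simpa [h0] using h k hk X

theorem NRB.near {B δ : ℝ} {R S R' S' : 𝔸} (h : NRB B R S) (hB : 0 ≤ B) (hR : ‖R' - R‖ ≤ δ)
    (hS : ‖S' - S‖ ≤ δ) (hδ : 4 * B * δ ≤ 1) : NRB (2 * B) R' S' := fun k hk X => by
  have h1 := h k hk X
  have e : (k : ℂ) • X + R * X - X * S =
      ((k : ℂ) • X + R' * X - X * S') - LL (R' - R) (S' - S) X := by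
    rw [LL_apply]; noncomm_ring
  have h2 := norm_sub_le ((k : ℂ) • X + R' * X - X * S') (LL (R' - R) (S' - S) X)
  have h3 : ‖LL (R' - R) (S' - S) X‖ ≤ (δ + δ) * ‖X‖ := LL_le hR hS le_rfl
  rw [e] at h1
  have h4 := mul_le_mul_of_nonneg_left (h2.trans (add_le_add_right h3 _)) hB
  nlinarith [norm_nonneg X]

variable [FiniteDimensional ℂ 𝔸]

theorem NR.bd {R S : 𝔸} (h : NR R S) : ∃ B, 0 < B ∧ NRB B R S := by
  have h1 : ∀ k : ℤ, ∃ b : ℝ, 0 ≤ b ∧ (k ≠ 0 → ∀ X : 𝔸, ‖X‖ ≤ b * ‖(k : ℂ) • X + R * X - X * S‖) := by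
    intro k
    by_cases hk : k = 0
    · exact ⟨0, le_rfl, fun h => absurd hk h⟩
    obtain ⟨K, -, hK⟩ := LinearMap.exists_antilipschitzWith
      ((k : ℂ) • LinearMap.id + (LL R S : 𝔸 →ₗ[ℂ] 𝔸))
      (LinearMap.ker_eq_bot'.2 fun X hX => h k hk X (by simpa [add_sub_assoc] using hX))
    refine ⟨K, K.2, fun _ X => ?_⟩
    simpa [add_sub_assoc] using ZeroHomClass.bound_of_antilipschitz _ hK X
  choose b hb0 hb using h1
  obtain ⟨N, hN⟩ := exists_nat_gt (‖R‖ + ‖S‖ + 1)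
  have hs : 0 ≤ ∑ k ∈ Finset.Icc (-(N : ℤ)) N, b k := Finset.sum_nonneg fun k _ => hb0 k
  refine ⟨1 + ∑ k ∈ Finset.Icc (-(N : ℤ)) N, b k, by linarith, fun k hk X => ?_⟩
  by_cases hkN : k ∈ Finset.Icc (-(N : ℤ)) N
  · refine (hb k hk X).trans (mul_le_mul_of_nonneg_right ?_ (norm_nonneg _))
    linarith [Finset.single_le_sum (fun k _ => hb0 k) hkN]
  · have h2 : (N : ℝ) ≤ ‖(k : ℂ)‖ := by
      rw [Complex.norm_intCast, ← Int.cast_abs]
      rw [Finset.mem_Icc, ← abs_le, not_le] at hkN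
      exact_mod_cast hkN.le
    have h3 : ‖LL R S X‖ ≤ (‖R‖ + ‖S‖) * ‖X‖ := LL_le le_rfl le_rfl le_rfl
    have h4 := norm_sub_le ((k : ℂ) • X + R * X - X * S) (LL R S X)
    rw [LL_apply, add_sub_assoc, add_sub_cancel_right, norm_smul, ← LL_apply] at h4
    rw [add_sub_assoc, ← LL_apply]
    nlinarith [norm_nonneg X, norm_nonneg ((k : ℂ) • X + LL R S X)]

/-- non resonance is an open condition -/
theorem NR.near {R S : 𝔸} (h : NR R S) :
    ∃ δ, 0 < δ ∧ ∀ R' S' : 𝔸, ‖R' - R‖ ≤ δ → ‖S' - S‖ ≤ δ → NR R' S' := by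
  obtain ⟨B, hB, h⟩ := h.bd
  exact ⟨1 / (4 * B), by positivity, fun R' S' hR hS =>
    (h.near hB.le hR hS (by field_simp; rfl)).nr⟩

theorem NRB.onto {B : ℝ} {R S : 𝔸} (h : NRB B R S) : Onto 1 B (LL R S) := fun k hk y => by
  have hk0 : ((k : ℤ)) ≠ 0 := by omega
  obtain ⟨x, hx⟩ := LinearMap.surjective_of_injective
    (f := (k : ℂ) • LinearMap.id + (LL R S : 𝔸 →ₗ[ℂ] 𝔸))
    (LinearMap.ker_eq_bot.1 (LinearMap.ker_eq_bot'.2 fun X hX =>
      h.nr k hk0 X (by simpa [add_sub_assoc] using hX))) y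
  refine ⟨x, by simpa using hx, ?_⟩
  rw [← hx]
  simpa [add_sub_assoc] using h k hk0 x

/-- `exp (-2 π i R) X = X exp (-2 π i S)` implies `R X = X S` -/
theorem NR.comm_of_ex [CompleteSpace 𝔸] {R S X : 𝔸} (h : NR R S)
    (hX : ex R (-(2 * π * I)) * X = X * ex S (-(2 * π * I))) : R * X = X * S := by
  have h1 := ode_eq' (X := LL R S) (φ := fun w => ex R w * X * ex S (-w)) (fun w => by
    refine HasDerivAt.congr_deriv (((ex_der R w).mul_const X).mul (ex_neg_der S w)) ?_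
    rw [LL_apply]; noncomm_ring) (2 * π * I)
  have h2 : ex R (2 * π * I) * X * ex S (-(2 * π * I)) = X := by
    rw [mul_assoc, ← hX, ← mul_assoc, ex_mul_neg, one_mul]
  simp only [h2, neg_zero, ex_zero, one_mul, mul_one] at h1
  refine sub_eq_zero.1 (fix_ker (X := LL R S) (fun k hk y hy => ?_) h1.symm)
  refine h (-k) (neg_ne_zero.2 hk) y ?_
  rw [add_sub_assoc, ← LL_apply, hy]; simp

omit [FiniteDimensional ℂ 𝔸] in
/-- `f` is a holomorphic solution of `(z - c) f' + A f = f B` on the disc -/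
structure Hz (c : ℂ) (r : ℝ) (A B f : ℂ → 𝔸) : Prop where
  hol : DifferentiableOn ℂ f (ball c r)
  eq : ∀ z ∈ ball c r, (z - c) • deriv f z + A z * f z = f z * B z

theorem add_mem_ball {c z : ℂ} {r : ℝ} : c + z ∈ ball c r ↔ z ∈ ball (0 : ℂ) r := by
  simp [mem_ball, dist_eq_norm]

theorem diff_sh {F : Type} [NormedAddCommGroup F] [NormedSpace ℂ F] {c : ℂ} {r : ℝ} {A : ℂ → F}
    (h : DifferentiableOn ℂ A (ball c r)) : DifferentiableOn ℂ (fun z => A (c + z)) (ball 0 r) :=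
  h.comp (by fun_prop) fun z hz => add_mem_ball.2 hz

omit [FiniteDimensional ℂ 𝔸] in
theorem Hz.sh {c : ℂ} {r : ℝ} {A B f : ℂ → 𝔸} (h : Hz c r A B f) :
    Hz 0 r (fun z => A (c + z)) (fun z => B (c + z)) fun z => f (c + z) :=
  ⟨diff_sh h.hol, fun z hz => by
    simpa [deriv_comp_const_add] using h.eq _ (add_mem_ball.2 hz)⟩

omit [FiniteDimensional ℂ 𝔸] in
theorem Hz.unsh {c : ℂ} {r : ℝ} {A B f : ℂ → 𝔸}
    (h : Hz 0 r (fun z => A (c + z)) (fun z => B (c + z)) f) : Hz c r A B fun z => f (z - c) := by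
  have hm : ∀ z ∈ ball c r, z - c ∈ ball (0 : ℂ) r := fun z hz => by
    simpa [mem_ball, dist_eq_norm] using hz
  exact ⟨h.hol.comp (by fun_prop) hm, fun z hz => by
    simpa [deriv_comp_sub_const] using h.eq _ (hm z hz)⟩

omit [FiniteDimensional ℂ 𝔸] in
theorem Hz.mono {c : ℂ} {r r' : ℝ} {A B f : ℂ → 𝔸} (h : Hz c r A B f) (hr : r' ≤ r) :
    Hz c r' A B f :=
  ⟨h.hol.mono (ball_subset_ball hr), fun z hz => h.eq z (ball_subset_ball hr hz)⟩

omit [FiniteDimensional ℂ 𝔸] in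
theorem Hz.ctr {c : ℂ} {r : ℝ} {A B f : ℂ → 𝔸} (h : Hz c r A B f) (hr : 0 < r) :
    A c * f c = f c * B c := by simpa using h.eq c (mem_ball_self hr)

omit [FiniteDimensional ℂ 𝔸] in
theorem Hz.mul {c : ℂ} {r : ℝ} {A B D f g : ℂ → 𝔸} (h : Hz c r A B f) (h' : Hz c r B D g) :
    Hz c r A D fun z => f z * g z := by
  refine ⟨h.hol.mul h'.hol, fun z hz => ?_⟩
  have hb := isOpen_ball.mem_nhds hz
  rw [deriv_fun_mul (h.hol.differentiableAt hb) (h'.hol.differentiableAt hb), smul_add,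
    ← smul_mul_assoc, ← mul_smul_comm, eq_sub_of_add_eq (h.eq z hz), eq_sub_of_add_eq (h'.eq z hz)]
  noncomm_ring

omit [FiniteDimensional ℂ 𝔸] in
theorem Hz.const {c : ℂ} {r : ℝ} {A B : ℂ → 𝔸} {X : 𝔸} (h : ∀ z ∈ ball c r, A z * X = X * B z) :
    Hz c r A B fun _ => X := ⟨differentiableOn_const _, fun z hz => by simpa using h z hz⟩

variable [CompleteSpace 𝔸]

omit [FiniteDimensional ℂ 𝔸] in
/-- uniqueness -/
theorem Hz.uniq {c : ℂ} {r : ℝ} {A B f g : ℂ → 𝔸} (hA : DifferentiableOn ℂ A (ball c r))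
    (hB : DifferentiableOn ℂ B (ball c r)) (hN : NR (A c) (B c)) (hf : Hz c r A B f)
    (hg : Hz c r A B g) (h0 : f c = g c) : ∀ z ∈ ball c r, f z = g z := by
  intro z hz
  have hf' := hf.sh
  have hg' := hg.sh
  have := sol_zero (LL_diff (diff_sh hA) (diff_sh hB)).continuousOn (hf'.hol.sub hg'.hol) 0
    (fun w hw _ => ?_) (fun k hk X hX => ?_) (z - c) (add_mem_ball.1 (by rwa [add_sub_cancel]))
  · simpa [sub_eq_zero] using this
  · have hb := isOpen_ball.mem_nhds hw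
    rw [deriv_sub (hf'.hol.differentiableAt hb) (hg'.hol.differentiableAt hb), smul_sub]
    have h1 := hf'.eq w hw
    have h2 := hg'.eq w hw
    rw [sub_zero] at h1 h2
    rw [eq_sub_of_add_eq h1, eq_sub_of_add_eq h2]
    simp only [LL_apply, Pi.sub_apply, zero_smul]
    noncomm_ring
  · by_cases hk0 : k = 0
    · exact absurd (by simp [h0]) (hk hk0)
    · exact hN k (by omega) X (by simpa [add_sub_assoc] using hX)

theorem bd_ball {F : Type} [NormedAddCommGroup F] {c : ℂ} {r ρ : ℝ} {A : ℂ → F}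
    (hA : ContinuousOn A (ball c r)) (h : ρ < r) : ∃ M, 0 ≤ M ∧ ∀ z ∈ ball c ρ, ‖A z‖ ≤ M := by
  obtain ⟨M, hM⟩ := (isCompact_closedBall c ρ).exists_bound_of_continuousOn
    (hA.mono (closedBall_subset_ball h))
  exact ⟨|M|, abs_nonneg _, fun z hz => (hM z (ball_subset_closedBall hz)).trans (le_abs_self _)⟩

theorem hz_ex0 {r : ℝ} {A B : ℂ → 𝔸} (hA : DifferentiableOn ℂ A (ball 0 r))
    (hB : DifferentiableOn ℂ B (ball 0 r)) (hN : NR (A 0) (B 0)) {X : 𝔸} (hX : A 0 * X = X * B 0) :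
    ∃ f, Hz 0 r A B f ∧ f 0 = X := by
  obtain ⟨b, hb, hN'⟩ := hN.bd
  have h1 : ∀ ρ : ℝ, ∃ f, f 0 = X ∧ (0 < ρ → ρ < r → Hz 0 ρ A B f) := by
    intro ρ
    by_cases h : 0 < ρ ∧ ρ < r
    swap
    · exact ⟨fun _ => X, rfl, fun h1 h2 => absurd ⟨h1, h2⟩ h⟩
    have hT := LL_diff hA hB
    have hf : DifferentiableOn ℂ (fun z => -LL (A z) (B z) X) (ball 0 r) :=
      (hT.clm_apply (differentiableOn_const X)).neg
    obtain ⟨M, -, hM⟩ := bd_ball hT.continuousOn h.2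
    obtain ⟨F, -, hF⟩ := bd_ball hf.continuousOn h.2
    obtain ⟨K, -, hK⟩ := sol_ex0 (E := 𝔸) M b hb.le
    obtain ⟨u, hu, u0, -⟩ := hK ρ _ h.1 (hT.mono (ball_subset_ball h.2.le)) hM hN'.onto _ F
      (hf.mono (ball_subset_ball h.2.le)) hF (by simp [hX])
    refine ⟨fun z => X + u z, by simp [u0], fun _ _ => ⟨hu.hol.const_add X, fun z hz => ?_⟩⟩
    have := hu.eq z hz
    simp only [Nat.cast_zero, zero_smul, add_zero, LL_apply] at this
    rw [deriv_const_add, sub_zero, eq_sub_of_add_eq this]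
    noncomm_ring
  choose f f0 hf using h1
  have key : ∀ z ∈ ball (0 : ℂ) r, (fun w => f ((‖w‖ + r) / 2) w) =ᶠ[𝓝 z] f ((‖z‖ + r) / 2) ∧
      z ∈ ball (0 : ℂ) ((‖z‖ + r) / 2) ∧ Hz 0 ((‖z‖ + r) / 2) A B (f ((‖z‖ + r) / 2)) := by
    have h2 : ∀ z ∈ ball (0 : ℂ) r, (‖z‖ + r) / 2 < r ∧ z ∈ ball (0 : ℂ) ((‖z‖ + r) / 2) ∧
        Hz 0 ((‖z‖ + r) / 2) A B (f ((‖z‖ + r) / 2)) := fun z hz => by
      rw [mem_ball_zero_iff] at hz ⊢
      exact ⟨by linarith, by linarith, hf _ (by linarith [norm_nonneg z]) (by linarith)⟩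
    intro z hz
    obtain ⟨a1, a2, a3⟩ := h2 z hz
    refine ⟨?_, a2, a3⟩
    filter_upwards [isOpen_ball.mem_nhds a2] with w hw
    obtain ⟨b1, b2, b3⟩ := h2 w (ball_subset_ball a1.le hw)
    have hm : min ((‖w‖ + r) / 2) ((‖z‖ + r) / 2) ≤ r := (min_le_left _ _).trans b1.le
    exact Hz.uniq (hA.mono (ball_subset_ball hm)) (hB.mono (ball_subset_ball hm)) hN
      (b3.mono (min_le_left _ _)) (a3.mono (min_le_right _ _)) (by rw [f0, f0]) w
      (by rw [mem_ball] at hw b2 ⊢; exact lt_min b2 hw)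
  refine ⟨fun w => f ((‖w‖ + r) / 2) w, ⟨fun z hz => ?_, fun z hz => ?_⟩, f0 _⟩
  · obtain ⟨a1, a2, a3⟩ := key z hz
    exact ((a3.hol.differentiableAt (isOpen_ball.mem_nhds a2)).congr_of_eventuallyEq
      a1).differentiableWithinAt
  · obtain ⟨a1, a2, a3⟩ := key z hz
    rw [a1.deriv_eq]
    exact a3.eq z a2

/-- existence -/
theorem hz_ex {c : ℂ} {r : ℝ} {A B : ℂ → 𝔸} (hA : DifferentiableOn ℂ A (ball c r))
    (hB : DifferentiableOn ℂ B (ball c r)) (hN : NR (A c) (B c)) {X : 𝔸} (hX : A c * X = X * B c) :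
    ∃ f, Hz c r A B f ∧ f c = X := by
  obtain ⟨f, hf, h0⟩ := hz_ex0 (diff_sh hA) (diff_sh hB) (by simpa using hN) (X := X)
    (by simpa using hX)
  exact ⟨_, hf.unsh, by simpa using h0⟩

/-- Lipschitz dependence on the coefficients -/
theorem hz_lip (M b : ℝ) (hb : 0 ≤ b) : ∃ K : ℝ, 0 ≤ K ∧ ∀ (c c' : ℂ) (r δ ε N : ℝ)
    (A B f A' B' f' : ℂ → 𝔸), DifferentiableOn ℂ A (ball c r) → DifferentiableOn ℂ B (ball c r) →
    DifferentiableOn ℂ A' (ball c' r) → DifferentiableOn ℂ B' (ball c' r) →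
    Hz c r A B f → Hz c' r A' B' f' → NRB b (A' c') (B' c') → ‖f' c' - f c‖ ≤ ε →
    (∀ z ∈ ball (0 : ℂ) r, ‖A' (c' + z)‖ ≤ M ∧ ‖B' (c' + z)‖ ≤ M ∧ ‖f (c + z)‖ ≤ N ∧
      ‖A' (c' + z) - A (c + z)‖ ≤ δ ∧ ‖B' (c' + z) - B (c + z)‖ ≤ δ) →
    ∀ z ∈ ball (0 : ℂ) r, ‖f' (c' + z) - f (c + z)‖ ≤ K * (ε + δ * N) := by
  obtain ⟨K, hK0, hK⟩ := sol_ex0 (E := 𝔸) (2 * M) b hb
  refine ⟨1 + K * (2 * |M| + 2), by positivity,
    fun c c' r δ ε N A B f A' B' f' hA hB hA' hB' hf hf' hN hε h z hz => ?_⟩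
  have hr := pos_of_mem_ball hz
  have hε0 : 0 ≤ ε := (norm_nonneg _).trans hε
  have hδ0 : 0 ≤ δ := (norm_nonneg _).trans (h z hz).2.2.2.1
  have hN0 : 0 ≤ N := (norm_nonneg _).trans (h z hz).2.2.1
  have h1 := hf.sh
  have h2 := hf'.sh
  have hT := LL_diff (diff_sh hA') (diff_sh hB')
  set X := f' c' - f c with hX
  have hTb : ∀ z ∈ ball (0 : ℂ) r, ‖LL (A' (c' + z)) (B' (c' + z))‖ ≤ 2 * M := fun z hz =>
    (LL_norm _ _).trans (by linarith [(h z hz).1, (h z hz).2.1])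
  let G : ℂ → 𝔸 := fun z => -LL (A' (c' + z) - A (c + z)) (B' (c' + z) - B (c + z)) (f (c + z)) -
    LL (A' (c' + z)) (B' (c' + z)) X
  have hG : DifferentiableOn ℂ G (ball 0 r) :=
    ((LL_diff ((diff_sh hA').sub (diff_sh hA)) ((diff_sh hB').sub (diff_sh hB))).clm_apply
      h1.hol).neg.sub (hT.clm_apply (differentiableOn_const X))
  have hGb : ∀ z ∈ ball (0 : ℂ) r, ‖G z‖ ≤ (δ + δ) * N + (|M| + |M|) * ε := fun z hz => by
    refine (norm_sub_le _ _).trans (add_le_add ?_ ?_)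
    · rw [norm_neg]
      exact LL_le (h z hz).2.2.2.1 (h z hz).2.2.2.2 (h z hz).2.2.1
    · exact LL_le ((h z hz).1.trans (le_abs_self M)) ((h z hz).2.1.trans (le_abs_self M)) hε
  have hG0 : G 0 = 0 := by
    have e1 := hf.ctr hr
    have e2 := hf'.ctr hr
    simp only [G, add_zero, LL_apply, hX]
    have : -((A' c' - A c) * f c - f c * (B' c' - B c)) - (A' c' * (f' c' - f c) -
      (f' c' - f c) * B' c') = (A c * f c - f c * B c) - (A' c' * f' c' - f' c' * B' c') := by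
      noncomm_ring
    rw [this, e1, e2]; simp
  obtain ⟨u, hu, u0, hub⟩ := hK r _ hr hT hTb (by simpa using hN.onto) G _ hG hGb hG0
  have h3 : Hz 0 r (fun z => A' (c' + z)) (fun z => B' (c' + z)) fun z => f (c + z) + X + u z := by
    refine ⟨(h1.hol.add_const X).add hu.hol, fun z hz => ?_⟩
    have hb := isOpen_ball.mem_nhds hz
    have e1 := hu.eq z hz
    have e2 := h1.eq z hz
    simp only [Nat.cast_zero, zero_smul, add_zero, LL_apply, G, sub_zero] at e1 e2 ⊢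
    rw [deriv_fun_add ((h1.hol.differentiableAt hb).add_const X) (hu.hol.differentiableAt hb),
      deriv_add_const, smul_add, eq_sub_of_add_eq e1, eq_sub_of_add_eq e2]
    noncomm_ring
  have h4 := Hz.uniq (diff_sh hA') (diff_sh hB') (by simpa using hN.nr) h2 h3
    (by simp [u0, hX]) z hz
  rw [h4, add_assoc, add_sub_cancel_left]
  have h5 := (norm_add_le X (u z)).trans (add_le_add hε (hub z hz))
  have : 0 ≤ δ * N := by positivity
  have : 0 ≤ K * ε := by positivity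
  have : 0 ≤ K * |M| * (δ * N) := by positivity
  nlinarith

end Vale.Agent.P275RL
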