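import Vale.Agent.P275RL.Fr
import Mathlib.Analysis.Complex.HasPrimitives
import Mathlib.Algebra.Polynomial.AlgebraMap

/-!
# P275, local Riemann-Hilbert: the logarithm with prescribed non resonant eigenvalues
-/

set_option linter.all false

open scoped Topology Real Nat
open Filter Set Metric Complex Polynomial

noncomputable section

namespace Vale.Agent.P275RL

variable {𝔸 : Type} [NormedRing 𝔸] [NormedAlgebra ℂ 𝔸] {n : ℕ}

/-- `∏_{i < k} (R - t i)` -/
def pp (t : ℕ → ℂ) (R : 𝔸) : ℕ → 𝔸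
  | 0 => 1
  | k + 1 => (R - t k • 1) * pp t R k

theorem pp_eq (t : ℕ → ℂ) (R : 𝔸) (k : ℕ) :
    pp t R k = aeval R (∏ i ∈ Finset.range k, (X - C (t i))) := by
  induction k with
  | zero => simp [pp]
  | succ k ih => rw [Finset.prod_range_succ_comm, map_mul, ← ih, pp]; simp [Algebra.algebraMap_eq_smul_one]

theorem pp_semi {𝔹 : Type} [NormedRing 𝔹] [NormedAlgebra ℂ 𝔹] {M : Type} [AddCommGroup M]
    [Module ℂ M] (t : ℕ → ℂ) {R : 𝔸} {S : 𝔹} (a : 𝔸 →ₐ[ℂ] Module.End ℂ M) {N : Type}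
    [AddCommGroup N] [Module ℂ N] (b : 𝔹 →ₐ[ℂ] Module.End ℂ N) (Λ : M →ₗ[ℂ] N)
    (h : ∀ v, Λ (a R v) = b S (Λ v)) (k : ℕ) (v : M) : Λ (a (pp t R k) v) = b (pp t S k) (Λ v) := by
  induction k with
  | zero => simp [pp]
  | succ k ih => simp [pp, h, ih]

theorem pp_an {P : Type} [NormedAddCommGroup P] [NormedSpace ℂ P] {t : P → ℕ → ℂ} {R : P → 𝔸}
    {p : P} (ht : ∀ i, AnalyticAt ℂ (fun q => t q i) p) (hR : AnalyticAt ℂ R p) (k : ℕ) :
    AnalyticAt ℂ (fun q => pp (t q) (R q) k) p := by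
  induction k with
  | zero => exact analyticAt_const
  | succ k ih => exact (hR.sub ((ht k).smul analyticAt_const)).mul ih

/-- the model space and its operators -/
abbrev Vn (n : ℕ) : Type := Fin n → ℂ

/-- basis vectors, zero for `n ≤ k` -/
def ee (n k : ℕ) : Vn n := fun j => if (j : ℕ) = k then 1 else 0

/-- the operator with the given columns -/
def col : (Fin n → Vn n) →L[ℂ] (Vn n →L[ℂ] Vn n) :=
  ∑ k : Fin n, (ContinuousLinearMap.smulRightL ℂ (Vn n) (Vn n) (ContinuousLinearMap.proj k)).comp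
    (ContinuousLinearMap.proj k)

theorem col_apply (f : Fin n → Vn n) (v : Vn n) : col f v = ∑ k, v k • f k := by
  simp [col]

theorem sum_ee {M : Type} [AddCommGroup M] [Module ℂ M] (f : ℕ → M) {k : ℕ} (hk : k < n) :
    ∑ j : Fin n, ee n k j • f j = f k := by
  rw [Finset.sum_eq_single ⟨k, hk⟩] <;> simp +contextual [ee, Fin.ext_iff]

theorem ee_top : ee n n = 0 := funext fun j => by simp [ee, j.2.ne]

theorem eq_sum_ee (v : Vn n) : v = ∑ k : Fin n, v k • ee n k := funext fun j => by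
  simp [ee, Finset.sum_apply, ← Fin.ext_iff]

theorem ext_ee {M : Type} [AddCommGroup M] [Module ℂ M] {f g : Vn n →ₗ[ℂ] M}
    (h : ∀ k < n, f (ee n k) = g (ee n k)) (v : Vn n) : f v = g v := by
  rw [eq_sum_ee v]; simp [h _ (Fin.is_lt _)]

/-- the bidiagonal operator -/
def bid (n : ℕ) (t : ℕ → ℂ) : Vn n →L[ℂ] Vn n := col fun k => t k • ee n k + ee n (k + 1)

theorem bid_ee (t : ℕ → ℂ) {k : ℕ} (hk : k < n) : bid n t (ee n k) = t k • ee n k + ee n (k + 1) := by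
  rw [bid, col_apply]; exact sum_ee (fun k => t k • ee n k + ee n (k + 1)) hk

theorem pp_bid (t : ℕ → ℂ) {k : ℕ} (hk : k ≤ n) : pp t (bid n t) k (ee n 0) = ee n k := by
  induction k with
  | zero => rfl
  | succ k ih => simp [pp, ih (by omega), bid_ee t hk]

/-- `e_k ↦ ∏_{i < k} (R - t i)` -/
def Lam (n : ℕ) (t : ℕ → ℂ) (R : 𝔸) : Vn n →L[ℂ] 𝔸 :=
  ∑ k : Fin n, (ContinuousLinearMap.proj k : Vn n →L[ℂ] ℂ).smulRight (pp t R k)

theorem Lam_apply (t : ℕ → ℂ) (R : 𝔸) (v : Vn n) : Lam n t R v = ∑ k : Fin n, v k • pp t R k := by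
  simp [Lam]

theorem Lam_ee {t : ℕ → ℂ} {R : 𝔸} (h : pp t R n = 0) {k : ℕ} (hk : k ≤ n) :
    Lam n t R (ee n k) = pp t R k := by
  rcases hk.eq_or_lt with rfl | hk
  · rw [ee_top, map_zero, h]
  · rw [Lam_apply, sum_ee _ hk]

theorem Lam_bid {t : ℕ → ℂ} {R : 𝔸} (h : pp t R n = 0) (v : Vn n) :
    Lam n t R (bid n t v) = R * Lam n t R v := by
  refine ext_ee (f := (Lam n t R : Vn n →ₗ[ℂ] 𝔸) ∘ₗ (bid n t : Vn n →ₗ[ℂ] Vn n))
    (g := LinearMap.mulLeft ℂ R ∘ₗ (Lam n t R : Vn n →ₗ[ℂ] 𝔸)) (fun k hk => ?_) v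
  simp [bid_ee t hk, Lam_ee h hk.le, Lam_ee h (Nat.succ_le_of_lt hk), pp, sub_mul]

/-- operators as endomorphisms -/
def toE (n : ℕ) : (Vn n →L[ℂ] Vn n) →ₐ[ℂ] Module.End ℂ (Vn n) where
  toFun T := T
  map_one' := rfl
  map_mul' _ _ := rfl
  map_zero' := rfl
  map_add' _ _ := rfl
  commutes' _ := rfl

theorem Lam_pp {Λ : Vn n →L[ℂ] 𝔸} {S : Vn n →L[ℂ] Vn n} {R : 𝔸} (h : ∀ v, Λ (S v) = R * Λ v)
    (t : ℕ → ℂ) (k : ℕ) (v : Vn n) : Λ (pp t S k v) = pp t R k * Λ v :=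
  pp_semi t (toE n) (Algebra.lmul ℂ 𝔸) (Λ : Vn n →ₗ[ℂ] 𝔸) h k v

theorem Lam_ex [CompleteSpace 𝔸] {Λ : Vn n →L[ℂ] 𝔸} {S : Vn n →L[ℂ] Vn n} {R : 𝔸}
    (h : ∀ v, Λ (S v) = R * Λ v) (w : ℂ) (v : Vn n) : Λ (ex S w v) = ex R w * Λ v := by
  have hd : ∀ w, HasDerivAt (fun w => ex R (-w) * Λ (ex S w v)) 0 w := fun w => by
    have h1 := Λ.hasFDerivAt.comp_hasDerivAt w
      ((ex_der S w).clm_apply (hasDerivAt_const w v))
    refine HasDerivAt.congr_deriv ((ex_neg_der R w).mul h1) ?_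
    simp [h, mul_assoc]
  have := is_const_of_deriv_eq_zero (fun w => (hd w).differentiableAt) (fun w => (hd w).deriv) w 0
  simp only [neg_zero, ex_zero, one_mul, ContinuousLinearMap.one_apply] at this
  rw [← this, ← mul_assoc, ex_mul_neg, one_mul]

/-- an operator which commutes with the bidiagonal operator is given by its first column -/
theorem eq_of_comm {t : ℕ → ℂ} {S : Vn n →L[ℂ] Vn n} (h : ∀ v, S (bid n t v) = bid n t (S v))
    (h0 : S (ee n 0) = 0) (v : Vn n) : S v = 0 := by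
  refine ext_ee (f := (S : Vn n →ₗ[ℂ] Vn n)) (g := 0) (fun k hk => ?_) v
  have := pp_semi t (toE n) (toE n) (S : Vn n →ₗ[ℂ] Vn n) h k (ee n 0)
  change S (pp t (bid n t) k (ee n 0)) = pp t (bid n t) k (S (ee n 0)) at this
  rw [pp_bid t hk.le, h0, map_zero] at this
  exact this

theorem pp_comm {R S : 𝔸} (h : Commute S R) (t : ℕ → ℂ) (k : ℕ) : Commute S (pp t R k) := by
  induction k with
  | zero => exact Commute.one_right _
  | succ k ih => exact (h.sub_right ((Commute.one_right S).smul_right _)).mul_right ih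

theorem pp_bid_top (t : ℕ → ℂ) : pp t (bid n t) n = 0 :=
  ContinuousLinearMap.ext (eq_of_comm (t := t) (fun v => congrArg (· v)
    (pp_comm (Commute.refl (bid n t)) t n).symm.eq) (by rw [pp_bid t le_rfl, ee_top]))

/-- triangular with diagonal `d` -/
def Tri (T : Vn n →L[ℂ] Vn n) (d : Fin n → ℂ) : Prop :=
  ∀ (v : Vn n) (k : Fin n), (∀ j < k, v j = 0) → T v k = d k * v k

theorem Tri.low {T : Vn n →L[ℂ] Vn n} {d : Fin n → ℂ} (h : Tri T d) {v : Vn n} {k : ℕ}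
    (hv : ∀ j : Fin n, (j : ℕ) < k → v j = 0) (j : Fin n) (hj : (j : ℕ) < k) : T v j = 0 := by
  rw [h v j fun i hi => hv i (lt_trans hi hj), hv j hj, mul_zero]

theorem Tri.mul {T S : Vn n →L[ℂ] Vn n} {d e : Fin n → ℂ} (h : Tri T d) (h' : Tri S e) :
    Tri (T * S) (d * e) := fun v k hv => by
  rw [ContinuousLinearMap.mul_apply, h _ k (h'.low hv), h' v k hv, Pi.mul_apply, mul_assoc]

theorem tri_bid (t : ℕ → ℂ) : Tri (bid n t) fun k => t k := fun v k hv => by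
  rw [bid, col_apply, Finset.sum_apply, Finset.sum_eq_single k]
  · simp [ee, mul_comm]
  · intro j _ hj
    rcases lt_or_gt_of_ne hj with h | h
    · simp [hv j h]
    · have : (k : ℕ) < j := h
      simp [ee, this.ne, (Nat.lt_succ_of_lt this).ne]
  · simp

theorem Tri.ex {T : Vn n →L[ℂ] Vn n} {d : Fin n → ℂ} (h : Tri T d) (w : ℂ) :
    Tri (ex T w) fun k => exp (w * d k) := fun v k hv => by
  have h1 : ∀ m : ℕ, Tri ((w • T) ^ m) fun k => (w * d k) ^ m := fun m => by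
    induction m with
    | zero => intro v k _; simp
    | succ m ih =>
      rw [pow_succ]
      refine fun v k hv => (ih.mul (S := w • T) (e := fun k => w * d k)
        (fun v k hv => by simp [h v k hv, mul_assoc]) v k hv).trans (by simp [pow_succ])
  have h2 := ((ContinuousLinearMap.proj k : Vn n →L[ℂ] ℂ).comp
    (ContinuousLinearMap.apply ℂ (Vn n) v)).hasSum
    (NormedSpace.exp_series_hasSum_exp' (𝕂 := ℂ) (w • T))
  have h3 := (NormedSpace.exp_series_hasSum_exp' (𝕂 := ℂ) (w * d k)).mul_right (v k)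
  rw [← Complex.exp_eq_exp_ℂ] at h3
  refine HasSum.unique h2 ?_
  refine (congrArg (HasSum · _) (funext fun m => ?_)).mpr h3
  change ((m ! : ℂ)⁻¹) * ((w • T) ^ m) v k = _
  rw [h1 m v k hv, smul_eq_mul, mul_assoc]

/-- `τ = exp (-2 π i t)` -/
def ta (a : ℂ) : ℂ := exp (-(2 * π * I) * a)

theorem der0 {F : Type} [NormedAddCommGroup F] [NormedSpace ℂ F] {u : ℂ → F}
    (h : ∀ w, HasDerivAt u 0 w) (w : ℂ) : u w = u 0 :=
  is_const_of_deriv_eq_zero (fun w => (h w).differentiableAt) (fun w => (h w).deriv) _ _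

theorem comm_sub {R S : 𝔸} (h : Commute R S) (a : ℂ) : Commute (R - a • 1) S :=
  h.sub_left ((Commute.one_left _).smul_left a)

theorem theta_alg [CompleteSpace 𝔸] (J : 𝔸) (a : ℂ) : ∃ θ : ℂ → 𝔸, θ 0 = 0 ∧
    (∀ w, HasDerivAt θ (exp (w * -a) • ex J w) w) ∧ Commute J (ta a • θ (-(2 * π * I))) ∧
    ex J (-(2 * π * I)) - ta a • 1 = (J - a • 1) * (ta a • θ (-(2 * π * I))) := by
  set w₀ : ℂ := -(2 * π * I)
  have hf : ∀ w, HasDerivAt (fun w => exp (w * -a) • ex J w)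
      ((J - a • 1) * (exp (w * -a) • ex J w)) w := fun w => by
    refine HasDerivAt.congr_deriv (((hasDerivAt_id w).mul_const (-a)).cexp.smul (ex_der J w)) ?_
    simp [sub_mul, smul_smul, sub_eq_add_neg, add_mul, mul_comm]
  obtain ⟨θ, θ0, hθ⟩ := (Differentiable.isExactOn_univ fun w => (hf w).differentiableAt).with_val_at
    0 0
  have e1 := der0 (u := fun w => (J - a • 1) * θ w - exp (w * -a) • ex J w) (fun w =>
    HasDerivAt.congr_deriv (((hθ w trivial).const_mul (J - a • 1)).sub (hf w)) (sub_self _)) w₀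
  have e2 := der0 (u := fun w => J * θ w - θ w * J) (fun w =>
    HasDerivAt.congr_deriv (((hθ w trivial).const_mul J).sub ((hθ w trivial).mul_const J))
      (by simp [ex_comm])) w₀
  have hta : ta a * exp (w₀ * -a) = 1 := by rw [ta, ← exp_add]; simp [w₀]
  refine ⟨θ, θ0, fun w => hθ w trivial, Commute.smul_right ?_ _, ?_⟩
  · exact sub_eq_zero.1 (by simpa [θ0] using e2)
  · simp only [θ0, mul_zero, zero_mul, exp_zero, ex_zero, one_smul, zero_sub] at e1
    rw [mul_smul_comm, eq_add_of_sub_eq e1, smul_add, smul_smul, hta]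
    simp [add_comm, sub_eq_add_neg]

theorem theta_ex (t : ℕ → ℂ) (a : ℂ) (ha : ∀ j < n, ∀ k : ℤ, k ≠ 0 → t j - a ≠ k) :
    ∃ Θ d, Commute (bid n t) Θ ∧ Tri Θ d ∧ (∀ j, d j ≠ 0) ∧
      ex (bid n t) (-(2 * π * I)) - ta a • 1 = (bid n t - a • 1) * Θ := by
  obtain ⟨θ, θ0, hθ, e1, e2⟩ := theta_alg (bid n t) a
  set w₀ : ℂ := -(2 * π * I)
  have hw : w₀ ≠ 0 := neg_ne_zero.2 two_pi_I_ne
  refine ⟨ta a • θ w₀, fun j => ta a * (if t j - a = 0 then w₀ else
    (exp (w₀ * (t j - a)) - 1) / (t j - a)), e1, fun v k hv => ?_, fun j => ?_, e2⟩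
  · have h1 : ∀ w, HasDerivAt (fun w => θ w v k) (exp (w * (t k - a)) * v k) w := fun w => by
      have := ((ContinuousLinearMap.proj k : Vn n →L[ℂ] ℂ).comp
        (ContinuousLinearMap.apply ℂ (Vn n) v)).hasFDerivAt.comp_hasDerivAt w (hθ w)
      refine HasDerivAt.congr_deriv this ?_
      change exp (w * -a) * ex (bid n t) w v k = _
      rw [((tri_bid t).ex w) v k hv, ← mul_assoc, ← exp_add]
      congr 2; ring
    have h2 : θ w₀ v k = (if t k - a = 0 then w₀ else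
        (exp (w₀ * (t k - a)) - 1) / (t k - a)) * v k := by
      split_ifs with h
      · have := der0 (u := fun w => θ w v k - w * v k) (fun w => HasDerivAt.congr_deriv
          ((h1 w).sub ((hasDerivAt_id w).mul_const (v k))) (by simp [h])) w₀
        simpa [θ0, sub_eq_zero] using this
      · have := der0 (u := fun w => θ w v k - (exp (w * (t k - a)) - 1) / (t k - a) * v k)
          (fun w => HasDerivAt.congr_deriv ((h1 w).sub (((((hasDerivAt_id w).mul_const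
            (t k - a)).cexp.sub_const 1).div_const (t k - a)).mul_const (v k)))
            (by simp [mul_div_cancel_right₀ _ h])) w₀
        simpa [θ0, sub_eq_zero] using this
    simp [h2, mul_assoc]
  · refine mul_ne_zero (exp_ne_zero _) ?_
    split_ifs with h
    · exact hw
    · refine div_ne_zero (fun e => ?_) h
      obtain ⟨k, hk⟩ := exp_eq_one_iff.1 (sub_eq_zero.1 e)
      have : t j - a = (-k : ℤ) := mul_left_cancel₀ hw (by rw [hk]; simp [w₀]; ring)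
      exact ha j j.2 (-k) (fun h0 => h (by rw [this, h0]; simp)) this

/-- non resonance of the eigenvalues -/
def NRs (n : ℕ) (t : ℕ → ℂ) : Prop := ∀ i < n, ∀ j < n, ∀ k : ℤ, k ≠ 0 → t i - t j ≠ k

/-- the universal monodromy -/
def MM (n : ℕ) (t : ℕ → ℂ) : Vn n →L[ℂ] Vn n := ex (bid n t) (-(2 * π * I))

theorem pp_MM {t : ℕ → ℂ} (ht : NRs n t) {k : ℕ} (hk : k ≤ n) : ∃ Θ d, Commute (bid n t) Θ ∧
    Tri Θ d ∧ (∀ j, d j ≠ 0) ∧ pp (fun i => ta (t i)) (MM n t) k = Θ * pp t (bid n t) k := by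
  induction k with
  | zero => exact ⟨1, 1, Commute.one_right _, fun v k _ => by simp, by simp, by simp [pp]⟩
  | succ k ih =>
    obtain ⟨Θ, d, a1, a2, a3, a4⟩ := ih (by omega)
    obtain ⟨Θ', d', b1, b2, b3, b4⟩ := theta_ex (n := n) t (t k) fun j hj => ht j hj k hk
    refine ⟨Θ' * Θ, d' * d, b1.mul_right a1, b2.mul a2, fun j => mul_ne_zero (b3 j) (a3 j), ?_⟩
    have := (comm_sub (b1.mul_right a1) (t k)).eq
    rw [pp, pp, a4, MM, b4, ← mul_assoc, ← mul_assoc, ← this, mul_assoc _ Θ' Θ]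

/-- the change of basis -/
def KK (n : ℕ) (t : ℕ → ℂ) : Vn n →L[ℂ] Vn n :=
  col fun k => pp (fun i => ta (t i)) (MM n t) k (ee n 0)

theorem KK_ee {t : ℕ → ℂ} (ht : NRs n t) {k : ℕ} (hk : k ≤ n) :
    KK n t (ee n k) = pp (fun i => ta (t i)) (MM n t) k (ee n 0) := by
  rcases hk.eq_or_lt with rfl | hk
  · obtain ⟨Θ, d, -, -, -, a4⟩ := pp_MM ht le_rfl
    rw [a4, pp_bid_top, ee_top]; simp
  · rw [KK, col_apply]; exact sum_ee (fun k => pp (fun i => ta (t i)) (MM n t) k (ee n 0)) hk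

theorem KK_unit {t : ℕ → ℂ} (ht : NRs n t) : IsUnit (KK n t) := by
  have h1 : ∀ k : Fin n, ∃ d : ℂ, d ≠ 0 ∧ KK n t (ee n k) k = d ∧
      ∀ j < k, KK n t (ee n k) j = 0 := fun k => by
    obtain ⟨Θ, d, -, a2, a3, a4⟩ := pp_MM ht k.2.le
    have e : ∀ j : Fin n, (j : ℕ) < k → ee n k j = 0 := fun j hj => by simp [ee, hj.ne]
    rw [KK_ee ht k.2.le, a4, ContinuousLinearMap.mul_apply, pp_bid t k.2.le]
    exact ⟨d k, a3 k, by rw [a2 _ k e]; simp [ee], a2.low e⟩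
  have h2 : Function.Injective (KK n t) := by
    refine (injective_iff_map_eq_zero _).2 fun v hv => funext fun k => ?_
    induction k using WellFoundedLT.induction with
    | ind k ih =>
      obtain ⟨d, d0, d1, -⟩ := h1 k
      have := congrFun hv k
      rw [eq_sum_ee v, map_sum, Finset.sum_apply, Finset.sum_eq_single k] at this
      · simpa [d1, d0] using this
      · intro j _ hj
        rcases lt_or_gt_of_ne hj with h | h
        · simp [show v j = 0 from ih j h]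
        · simp [(h1 j).choose_spec.2.2 k h]
      · simp
  exact ContinuousLinearMap.isUnit_iff_bijective.2
    ⟨h2, LinearMap.surjective_of_injective (f := (KK n t : Vn n →ₗ[ℂ] Vn n)) h2⟩

theorem MM_KK {t : ℕ → ℂ} (ht : NRs n t) :
    MM n t * KK n t = KK n t * bid n fun i => ta (t i) :=
  ContinuousLinearMap.ext (ext_ee (f := ((MM n t * KK n t : Vn n →L[ℂ] Vn n) : Vn n →ₗ[ℂ] Vn n))
    (g := ((KK n t * bid n fun i => ta (t i) : Vn n →L[ℂ] Vn n) : Vn n →ₗ[ℂ] Vn n)) fun k hk => by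
      simp [bid_ee _ hk, KK_ee ht hk.le, KK_ee ht (Nat.succ_le_of_lt hk), pp])

/-- the universal logarithm -/
def SS (n : ℕ) (t : ℕ → ℂ) : Vn n →L[ℂ] Vn n := Ring.inverse (KK n t) * bid n t * KK n t

/-- the logarithm with eigenvalues `t` -/
def lgs (n : ℕ) (t : ℕ → ℂ) (μ : 𝔸) : 𝔸 := Lam n (fun i => ta (t i)) μ (SS n t (ee n 0))

theorem lgs_spec [CompleteSpace 𝔸] {t : ℕ → ℂ} (ht : NRs n t) {μ : 𝔸}
    (h : pp (fun i => ta (t i)) μ n = 0) :
    ex (lgs n t μ) (-(2 * π * I)) = μ ∧ pp t (lgs n t μ) n = 0 := by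
  set N := bid n fun i => ta (t i)
  have hK := KK_unit ht
  have a1 : bid n t * KK n t = KK n t * SS n t := by
    rw [SS, ← mul_assoc, ← mul_assoc, Ring.mul_inverse_cancel _ hK, one_mul]
  have a2 : ex (SS n t) (-(2 * π * I)) = N := hK.mul_left_cancel (by
    rw [← ex_semi a1]; exact MM_KK ht)
  have a3 : Commute N (SS n t) := by rw [← a2]; exact ex_comm _ _
  have a4 : pp t (SS n t) n = 0 := hK.mul_left_cancel (by
    have := pp_semi t (Algebra.lmul ℂ _) (Algebra.lmul ℂ _) (LinearMap.mulLeft ℂ (KK n t))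
      (R := SS n t) (S := bid n t) (fun v => by simp [← mul_assoc, a1]) n 1
    simpa [pp_bid_top] using this)
  have a5 : ∀ v, Lam n (fun i => ta (t i)) μ (SS n t v) =
      lgs n t μ * Lam n (fun i => ta (t i)) μ v := fun v => by
    have := eq_of_comm (t := fun i => ta (t i))
      (S := SS n t - Lam n (fun i => ta (t i)) N (SS n t (ee n 0))) (fun v => congrArg (· v)
        (a3.sub_right (by
          rw [Lam_apply]
          exact Commute.sum_right _ _ _ fun k _ => (pp_comm (Commute.refl N) _ _).smul_right _)).symm.eq)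
      (by
        rw [Lam_apply, ContinuousLinearMap.sub_apply, sub_eq_zero]
        conv_lhs => rw [eq_sum_ee (SS n t (ee n 0))]
        simp [N, pp_bid _ (Fin.is_lt _).le]) v
    rw [ContinuousLinearMap.sub_apply, sub_eq_zero] at this
    rw [this, lgs, Lam_apply _ N, Lam_apply _ μ (SS n t (ee n 0)), Finset.sum_mul]
    simp [Lam_pp (Lam_bid h), N]
  have a6 : Lam n (fun i => ta (t i)) μ (ee n 0) = 1 := Lam_ee h (Nat.zero_le n)
  constructor
  · have := Lam_ex a5 (-(2 * π * I)) (ee n 0)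
    rw [a2, Lam_bid h, a6, mul_one, mul_one] at this
    exact this.symm
  · have := Lam_pp a5 t n (ee n 0)
    rw [a4, a6, mul_one] at this
    simpa using this.symm

theorem pp_ex [CompleteSpace 𝔸] {t : ℕ → ℂ} (ht : NRs n t) {R : 𝔸} (h : pp t R n = 0) :
    pp (fun i => ta (t i)) (ex R (-(2 * π * I))) n = 0 := by
  have := Lam_pp (Lam_ex (Lam_bid h) (-(2 * π * I))) (fun i => ta (t i)) n (ee n 0)
  rw [Lam_ee h (Nat.zero_le n), pp, mul_one] at this
  rw [← this]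
  change Lam n t R (pp _ (MM n t) n (ee n 0)) = 0
  rw [← KK_ee ht le_rfl, ee_top]; simp

theorem clm_an {P E F : Type} [NormedAddCommGroup P] [NormedSpace ℂ P] [NormedAddCommGroup E]
    [NormedSpace ℂ E] [NormedAddCommGroup F] [NormedSpace ℂ F] {T : P → E →L[ℂ] F} {p : P}
    (h : AnalyticAt ℂ T p) (v : E) : AnalyticAt ℂ (fun q => T q v) p :=
  ((ContinuousLinearMap.apply ℂ F v).analyticAt _).comp h

theorem lgs_an {P : Type} [NormedAddCommGroup P] [NormedSpace ℂ P] {t : P → ℕ → ℂ} {μ : P → 𝔸}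
    {p : P} (ht : ∀ i, AnalyticAt ℂ (fun q => t q i) p) (hμ : AnalyticAt ℂ μ p)
    (h : NRs n (t p)) : AnalyticAt ℂ (fun q => lgs n (t q) (μ q)) p := by
  have h1 : AnalyticAt ℂ (fun q => bid n (t q)) p := (col.analyticAt _).comp
    (AnalyticAt.pi fun k => ((ht k).smul analyticAt_const).add analyticAt_const)
  have h2 : ∀ i, AnalyticAt ℂ (fun q => ta (t q i)) p := fun i =>
    (analyticAt_const.mul (ht i)).cexp
  have h3 : AnalyticAt ℂ (fun q => KK n (t q)) p := (col.analyticAt _).comp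
    (AnalyticAt.pi fun k => clm_an (pp_an h2 (ex_an h1 analyticAt_const) k) _)
  have h4 : AnalyticAt ℂ (fun q => SS n (t q) (ee n 0)) p :=
    clm_an (((AnalyticAt.comp (g := Ring.inverse) (f := fun q => KK n (t q))
      (analyticOnNhd_inverse (𝕜 := ℂ) _ (KK_unit h)) h3).mul h1).mul h3) _
  simp only [lgs, Lam_apply]
  exact Finset.analyticAt_fun_sum _ fun k _ => (analyticAt_pi_iff.1 h4 k).smul (pp_an h2 hμ k)

/-! ### the interface -/

/-- extension by zero -/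
def xt (t : Fin n → ℂ) (i : ℕ) : ℂ := if h : i < n then t ⟨i, h⟩ else 0

theorem xt_fin (t : Fin n → ℂ) (i : Fin n) : xt t i = t i := by simp [xt]

/-- `∏ (R - t i) = 0` -/
def Ann (t : Fin n → ℂ) (R : 𝔸) : Prop := aeval R (∏ i, (X - C (t i))) = 0

/-- the differences of the eigenvalues are not nonzero integers -/
def NRt {m : ℕ} (t : Fin n → ℂ) (s : Fin m → ℂ) : Prop := ∀ i j (k : ℤ), k ≠ 0 → t i - s j ≠ k

/-- the logarithm (divided by `-2 π i`) with eigenvalues `t` -/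
def Lg (t : Fin n → ℂ) (μ : 𝔸) : 𝔸 := lgs n (xt t) μ

theorem ann_iff {t : Fin n → ℂ} {s : ℕ → ℂ} (h : ∀ i : Fin n, s i = t i) {R : 𝔸} :
    Ann t R ↔ pp s R n = 0 := by
  rw [Ann, pp_eq, ← Fin.prod_univ_eq_prod_range (fun i => X - C (s i))]
  simp only [h]

theorem NRt.nrs {t : Fin n → ℂ} (h : NRt t t) : NRs n (xt t) := fun i hi j hj => by
  simpa [xt, hi, hj] using h ⟨i, hi⟩ ⟨j, hj⟩

theorem ann_self (t : Fin n → ℂ) (i : Fin n) : Ann t (t i) := by
  rw [Ann, map_prod]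
  exact Finset.prod_eq_zero (Finset.mem_univ i) (by simp)

theorem Ann.inj {t : Fin n → ℂ} {R Y : 𝔸} (h : Ann t R) {c : ℂ} (hc : ∀ i, t i ≠ c)
    (hY : (R - c • 1) * Y = 0) : Y = 0 := by
  have := pp_semi (xt t) (Algebra.lmul ℂ ℂ) (Algebra.lmul ℂ 𝔸) (LinearMap.toSpanSingleton ℂ 𝔸 Y)
    (R := c) (S := R) (fun v => by
      rw [sub_mul, sub_eq_zero] at hY
      simp [hY, smul_smul, mul_comm]) n 1
  rw [(ann_iff (xt_fin t)).1 h, pp_eq, ← Fin.prod_univ_eq_prod_range fun i => X - C (xt t i)] at this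
  simp only [xt_fin, map_prod, map_zero] at this
  simpa [Finset.prod_eq_zero_iff, sub_eq_zero, fun i => (hc i).symm] using this

/-- non resonance from the eigenvalues -/
theorem NRt.nr {m : ℕ} {t : Fin n → ℂ} {s : Fin m → ℂ} (h : NRt t s) {R S : 𝔸} (hR : Ann t R)
    (hS : Ann s S) : NR R S := fun k hk Y hY => by
  have h1 := pp_semi (xt s) (Algebra.lmul ℂ 𝔸) (Algebra.lmul ℂ 𝔸) (LinearMap.mulLeft ℂ Y)
    (R := S) (S := R + (k : ℂ) • 1) (fun v => by
      simp [← mul_assoc, ← sub_eq_zero.1 hY, add_mul, add_comm]) m 1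
  rw [(ann_iff (xt_fin s)).1 hS] at h1
  have h2 : ∀ j ≤ m, pp (xt s) (R + (k : ℂ) • 1) j * Y = 0 → Y = 0 := by
    intro j hj
    induction j with
    | zero => simp [pp]
    | succ j ih =>
      intro h0
      refine ih (by omega) (hR.inj (c := xt s j - k) (fun i e => h i ⟨j, hj⟩ (-k)
        (neg_ne_zero.2 hk) (by rw [e, ← xt_fin s ⟨j, hj⟩]; simp)) ?_)
      rw [← h0, pp, mul_assoc, sub_smul]
      congr 1; abel
  exact h2 m le_rfl (by simpa using h1.symm)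

variable [CompleteSpace 𝔸]

theorem ex_Lg {t : Fin n → ℂ} (ht : NRt t t) {μ : 𝔸} (h : Ann (fun i => ta (t i)) μ) :
    ex (Lg t μ) (-(2 * π * I)) = μ :=
  (lgs_spec ht.nrs ((ann_iff fun i => by rw [xt_fin]).1 h)).1

theorem ann_Lg {t : Fin n → ℂ} (ht : NRt t t) {μ : 𝔸} (h : Ann (fun i => ta (t i)) μ) :
    Ann t (Lg t μ) :=
  (ann_iff (xt_fin t)).2 (lgs_spec ht.nrs ((ann_iff fun i => by rw [xt_fin]).1 h)).2

theorem ann_ex {t : Fin n → ℂ} (ht : NRt t t) {R : 𝔸} (h : Ann t R) :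
    Ann (fun i => ta (t i)) (ex R (-(2 * π * I))) :=
  (ann_iff fun i => by rw [xt_fin]).2 (pp_ex ht.nrs ((ann_iff (xt_fin t)).1 h))

theorem Lg_ex [FiniteDimensional ℂ 𝔸] {t : Fin n → ℂ} (ht : NRt t t) {R : 𝔸} (h : Ann t R) :
    Lg t (ex R (-(2 * π * I))) = R := by
  simpa using (ht.nr (ann_Lg ht (ann_ex ht h)) h).comm_of_ex (X := 1)
    (by rw [ex_Lg ht (ann_ex ht h), mul_one, one_mul])

omit [CompleteSpace 𝔸] in
theorem Lg_an {P : Type} [NormedAddCommGroup P] [NormedSpace ℂ P] {t : P → Fin n → ℂ} {μ : P → 𝔸}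
    {p : P} (ht : AnalyticAt ℂ t p) (hμ : AnalyticAt ℂ μ p) (h : NRt (t p) (t p)) :
    AnalyticAt ℂ (fun q => Lg (t q) (μ q)) p :=
  lgs_an (fun i => by
    by_cases hi : i < n
    · simpa only [xt, hi, dif_pos] using analyticAt_pi_iff.1 ht ⟨i, hi⟩
    · simpa only [xt, hi, dif_neg, not_false_eq_true] using analyticAt_const) hμ h.nrs

omit [CompleteSpace 𝔸] in
theorem Lg_cont : ContinuousOn (fun p : (Fin n → ℂ) × 𝔸 => Lg p.1 p.2) {p | NRt p.1 p.1} :=
  fun p hp => (Lg_an analyticAt_fst analyticAt_snd hp).continuousAt.continuousWithinAt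

/-- the polynomial of a vector -/
def pol (n : ℕ) (t : ℕ → ℂ) (v : Vn n) : ℂ[X] :=
  ∑ k : Fin n, v k • ∏ i ∈ Finset.range k, (X - C (t i))

omit [CompleteSpace 𝔸] in
theorem Lam_eq (t : ℕ → ℂ) (R : 𝔸) (v : Vn n) : Lam n t R v = aeval R (pol n t v) := by
  simp [Lam_apply, pol, pp_eq]

/-- the logarithm is a polynomial -/
def lgP (t : Fin n → ℂ) : ℂ[X] := pol n (fun i => ta (xt t i)) (SS n (xt t) (ee n 0))

/-- the exponential is a polynomial -/
def exP (t : Fin n → ℂ) (w : ℂ) : ℂ[X] := pol n (xt t) (ex (bid n (xt t)) w (ee n 0))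

omit [CompleteSpace 𝔸] in
theorem Lg_eq (t : Fin n → ℂ) (μ : 𝔸) : Lg t μ = aeval μ (lgP t) := Lam_eq _ _ _

theorem ex_eq {t : Fin n → ℂ} {R : 𝔸} (h : Ann t R) (w : ℂ) : ex R w = aeval R (exP t w) := by
  have h' := (ann_iff (xt_fin t)).1 h
  rw [exP, ← Lam_eq, Lam_ex (Lam_bid h'), Lam_ee h' (Nat.zero_le n), pp, mul_one]

theorem ex_cx (a w : ℂ) : ex a w = exp (w * a) := by rw [ex, ← Complex.exp_eq_exp_ℂ, smul_eq_mul]

theorem exP_eval (t : Fin n → ℂ) (w : ℂ) (i : Fin n) : (exP t w).eval (t i) = exp (w * t i) := by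
  rw [← ex_cx, ex_eq (ann_self t i), coe_aeval_eq_eval]

theorem lgP_eval {t : Fin n → ℂ} (ht : NRt t t) (i : Fin n) : (lgP t).eval (ta (t i)) = t i := by
  have := Lg_ex ht (ann_self t i)
  rwa [Lg_eq, ex_cx, coe_aeval_eq_eval] at this

omit [CompleteSpace 𝔸] in
theorem aeval_sub (R : 𝔸) (P : ℂ[X]) (a : ℂ) :
    aeval R P - P.eval a • 1 = (R - a • 1) * aeval R (P /ₘ (X - C a)) := by
  conv_lhs => rw [← modByMonic_add_div P (X - C a), modByMonic_X_sub_C_eq_C_eval]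
  simp [Algebra.algebraMap_eq_smul_one]

omit [CompleteSpace 𝔸] in
theorem aeval_semi {R S Y : 𝔸} (h : R * Y = Y * S) (P : ℂ[X]) : aeval R P * Y = Y * aeval S P := by
  induction P using Polynomial.induction_on' with
  | add p q hp hq => simp [add_mul, mul_add, hp, hq]
  | monomial k a =>
    have : SemiconjBy Y (S ^ k) (R ^ k) := SemiconjBy.pow_right h.symm k
    simp [aeval_monomial, Algebra.algebraMap_eq_smul_one, this.eq]

omit [CompleteSpace 𝔸] in
theorem Lg_semi (t : Fin n → ℂ) {μ ν Y : 𝔸} (h : μ * Y = Y * ν) : Lg t μ * Y = Y * Lg t ν := by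
  rw [Lg_eq, Lg_eq, aeval_semi h]

omit [CompleteSpace 𝔸] in
theorem Lg_mem (t : Fin n → ℂ) {H : Subalgebra ℂ 𝔸} {μ : 𝔸} (h : μ ∈ H) : Lg t μ ∈ H := by
  rw [Lg_eq]; exact Algebra.adjoin_le (by simpa using h) (aeval_mem_adjoin_singleton ℂ μ)

/-- `Lg t μ - t i` is divisible by `μ - τ i` -/
theorem Lg_sub {t : Fin n → ℂ} (ht : NRt t t) (μ : 𝔸) (i : Fin n) :
    ∃ P : ℂ[X], Lg t μ - t i • 1 = (μ - ta (t i) • 1) * aeval μ P :=
  ⟨_, by rw [← aeval_sub, lgP_eval ht, Lg_eq]⟩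

/-- `exp (w R) - exp (w t i)` is divisible by `R - t i` -/
theorem ex_sub {t : Fin n → ℂ} {R : 𝔸} (h : Ann t R) (w : ℂ) (i : Fin n) :
    ∃ P : ℂ[X], ex R w - exp (w * t i) • 1 = (R - t i • 1) * aeval R P :=
  ⟨_, by rw [← aeval_sub, exP_eval, ex_eq h]⟩

end Vale.Agent.P275RL
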