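import Vale.Agent.P275DS.Px
import Vale.Agent.P275QV.Bvx
import Vale.Agent.P275GQ.Mp
import Vale.Agent.P275FG.Main
import Vale.Agent.P275BW.Inst

/-!
# P275, descent of curious hard Lefschetz: the package of spaces
-/

open Set Topology Function Matrix Sum Module
open P275BC hiding mt V1
open P275QV Vale.Agent.P275BW Vale.Agent.P275CH
open Vale.Agent.P275OM (Mx)
open Vale.Agent.P275ST (Rep XB zeta dimR)
open Vale.Agent.P275XB (Ok ix ep prim)
open P275CC (LB PFib)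

noncomputable section

namespace Vale.Agent.P275RK

theorem pfib_ref {Y : Type} [TopologicalSpace Y] {L L' : LB Y} {F : Set Y} {r e : ℕ}
    (a : L'.ι → L.ι) (h1 : ∀ i, L'.U i ⊆ L.U (a i))
    (h2 : ∀ i j x, x ∈ L'.U i → x ∈ L'.U j → L'.g i j x = L.g (a i) (a j) x) :
    PFib L F r e → PFib L' F r e := fun ⟨q, s, k1, k2, k3, k4, k5, k6, k7⟩ =>
  ⟨q, fun i => s (a i), k1, k2, k3, fun i => (k4 _).mono fun _ k => ⟨k.1, h1 i k.2⟩,
    fun i v k k' => k5 _ v k (h1 i k'), fun i v c k k' k'' => k6 _ v c k k' (h1 i k''),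
    fun i j v k k' k'' => (k7 _ _ v k (h1 i k') (h1 j k'')).trans (by rw [h2 i j _ k' k''])⟩

theorem pfib_pb {E Q E' Q' : Type} [TopologicalSpace E] [TopologicalSpace Q] [TopologicalSpace E']
    [TopologicalSpace Q'] {π : E → Q} {T : E → E → ℂ → Prop} {π' : E' → Q'}
    {T' : E' → E' → ℂ → Prop} (h : Loc π T) (h' : Loc π' T') {G : E' → E} (hG : Continuous G)
    (g : C(Q', Q)) (e : ∀ a, g (π' a) = π (G a)) (e' : ∀ a b c, T' a b c → T (G a) (G b) c)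
    {F : Set Q'} {r k : ℕ} : PFib h'.lb F r k → PFib (h.lb.pb g) F r k := by
  have key : ∀ (c : h.lb.ι) a, g (π' a) ∈ h.lb.U c → G a ∈ c.1.1 := fun c a k =>
    h.mem_U.1 (e a ▸ k)
  refine pfib_ref (fun c : h.lb.ι => ⟨(G ⁻¹' c.1.1, fun a => c.1.2 (G a)), c.2.comp hG e'⟩)
    (fun c x k => ?_) fun c c' x k k' => ?_
  · obtain ⟨a, rfl⟩ := h'.oq.surjective x
    exact h'.mem_U.2 (key c a k)
  · obtain ⟨a, rfl⟩ := h'.oq.surjective x
    refine .symm ((h'.lb_g (h'.mem_U.2 (key c a k)) (h'.mem_U.2 (key c' a k'))).trans ?_)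
    exact ((congrArg (h.lb.g c c') (e a)).trans
      (h.lb_g (h.mem_U.2 (key c a k)) (h.mem_U.2 (key c' a k')))).symm

variable {n g r : ℕ} {d : ℤ}

theorem cj_ut {h v : Mx n} (h1 : UT h) (h2 : h.det ≠ 0) (h3 : UT v) : UT (h * v * h⁻¹) :=
  fun _ _ e => (h1.bt.mul h3.bt).mul (ut_inv h1 h2).bt e

theorem bst_V1 : Bst (V1 n) := fun h _ k v hv => by
  obtain ⟨c, rfl⟩ := Submodule.mem_span_singleton.1 hv
  rw [Matrix.mul_smul, Matrix.smul_mul, Matrix.mul_one, mul_nonsing_inv _ k.isUnit]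
  exact hv

theorem bst_Vn : Bst (Vn n) := fun _ k k' _ hv =>
  ⟨cj_ut k k' hv.1, fun a => (cj_diag k k' hv.1 a).trans (hv.2 a)⟩

theorem ut_h0 : UT (h0 n) := fun _ _ e => diagonal_apply_ne _ e.ne'

theorem bst_V0 : Bst (V0 n) := fun h k k' v hv => by
  obtain ⟨_, h1, w, h2, rfl⟩ := Submodule.mem_sup.1 hv
  obtain ⟨c, rfl⟩ := Submodule.mem_span_singleton.1 h1
  have e : h * h0 n * h⁻¹ - h0 n ∈ Vn n :=
    ⟨fun a b l => sub_eq_zero.2 ((cj_ut k k' ut_h0 a b l).trans (ut_h0 a b l).symm),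
      fun a => sub_eq_zero.2 (cj_diag k k' ut_h0 a)⟩
  refine Submodule.mem_sup.2 ⟨_, h1, _, add_mem ((Vn n).smul_mem c e) (bst_Vn h k k' w h2), ?_⟩
  simp only [Matrix.mul_add, Matrix.add_mul, Matrix.mul_smul, Matrix.smul_mul, smul_sub]
  abel

theorem fr_Vn : finrank ℂ (Vn n) = Fintype.card (Pos n) :=
  finrank_supp (vc n) (fun p => p.1 < p.2) fun _ => ⟨fun h p e => (not_lt.1 e).eq_or_lt.elim
    (fun l => (congrArg _ l).trans (h.2 p.1)) (h.1 _ _),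
    fun h => ⟨fun a b l => h (a, b) l.not_gt, fun a => h (a, a) (lt_irrefl a)⟩⟩

theorem fr_V1 : finrank ℂ (V1 (r + 1)) = 1 := finrank_span_singleton one_ne_zero

theorem fr_V0 : finrank ℂ (V0 (r + 1)) = Fintype.card (Pos (r + 1)) + 1 := by
  have k : h0 (r + 1) ∉ Vn (r + 1) := fun e => by simpa [h0] using e.2 0
  rw [V0, sup_comm, Submodule.finrank_sup_span_singleton k, fr_Vn]

theorem two_pos (r : ℕ) : 2 * Fintype.card (Pos (r + 1)) = r * (r + 1) := by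
  have := Finset.card_product_filter_lt (s := (Finset.univ : Finset (Fin (r + 1))))
  rw [Finset.card_univ, Fintype.card_fin, Finset.univ_product_univ, Nat.choose_two_right] at this
  rw [Fintype.card_subtype, this, Nat.mul_div_cancel' (Nat.even_mul_pred_self _).two_dvd,
    Nat.add_sub_cancel, mul_comm]

/-- the highest root vector -/
def cnr (r : ℕ) : Mx (r + 1) := single 0 (Fin.last r) 1

theorem cnr_ne : cnr r ≠ 0 := fun e => by simpa [cnr] using congrFun₂ e 0 (Fin.last r)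

theorem cnr_mem (hr : 0 < r) : cnr r ∈ Vn (r + 1) :=
  ⟨fun a b l => single_apply_of_row_ne (fun e => by simp [← e] at l) _ _ _, fun a =>
    single_apply_of_ne _ _ _ _ _ fun e => by
      have := congrArg Fin.val (e.1.trans e.2.symm)
      simp at this
      omega⟩

theorem cnr_st (h : Mx (r + 1)) (k : UT h) (k' : h.det ≠ 0) :
    ∃ t : ℂ, t ≠ 0 ∧ cnr r = t • (h * cnr r * h⁻¹) := by
  have e1 : h * cnr r = h 0 0 • cnr r := by
    ext a b
    by_cases l : a = 0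
    · subst l
      by_cases l' : Fin.last r = b
      · subst l'
        simp [cnr]
      · simp [cnr, l', Ne.symm l']
    · by_cases l' : b = Fin.last r
      · subst l'
        simp [cnr, Ne.symm l, k a 0 (Fin.pos_iff_ne_zero.2 l)]
      · simp [cnr, Ne.symm l, l']
  have e2 : cnr r * h = h (Fin.last r) (Fin.last r) • cnr r := by
    ext a b
    by_cases l : a = 0
    · subst l
      by_cases l' : Fin.last r = b
      · subst l'
        simp [cnr]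
      · simp [cnr, l', k _ b (Fin.lt_last_iff_ne_last.2 (Ne.symm l'))]
    · simp [cnr, Ne.symm l, l]
  have a0 := UT.diag_ne k k' 0
  have a1 := UT.diag_ne k k' (Fin.last r)
  refine ⟨h (Fin.last r) (Fin.last r) / h 0 0, div_ne_zero a1 a0, ?_⟩
  rw [e1, Matrix.smul_mul, smul_smul, div_mul_cancel₀ _ a0, ← Matrix.smul_mul, ← e2,
    Matrix.mul_assoc, mul_nonsing_inv _ k'.isUnit, Matrix.mul_one]

theorem prj_id (V : Submodule ℂ (Mx (r + 1))) {v h1 h2 h3} (x : Pq g d (V1 (r + 1))) :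
    prj V (sec _ (v := v) h1 h2 h3 x) = x := by
  obtain ⟨y, rfl⟩ := mk_quo.surjective x
  obtain ⟨c, e⟩ := Submodule.mem_span_singleton.1 y.2.1
  have k : c ≠ 0 := fun l => y.2.2.1 (by rw [← e, l, zero_smul])
  refine (mk_eq (y := y) (y' := ⟨pt 1 (y.1 ∘ inr), Submodule.mem_span_singleton_self _,
    one_ne_zero, y.2.2.2⟩).2 ⟨1, c, (Rl.refl y.1).1, (Rl.refl y.1).2.1, k, ?_,
      (cjx_one _).symm⟩).symm
  refine e.symm.trans (congrArg (c • ·) ?_)
  change (1 : Mx (r + 1)) = 1 * 1 * 1⁻¹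
  simp

theorem ex_dim {d1 : ℕ} (hr : 0 < r) (hg : g ≠ 0)
    (hd : 2 * d1 + 4 * g + r * (r + 5) = 4 * g * (r + 1) ^ 2) :
    ∃ M, Fintype.card (Pos (r + 1)) = M + 1 ∧
      2 * dimR g (r + 1) + (M + 1) + (M + 1) + 2 * g + r * (r + 3) = 2 * g * (r + 1) ^ 2 ∧
      d1 = 2 * dimR g (r + 1) + (M + 1) + (M + 1) + (M + 1) := by
  have n1 := two_pos r
  obtain ⟨M, hM⟩ : ∃ M, Fintype.card (Pos (r + 1)) = M + 1 :=
    Nat.exists_eq_add_one.2 (by nlinarith)
  have n2 : 2 * dimR g (r + 1) + 2 * g + r * (r + 2) * 2 = 2 * g * (r + 1) ^ 2 := by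
    obtain ⟨k, rfl⟩ := Nat.exists_eq_add_one_of_ne_zero hg
    rw [dimR, show (r + 1) ^ 2 - 1 = r * (r + 2) from Nat.sub_eq_of_eq_add (by ring),
      Nat.add_sub_cancel]
    ring
  rw [hM] at n1
  exact ⟨M, hM, by linarith, by linarith⟩

/-- **the package exists** -/
theorem pkx : P275DS.PKX := by
  intro r g d ok κ _ q d1 W1 hr hq hd
  obtain ⟨M, hM, n1, n2⟩ := ex_dim hr ok.hg hd
  obtain ⟨W⟩ := f1_var (d := 2 * dimR g (r + 1) + (M + 1) + (M + 1)) (prim (d := d) g)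
    (QP.mono hq rz_sub) n1
  obtain ⟨⟨_, ⟨F⟩⟩, -, hL⟩ := bvx r g d (V1 _) (2 * dimR g (r + 1) + (M + 1)) bst_V1
    (by rw [fr_V1, hM])
  obtain ⟨⟨_, ⟨P⟩⟩, hT, -⟩ := bvx r g d (V0 _) (2 * dimR g (r + 1) + (M + 1) + (M + 1)) bst_V0
    (by rw [fr_V0, hM]; rfl)
  obtain ⟨⟨_, ⟨Q⟩⟩, hT', -⟩ := bvx r g d (Vn _) (2 * dimR g (r + 1) + (M + 1) + M) bst_Vn
    (by rw [fr_Vn, hM]; rfl)
  obtain ⟨m1, m2, m3⟩ := maps P275FG.flag r g d
  obtain ⟨π, p1, p2, p3, p4, p5⟩ := m3 _ _ F hL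
  obtain ⟨i, j, Δ, a1, a2, a3, a4, a5, a6, a7, a8, a9, a10⟩ :=
    aff r g d κ q _ _ W1 W _ P hT _ _ F hL hq
  have b1 := (m1 _ _ _ _ _ _ Q P).1 le_sup_right bst_Vn
  have b2 := m2 _ _ hT bst_V0 (by rw [fr_V0, hM])
  have b3 := m2 _ _ hT' bst_Vn (by rw [fr_Vn, hM])
  have b4 : (prj (V0 (r + 1))).comp (inc (g := g) (d := d) (le_sup_right : Vn _ ≤ V0 _)) = prj _ :=
    ContinuousMap.ext fun x => by
      obtain ⟨y, rfl⟩ := mk_quo.surjective x
      rfl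
  have b6 := fun x => pfib_pb hT hT' (G := fun y => ⟨y.1, Submodule.mem_sup_right y.2.1, y.2.2⟩)
    (continuous_subtype_val.subtype_mk _) (inc le_sup_right) (fun _ => rfl) (fun _ _ _ k => k)
    (b3.2 x)
  rw [← b4] at b6
  have b5 := dlt_dg (M := F.vr) hL
  rw [hM] at a8 b5 p5
  have b7 : ∀ z, ∃ ρ : Rep g (r + 1) d, W1.ι (i z) = qm q (ix (ep ρ)) ∧
      π (prj _ (j z)) = ρ.pt := fun z => by
    obtain ⟨x, k, e⟩ := W.mem z
    refine ⟨rep x k, (a1 z).trans (by rw [ix_rep, e]), ?_⟩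
    rw [a2 z (ja ⟨x, k⟩) rfl e]
    exact p1 ⟨pt 1 x, Submodule.mem_span_singleton_self _, one_ne_zero, k⟩
  let K : Pk M (vXB g (r + 1) d) (vr W1) :=
    { dF := _, dE := _, dQ := _, F := F.vr, E := vr W, P := P.vr, Q := Q.vr, eF := rfl, eE := rfl
      e1 := n2
      eQ := rfl, i := i, j := j, ι := inc le_sup_right, p := prj _, π := π
      σ := sec _ (Submodule.mem_sup_right (cnr_mem hr)) cnr_ne cnr_st
      ai := a3, aj := a5, aι := b1.1, ap := (m1 _ _ _ _ _ _ P F).2 _ _ _ _, aπ := p2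
      hσ := ((m1 _ _ _ _ _ _ F P).2 _ _ _ _).hol
      ci := a4, cι := b1.2, ej := a6, pp := b2.1, pπ := p3, pσ := prj_id _, Λ := hT.lb, fP := b2.2
      fQ := b6
      tj := a7, Δ1 := Δ, ΔF := dlt F.vr hL, g1 := (P275S.th_pr_iff _ _ _).1 a8
      gF := (P275S.th_pr_iff _ _ _).1 b5, off := a9, eq := a10
      sbm := p4, spn := p5 }
  exact ⟨M, K, b7⟩

end Vale.Agent.P275RK
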