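import Mathlib.Analysis.Complex.Schwarz
import Mathlib.Analysis.Complex.LocallyUniformLimit
import Mathlib.Analysis.Calculus.ParametricIntervalIntegral
import Mathlib.Analysis.Analytic.IsolatedZeros
import Mathlib.Analysis.SpecialFunctions.Integrals.Basic

/-!
# P275, local Riemann-Hilbert: the equation `z u' + c u + T u = f` on a disc
-/

set_option linter.all false

open scoped Topology
open Filter Set Metric MeasureTheory

noncomputable section

namespace Vale.Agent.P275RL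

variable {E : Type} [NormedAddCommGroup E] [NormedSpace ℂ E] [CompleteSpace E]

theorem ray_mem {r : ℝ} {z : ℂ} (hz : z ∈ ball (0 : ℂ) r) {s : ℝ} (hs : s ∈ Icc (0 : ℝ) 1) :
    (s : ℂ) * z ∈ ball (0 : ℂ) r := by
  rw [mem_ball_zero_iff] at hz ⊢
  rw [norm_mul, Complex.norm_real, Real.norm_of_nonneg hs.1]
  exact lt_of_le_of_lt (mul_le_of_le_one_left (norm_nonneg _) hs.2) hz

/-- the inverse of `z d + c + 1` -/
def J (c : ℕ) (f : ℂ → E) (z : ℂ) : E := ∫ s in (0 : ℝ)..1, (s : ℂ) ^ c • f (s * z)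

theorem cont_ray {r : ℝ} {f : ℂ → E} (hf : ContinuousOn f (ball 0 r)) {z : ℂ}
    (hz : z ∈ ball (0 : ℂ) r) (c : ℕ) :
    ContinuousOn (fun s : ℝ => (s : ℂ) ^ c • f (s * z)) (uIcc 0 1) := by
  rw [uIcc_of_le zero_le_one]
  refine ContinuousOn.smul (by fun_prop) (hf.comp (by fun_prop) fun s hs => ray_mem hz hs)

theorem J_le {r F : ℝ} {f : ℂ → E} (hF : ∀ z ∈ ball (0 : ℂ) r, ‖f z‖ ≤ F) (c : ℕ) {z : ℂ}
    (hz : z ∈ ball (0 : ℂ) r) : ‖J c f z‖ ≤ F / (c + 1) := by
  have h : ‖J c f z‖ ≤ ∫ s in (0 : ℝ)..1, s ^ c * F := by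
    refine intervalIntegral.norm_integral_le_of_norm_le zero_le_one
      (Eventually.of_forall fun s hs => ?_) (Continuous.intervalIntegrable (by fun_prop) _ _)
    rw [norm_smul, norm_pow, Complex.norm_real, Real.norm_of_nonneg hs.1.le]
    exact mul_le_mul_of_nonneg_left (hF _ (ray_mem hz ⟨hs.1.le, hs.2⟩)) (pow_nonneg hs.1.le _)
  rw [intervalIntegral.integral_mul_const, integral_pow] at h
  refine h.trans_eq ?_
  simp
  ring

theorem J_der {r : ℝ} {f : ℂ → E} (hf : DifferentiableOn ℂ f (ball 0 r)) (c : ℕ) {z : ℂ}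
    (hz : z ∈ ball (0 : ℂ) r) : HasDerivAt (J c f) (J (c + 1) (deriv f) z) z := by
  have hd : ContinuousOn (deriv f) (ball 0 r) := (hf.deriv isOpen_ball).continuousOn
  obtain ⟨ρ, h1, h2⟩ := exists_between (mem_ball_zero_iff.1 hz)
  obtain ⟨B, hB⟩ := (isCompact_closedBall (0 : ℂ) ρ).exists_bound_of_continuousOn
    (hd.mono (closedBall_subset_ball h2))
  have hzρ : ball (0 : ℂ) ρ ∈ 𝓝 z := isOpen_ball.mem_nhds (mem_ball_zero_iff.2 h1)
  have hsub : ball (0 : ℂ) ρ ⊆ ball 0 r := ball_subset_ball h2.le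
  have hI : ∀ s ∈ uIoc (0 : ℝ) 1, s ∈ Icc (0 : ℝ) 1 := fun s hs => by
    rw [uIoc_of_le zero_le_one] at hs; exact ⟨hs.1.le, hs.2⟩
  refine (intervalIntegral.hasDerivAt_integral_of_dominated_loc_of_deriv_le
    (F := fun x (s : ℝ) => (s : ℂ) ^ c • f (s * x))
    (F' := fun x (s : ℝ) => (s : ℂ) ^ (c + 1) • deriv f (s * x)) (bound := fun _ => B) hzρ ?_
    (cont_ray hf.continuousOn hz c).intervalIntegrable ?_ ?_ (by simp) ?_).2
  · filter_upwards [hzρ] with x hx
    exact ((cont_ray hf.continuousOn (hsub hx) c).mono uIoc_subset_uIcc).aestronglyMeasurable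
      measurableSet_uIoc
  · exact ((cont_ray hd hz (c + 1)).mono uIoc_subset_uIcc).aestronglyMeasurable measurableSet_uIoc
  · refine Eventually.of_forall fun s hs x hx => ?_
    have h0 := hI s hs
    rw [norm_smul, norm_pow, Complex.norm_real, Real.norm_of_nonneg h0.1]
    have h3 := hB _ (ball_subset_closedBall (ray_mem hx h0))
    exact (mul_le_of_le_one_left (norm_nonneg _) (pow_le_one₀ h0.1 h0.2)).trans h3
  · refine Eventually.of_forall fun s hs x hx => ?_
    have h3 : HasDerivAt f (deriv f (s * x)) (s * x) :=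
      (hf.differentiableAt (isOpen_ball.mem_nhds (hsub (ray_mem hx (hI s hs))))).hasDerivAt
    have h4 := (h3.scomp x ((hasDerivAt_id x).const_mul (s : ℂ))).const_smul ((s : ℂ) ^ c)
    refine HasDerivAt.congr_deriv h4 ?_
    rw [smul_smul, mul_one, pow_succ]

theorem J_diff {r : ℝ} {f : ℂ → E} (hf : DifferentiableOn ℂ f (ball 0 r)) (c : ℕ) :
    DifferentiableOn ℂ (J c f) (ball 0 r) := fun z hz =>
  (J_der hf c hz).differentiableAt.differentiableWithinAt

theorem J_eq {r : ℝ} {f : ℂ → E} (hf : DifferentiableOn ℂ f (ball 0 r)) (c : ℕ) {z : ℂ}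
    (hz : z ∈ ball (0 : ℂ) r) : z • deriv (J c f) z + ((c : ℂ) + 1) • J c f z = f z := by
  have hd : ContinuousOn (deriv f) (ball 0 r) := (hf.deriv isOpen_ball).continuousOn
  have i1 : IntervalIntegrable (fun s : ℝ => z • ((s : ℂ) ^ (c + 1) • deriv f (s * z)))
      volume 0 1 := ((cont_ray hd hz (c + 1)).intervalIntegrable (μ := volume)).smul z
  have i2 : IntervalIntegrable (fun s : ℝ => ((c : ℂ) + 1) • ((s : ℂ) ^ c • f (s * z)))
      volume 0 1 := ((cont_ray hf.continuousOn hz c).intervalIntegrable (μ := volume)).smul _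
  rw [(J_der hf c hz).deriv, J, J, ← intervalIntegral.integral_smul,
    ← intervalIntegral.integral_smul, ← intervalIntegral.integral_add i1 i2]
  have := intervalIntegral.integral_eq_sub_of_hasDerivAt (a := (0 : ℝ)) (b := 1)
    (f := fun s : ℝ => (s : ℂ) ^ (c + 1) • f (s * z))
    (f' := fun s : ℝ => z • ((s : ℂ) ^ (c + 1) • deriv f (s * z)) +
      ((c : ℂ) + 1) • ((s : ℂ) ^ c • f (s * z))) ?_ (i1.add i2)
  · simpa using this
  · intro s hs
    rw [uIcc_of_le zero_le_one] at hs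
    have h3 : HasDerivAt f (deriv f (s * z)) (s * z) :=
      (hf.differentiableAt (isOpen_ball.mem_nhds (ray_mem hz hs))).hasDerivAt
    have h4 : HasDerivAt (fun w : ℂ => w ^ (c + 1) • f (w * z))
        (z • ((s : ℂ) ^ (c + 1) • deriv f (s * z)) + ((c : ℂ) + 1) • ((s : ℂ) ^ c • f (s * z)))
        (s : ℂ) := by
      have h5 := (hasDerivAt_pow (c + 1) (s : ℂ)).smul
        (h3.scomp (s : ℂ) ((hasDerivAt_id (s : ℂ)).mul_const z))
      refine HasDerivAt.congr_deriv h5 ?_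
      simp [smul_smul, mul_comm]
    simpa [Function.comp_def] using
      (h4.hasFDerivAt.restrictScalars ℝ).comp_hasDerivAt s Complex.ofRealCLM.hasDerivAt

/-- `u` is a holomorphic solution of `z u' + c u + T u = f` on the disc -/
structure Sol (r : ℝ) (c : ℕ) (T : ℂ → E →L[ℂ] E) (f u : ℂ → E) : Prop where
  hol : DifferentiableOn ℂ u (ball 0 r)
  eq : ∀ z ∈ ball (0 : ℂ) r, z • deriv u z + (c : ℂ) • u z + T z (u z) = f z

theorem sol_big {r M F : ℝ} {c : ℕ} (hc : 2 * M < c) {T : ℂ → E →L[ℂ] E}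
    (hT : DifferentiableOn ℂ T (ball 0 r)) (hM : ∀ z ∈ ball (0 : ℂ) r, ‖T z‖ ≤ M) (hM0 : 0 ≤ M)
    {f : ℂ → E} (hf : DifferentiableOn ℂ f (ball 0 r)) (hF : ∀ z ∈ ball (0 : ℂ) r, ‖f z‖ ≤ F)
    (hF0 : 0 ≤ F) : ∃ u, Sol r c T f u ∧ ∀ z ∈ ball (0 : ℂ) r, ‖u z‖ ≤ 2 * F := by
  obtain ⟨c, rfl⟩ : ∃ c', c = c' + 1 := by
    cases c with
    | zero => simp at hc; linarith
    | succ c => exact ⟨c, rfl⟩
  push_cast at hc
  have hc0 : (0 : ℝ) < c + 1 := by positivity
  let v : ℕ → ℂ → E := fun k => Nat.rec (J c f) (fun _ w => J c fun z => -T z (w z)) k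
  have hv : ∀ k, DifferentiableOn ℂ (v k) (ball 0 r) ∧
      ∀ z ∈ ball (0 : ℂ) r, ‖v k z‖ ≤ F * (1 / 2) ^ k := by
    intro k
    induction k with
    | zero =>
      refine ⟨J_diff hf c, fun z hz => (J_le hF c hz).trans ?_⟩
      simpa using div_le_self hF0 (by linarith [Nat.cast_nonneg (α := ℝ) c])
    | succ k ih =>
      refine ⟨J_diff (hT.clm_apply ih.1).neg c, fun z hz => ?_⟩
      have h1 : ∀ z ∈ ball (0 : ℂ) r, ‖-T z (v k z)‖ ≤ M * (F * (1 / 2) ^ k) := fun z hz => by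
        rw [norm_neg]
        exact ((T z).le_opNorm _).trans (mul_le_mul (hM z hz) (ih.2 z hz) (norm_nonneg _) hM0)
      refine (J_le h1 c hz).trans ?_
      rw [div_le_iff₀ hc0, pow_succ]
      have : 0 ≤ F * (1 / 2 : ℝ) ^ k := by positivity
      nlinarith
  have hs : Summable fun k : ℕ => F * (1 / 2 : ℝ) ^ k := summable_geometric_two.mul_left F
  have hu : ∀ z ∈ ball (0 : ℂ) r, HasSum (fun k => v k z) (∑' k, v k z) := fun z hz =>
    (Summable.of_norm_bounded hs fun k => (hv k).2 z hz).hasSum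
  refine ⟨fun z => ∑' k, v k z, ⟨Complex.differentiableOn_tsum_of_summable_norm hs
    (fun k => (hv k).1) isOpen_ball fun k => (hv k).2, fun z hz => ?_⟩, fun z hz => ?_⟩
  · have h1 := ((Complex.hasSum_deriv_of_summable_norm hs (fun k => (hv k).1) isOpen_ball
      (fun k => (hv k).2) hz).const_smul z).add ((hu z hz).const_smul ((c : ℂ) + 1))
    have h2 : HasSum (fun k => z • deriv (v (k + 1)) z + ((c : ℂ) + 1) • v (k + 1) z)
        (-T z (∑' k, v k z)) := by
      have e : (fun k => z • deriv (v (k + 1)) z + ((c : ℂ) + 1) • v (k + 1) z) =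
          fun k => -T z (v k z) := funext fun k => J_eq (hT.clm_apply (hv k).1).neg c hz
      rw [e]
      exact ((T z).hasSum (hu z hz)).neg
    have h3 := (hasSum_nat_add_iff' 1).2 h1
    have h4 := h3.unique h2
    have h5 : z • deriv (v 0) z + ((c : ℂ) + 1) • v 0 z = f z := J_eq hf c hz
    simp only [Finset.range_one, Finset.sum_singleton, h5] at h4
    push_cast
    rw [sub_eq_iff_eq_add] at h4
    rw [h4]; abel
  · have := tsum_of_norm_bounded (hasSum_geometric_two.mul_left F) fun k => (hv k).2 z hz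
    linarith

/-- `k + L` is onto with a bound, for all `k ≥ c` -/
def Onto (c : ℕ) (B : ℝ) (L : E →L[ℂ] E) : Prop :=
  ∀ k : ℕ, c ≤ k → ∀ y, ∃ x, (k : ℂ) • x + L x = y ∧ ‖x‖ ≤ B * ‖y‖

theorem eq_on_of_ne {r : ℝ} {u v : ℂ → E} (hu : ContinuousOn u (ball 0 r))
    (hv : ContinuousOn v (ball 0 r)) (h : ∀ z ∈ ball (0 : ℂ) r, z ≠ 0 → u z = v z) :
    ∀ z ∈ ball (0 : ℂ) r, u z = v z := by
  intro z hz
  rcases ne_or_eq z 0 with h0 | rfl
  · exact h z hz h0
  have hb := isOpen_ball.mem_nhds hz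
  refine tendsto_nhds_unique_of_eventuallyEq (l := 𝓝[≠] (0 : ℂ))
    ((hu.continuousAt hb).tendsto.mono_left nhdsWithin_le_nhds)
    ((hv.continuousAt hb).tendsto.mono_left nhdsWithin_le_nhds) ?_
  filter_upwards [mem_nhdsWithin_of_mem_nhds hb, self_mem_nhdsWithin] with w h1 h2 using h w h1 h2

/-- the left hand side is continuous -/
theorem cont_lhs {r : ℝ} {T : ℂ → E →L[ℂ] E} {u : ℂ → E} (hT : ContinuousOn T (ball 0 r))
    (hu : DifferentiableOn ℂ u (ball 0 r)) (c : ℂ) :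
    ContinuousOn (fun z => z • deriv u z + c • u z + T z (u z)) (ball 0 r) :=
  ((continuousOn_id.smul (hu.deriv isOpen_ball).continuousOn).add
    (hu.continuousOn.const_smul c)).add (hT.clm_apply hu.continuousOn)

theorem sol_step {r M B F K : ℝ} (hr : 0 < r) {c : ℕ} {T : ℂ → E →L[ℂ] E}
    (hT : DifferentiableOn ℂ T (ball 0 r)) (hM : ∀ z ∈ ball (0 : ℂ) r, ‖T z‖ ≤ M)
    (hB0 : 0 ≤ B) (hK0 : 0 ≤ K) (hB : Onto c B (T 0))
    (ih : ∀ (f : ℂ → E) (F : ℝ), DifferentiableOn ℂ f (ball 0 r) →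
      (∀ z ∈ ball (0 : ℂ) r, ‖f z‖ ≤ F) →
      ∃ u, Sol r (c + 1) T f u ∧ ∀ z ∈ ball (0 : ℂ) r, ‖u z‖ ≤ K * F)
    {f : ℂ → E} (hf : DifferentiableOn ℂ f (ball 0 r)) (hF : ∀ z ∈ ball (0 : ℂ) r, ‖f z‖ ≤ F) :
    ∃ u, Sol r c T f u ∧ ∀ z ∈ ball (0 : ℂ) r, ‖u z‖ ≤ (B + K * (2 + 2 * M * B)) * F := by
  have h0 : (0 : ℂ) ∈ ball (0 : ℂ) r := mem_ball_self hr
  have hF0 : 0 ≤ F := (norm_nonneg _).trans (hF 0 h0)
  have hM0 : 0 ≤ M := (norm_nonneg _).trans (hM 0 h0)
  obtain ⟨x, hx, hxB⟩ := hB c le_rfl (f 0)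
  have hxF : ‖x‖ ≤ B * F := hxB.trans (mul_le_mul_of_nonneg_left (hF 0 h0) hB0)
  set g : ℂ → E := fun z => f z - T z x with hg
  have hgd : DifferentiableOn ℂ g (ball 0 r) := hf.sub (hT.clm_apply (differentiableOn_const x))
  have hgb : ∀ z ∈ ball (0 : ℂ) r, ‖g z‖ ≤ F + M * (B * F) := fun z hz =>
    (norm_sub_le _ _).trans (add_le_add (hF z hz) (((T z).le_opNorm _).trans
      (mul_le_mul (hM z hz) hxF (norm_nonneg _) hM0)))
  have hd : DifferentiableOn ℂ (dslope g 0) (ball 0 r) :=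
    (Complex.differentiableOn_dslope (ball_mem_nhds 0 hr)).2 hgd
  obtain ⟨v, hv, hvb⟩ := ih (dslope g 0) ((2 + 2 * M * B) * F / r) hd fun z hz =>
    Complex.norm_dslope_le_div_of_mapsTo_ball hgd (fun w hw => by
      rw [mem_closedBall, dist_eq_norm]
      have := norm_sub_le (g w) (g 0)
      have := hgb w hw
      have := hgb 0 h0
      nlinarith) hz
  refine ⟨fun z => x + z • v z, ⟨(differentiableOn_const x).add (differentiableOn_id.smul hv.hol),
    fun z hz => ?_⟩, fun z hz => ?_⟩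
  · have h1 : HasDerivAt (fun z => x + z • v z) (z • deriv v z + v z) z := by
      have := ((hasDerivAt_id z).smul
        (hv.hol.differentiableAt (isOpen_ball.mem_nhds hz)).hasDerivAt).const_add x
      simpa using this
    have h2 := congrArg (z • ·) (hv.eq z hz)
    have h3 := sub_smul_dslope g 0 z
    simp only [sub_zero] at h3
    simp only [h3] at h2
    simp only [hg] at h2
    rw [h1.deriv, map_add, map_smul]
    push_cast at h2
    rw [← hx] at h2
    linear_combination (norm := module) h2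
  · have h1 : ‖z‖ ≤ r := (mem_ball_zero_iff.1 hz).le
    have h2 : ‖z • v z‖ ≤ r * (K * ((2 + 2 * M * B) * F / r)) := by
      rw [norm_smul]; exact mul_le_mul h1 (hvb z hz) (norm_nonneg _) hr.le
    have h3 : r * (K * ((2 + 2 * M * B) * F / r)) = K * (2 + 2 * M * B) * F := by field_simp
    have := norm_add_le x (z • v z)
    nlinarith

/-- existence with a bound which depends only on `M` and `B` -/
theorem sol_ex (M B : ℝ) (hB0 : 0 ≤ B) : ∃ K : ℝ, 0 ≤ K ∧ ∀ (r : ℝ) (c : ℕ) (T : ℂ → E →L[ℂ] E),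
    0 < r → DifferentiableOn ℂ T (ball 0 r) → (∀ z ∈ ball (0 : ℂ) r, ‖T z‖ ≤ M) → Onto c B (T 0) →
    ∀ (f : ℂ → E) (F : ℝ), DifferentiableOn ℂ f (ball 0 r) → (∀ z ∈ ball (0 : ℂ) r, ‖f z‖ ≤ F) →
      ∃ u, Sol r c T f u ∧ ∀ z ∈ ball (0 : ℂ) r, ‖u z‖ ≤ K * F := by
  have key : ∀ d : ℕ, ∃ K : ℝ, 2 ≤ K ∧ ∀ (r : ℝ) (c : ℕ) (T : ℂ → E →L[ℂ] E), 2 * M < c + d →
      0 < r → DifferentiableOn ℂ T (ball 0 r) → (∀ z ∈ ball (0 : ℂ) r, ‖T z‖ ≤ M) →
      Onto c B (T 0) → ∀ (f : ℂ → E) (F : ℝ), DifferentiableOn ℂ f (ball 0 r) →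
      (∀ z ∈ ball (0 : ℂ) r, ‖f z‖ ≤ F) →
      ∃ u, Sol r c T f u ∧ ∀ z ∈ ball (0 : ℂ) r, ‖u z‖ ≤ K * F := by
    intro d
    induction d with
    | zero =>
      refine ⟨2, le_rfl, fun r c T hc hr hT hM _ f F hf hF => ?_⟩
      exact sol_big (by simpa using hc) hT hM ((norm_nonneg _).trans (hM 0 (mem_ball_self hr))) hf
        hF ((norm_nonneg _).trans (hF 0 (mem_ball_self hr)))
    | succ d ih =>
      obtain ⟨K, hK, ih⟩ := ih
      refine ⟨B + K * (2 + 2 * |M| * B), by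
        have : 0 ≤ K * (|M| * B) := by positivity
        nlinarith, fun r c T hc hr hT hM hB f F hf hF => ?_⟩
      exact sol_step hr hT (fun z hz => (hM z hz).trans (le_abs_self M)) hB0 (by linarith) hB
        (ih r (c + 1) T (by push_cast at hc ⊢; linarith) hr hT hM
          fun k hk => hB k (by omega)) hf hF
  obtain ⟨d, hd⟩ := exists_nat_gt (2 * M)
  obtain ⟨K, hK, h⟩ := key d
  exact ⟨K, by linarith, fun r c T => h r c T (by linarith [Nat.cast_nonneg (α := ℝ) c])⟩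

/-- uniqueness: a solution of the homogeneous equation of order at least `m` -/
theorem sol_zero {r : ℝ} {T : ℂ → E →L[ℂ] E} {u : ℂ → E} (hT : ContinuousOn T (ball 0 r))
    (hu : DifferentiableOn ℂ u (ball 0 r)) (c : ℂ)
    (h : ∀ z ∈ ball (0 : ℂ) r, z ≠ 0 → z • deriv u z + c • u z + T z (u z) = 0)
    (hi : ∀ k : ℕ, (k = 0 → u 0 ≠ 0) → ∀ x, ((k : ℂ) + c) • x + T 0 x = 0 → x = 0) :
    ∀ z ∈ ball (0 : ℂ) r, u z = 0 := by
  intro z hz
  have hr : 0 < r := pos_of_mem_ball hz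
  have ha := hu.analyticOnNhd isOpen_ball
  have h0 : (0 : ℂ) ∈ ball (0 : ℂ) r := mem_ball_self hr
  refine ha.eqOn_zero_of_preconnected_of_eventuallyEq_zero (convex_ball _ _).isPreconnected h0 ?_ hz
  by_contra hne
  obtain ⟨k, g, hg, hg0, e⟩ := (ha 0 h0).exists_eventuallyEq_pow_smul_nonzero_iff.2 hne
  simp only [sub_zero] at e
  obtain ⟨ρ, hρ, hb⟩ := Metric.eventually_nhds_iff_ball.1
    ((e.eventually_nhds.and hg.eventually_analyticAt).and (ball_mem_nhds (0 : ℂ) hr))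
  have hgd : DifferentiableOn ℂ g (ball 0 ρ) := fun w hw =>
    (hb w hw).1.2.differentiableAt.differentiableWithinAt
  have := eq_on_of_ne (cont_lhs (hT.mono fun w hw => (hb w hw).2) hgd ((k : ℂ) + c))
    (v := fun _ => 0) continuousOn_const (fun w hw hw0 => ?_) 0 (mem_ball_self hρ)
  · refine hg0 (hi k (fun hk => ?_) _ (by simpa using this))
    rw [e.self_of_nhds, hk]; simpa using hg0
  · have h1 : HasDerivAt u (w ^ k • deriv g w + ((k : ℂ) * w ^ (k - 1)) • g w) w :=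
      ((hasDerivAt_pow k w).smul (hb w hw).1.2.differentiableAt.hasDerivAt).congr_of_eventuallyEq
        (hb w hw).1.1
    have h2 := h w (hb w hw).2 hw0
    rw [h1.deriv, (hb w hw).1.1.self_of_nhds, map_smul, smul_add, smul_smul, smul_smul] at h2
    have h3 : w * ((k : ℂ) * w ^ (k - 1)) = k * w ^ k := by
      cases k with
      | zero => simp
      | succ k => simp [pow_succ]; ring
    rw [h3] at h2
    refine smul_right_injective E (pow_ne_zero k hw0) ?_
    simp only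
    linear_combination (norm := module) h2

end Vale.Agent.P275RL
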